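import Vale.Agent.P353.AN.A.Stmt

/-! # P353, all `N`, block A4: bounds near the reference point, uniform in the scale -/

open MeasureTheory Filter Topology
open scoped ContDiff

namespace Vale.Agent.P353.Z.AN

variable {d dh dm : ℕ} {F : Type*} [NormedAddCommGroup F] [InnerProductSpace ℂ F]

lemma bd_apply (S : Setup d F) (φ : Spl dh dm d) (i : Fin 9) (y : Cfg dh) (B C : Fin dm) :
    S.Dy φ i y B C = ∑ A, S.f (φ (Sum.inr B)) (φ (Sum.inl A)) (φ (Sum.inr C)) * y (i, A) := rfl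

lemma bd_smul (S : Setup d F) (φ : Spl dh dm d) (i : Fin 9) (R : ℝ) (y : Cfg dh) :
    S.Dy φ i (R • y) = R • S.Dy φ i y := by
  ext B C
  simp only [bd_apply, Matrix.smul_apply, PiLp.smul_apply, smul_eq_mul, Finset.mul_sum]
  exact Finset.sum_congr rfl fun A _ => by ring

lemma bd_cd (S : Setup d F) (φ : Spl dh dm d) (i : Fin 9) (B C : Fin dm) :
    ContDiff ℝ ∞ (fun y : Cfg dh => S.Dy φ i y B C) := by
  simp only [bd_apply]
  fun_prop

/-- the determinant of `D_8` -/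
noncomputable def bdet (S : Setup d F) (φ : Spl dh dm d) (y : Cfg dh) : ℝ := (S.Dy φ 8 y).det

lemma bdet_cd (S : Setup d F) (φ : Spl dh dm d) : ContDiff ℝ ∞ (bdet S φ : Cfg dh → ℝ) := by
  unfold bdet
  simp only [Matrix.det_apply]
  refine ContDiff.sum fun σ _ => ?_
  refine ContDiff.const_smul _ ?_
  refine contDiff_prod fun i _ => ?_
  exact bd_cd S φ 8 _ _

lemma bdet_smul (S : Setup d F) (φ : Spl dh dm d) (R : ℝ) (y : Cfg dh) :
    bdet S φ (R • y) = R ^ dm * bdet S φ y := by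
  unfold bdet
  rw [bd_smul, Matrix.det_smul, Fintype.card_fin]

/-- the logarithmic derivative -/
lemma bd_log (S : Setup d F) (φ : Spl dh dm d) (y : Cfg dh) (h : bdet S φ y ≠ 0) (e : Cfg dh) :
    fderiv ℝ (fun y' => Real.log (S.Jd φ y')) y e = (bdet S φ y)⁻¹ * fderiv ℝ (bdet S φ) y e := by
  have h1 : (fun y' => Real.log (S.Jd φ y')) = fun y' => Real.log (bdet S φ y') := by
    funext y'
    unfold Setup.Jd
    rw [Real.log_abs]
    rfl
  rw [h1]
  have h2 : HasFDerivAt (bdet S φ) (fderiv ℝ (bdet S φ) y) y :=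
    ((bdet_cd S φ).differentiable (by simp)).differentiableAt.hasFDerivAt
  rw [(h2.log h).fderiv]
  simp

lemma bd_fd_smul (S : Setup d F) (φ : Spl dh dm d) {R : ℝ} (hR : 0 < R) (y e : Cfg dh) :
    fderiv ℝ (bdet S φ) (R • y) e = R ^ dm * (R⁻¹ * fderiv ℝ (bdet S φ) y e) := by
  have hd : Differentiable ℝ (bdet S φ : Cfg dh → ℝ) := (bdet_cd S φ).differentiable (by simp)
  have h1 : (fun z => bdet S φ (R • z)) = fun z => R ^ dm * bdet S φ z := by
    funext z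
    exact bdet_smul S φ R z
  have h2 : HasFDerivAt (fun z => bdet S φ (R • z))
      ((fderiv ℝ (bdet S φ) (R • y)).comp (R • ContinuousLinearMap.id ℝ (Cfg dh))) y := by
    have h3 : HasFDerivAt (fun z : Cfg dh => R • z) (R • ContinuousLinearMap.id ℝ (Cfg dh)) y :=
      (hasFDerivAt_id y).const_smul R
    exact (hd (R • y)).hasFDerivAt.comp y h3
  have h4 : HasFDerivAt (fun z => R ^ dm * bdet S φ z) (R ^ dm • fderiv ℝ (bdet S φ) y) y :=
    (hd y).hasFDerivAt.const_mul (R ^ dm)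
  rw [h1] at h2
  have h5 := h2.unique h4
  have h6 : R * fderiv ℝ (bdet S φ) (R • y) e = R ^ dm * fderiv ℝ (bdet S φ) y e := by
    have h7 := congrArg (fun L : Cfg dh →L[ℝ] ℝ => L e) h5
    simpa using h7
  have h8 : R * R⁻¹ = 1 := mul_inv_cancel₀ hR.ne'
  calc fderiv ℝ (bdet S φ) (R • y) e = R⁻¹ * (R * fderiv ℝ (bdet S φ) (R • y) e) := by
        rw [← mul_assoc, inv_mul_cancel₀ hR.ne', one_mul]
    _ = _ := by rw [h6]; ring

lemma bd_inv_smul (S : Setup d F) (φ : Spl dh dm d) {R : ℝ} (hR : 0 < R) (y : Cfg dh)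
    (h : bdet S φ y ≠ 0) (B E : Fin dm) :
    (S.Dy φ 8 (R • y))⁻¹ B E = R⁻¹ * (S.Dy φ 8 y)⁻¹ B E := by
  have hu : IsUnit (S.Dy φ 8 y).det := isUnit_iff_ne_zero.2 h
  have h1 : (S.Dy φ 8 (R • y))⁻¹ = R⁻¹ • (S.Dy φ 8 y)⁻¹ := by
    rw [bd_smul]
    refine Matrix.inv_eq_right_inv ?_
    rw [smul_mul_smul_comm, mul_inv_cancel₀ hR.ne', Matrix.mul_nonsing_inv _ hu, one_smul]
  rw [h1, Matrix.smul_apply, smul_eq_mul]

lemma bd_cont_inv (S : Setup d F) (φ : Spl dh dm d) (B E : Fin dm) {K : Set (Cfg dh)}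
    (hK : ∀ y ∈ K, bdet S φ y ≠ 0) : ContinuousOn (fun y => (S.Dy φ 8 y)⁻¹ B E) K := by
  have h1 : (fun y : Cfg dh => (S.Dy φ 8 y)⁻¹ B E) =
      fun y => (bdet S φ y)⁻¹ * (S.Dy φ 8 y).adjugate B E := by
    funext y
    rw [Matrix.inv_def, Matrix.smul_apply, smul_eq_mul, Ring.inverse_eq_inv']
    rfl
  rw [h1]
  have h2 : Continuous (fun y : Cfg dh => S.Dy φ 8 y) :=
    continuous_matrix fun B C => (bd_cd S φ 8 B C).continuous
  have h3 : Continuous (fun y : Cfg dh => (S.Dy φ 8 y).adjugate B E) :=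
    h2.matrix_adjugate.matrix_elem B E
  exact ((bdet_cd S φ).continuous.continuousOn.inv₀ hK).mul h3.continuousOn

/-- all bounds at a general scale by one constant -/
lemma bd_main (S : Setup d F) (φ : Spl dh dm d) (y₀ : Cfg dh) (h0 : bdet S φ y₀ ≠ 0) :
    ∃ ε C : ℝ, 0 < ε ∧ 1 ≤ C ∧ ∀ (R : ℝ) (y : Cfg dh), 0 < R → ‖y - R • y₀‖ ≤ ε * R →
      bdet S φ y ≠ 0 ∧ (∀ i B E, |S.Dy φ i y B E| ≤ C * R) ∧
      (∀ B E, |(S.Dy φ 8 y)⁻¹ B E| ≤ C / R) ∧
      (∀ A, |fderiv ℝ (fun y' => Real.log (S.Jd φ y')) y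
        (EuclideanSpace.single ((8 : Fin 9), A) 1)| ≤ C / R) := by
  have hopen : IsOpen {y : Cfg dh | bdet S φ y ≠ 0} :=
    isOpen_ne_fun (bdet_cd S φ).continuous continuous_const
  obtain ⟨ε, hε, hsub⟩ := Metric.nhds_basis_closedBall.mem_iff.1 (hopen.mem_nhds h0)
  set K := Metric.closedBall y₀ ε with hKdef
  have hK : ∀ y ∈ K, bdet S φ y ≠ 0 := fun y hy => hsub hy
  have hc : IsCompact K := isCompact_closedBall y₀ ε
  have hfd : Continuous (fderiv ℝ (bdet S φ : Cfg dh → ℝ)) :=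
    (bdet_cd S φ).continuous_fderiv (by simp)
  have hcont : ContinuousOn (fun y : Cfg dh => (∑ B, ∑ E, |(S.Dy φ 8 y)⁻¹ B E|) +
      (∑ i, ∑ B, ∑ E, |S.Dy φ i y B E|) +
      ∑ A, |(bdet S φ y)⁻¹ * fderiv ℝ (bdet S φ) y (EuclideanSpace.single ((8 : Fin 9), A) 1)|) K := by
    refine ContinuousOn.add (ContinuousOn.add ?_ ?_) ?_
    · exact continuousOn_finsetSum _ fun B _ => continuousOn_finsetSum _ fun E _ =>
        (bd_cont_inv S φ B E hK).abs
    · exact continuousOn_finsetSum _ fun i _ => continuousOn_finsetSum _ fun B _ =>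
        continuousOn_finsetSum _ fun E _ => (bd_cd S φ i B E).continuous.continuousOn.abs
    · refine continuousOn_finsetSum _ fun A _ => ContinuousOn.abs ?_
      refine ((bdet_cd S φ).continuous.continuousOn.inv₀ hK).mul ?_
      exact (hfd.clm_apply continuous_const).continuousOn
  obtain ⟨C, hC⟩ := hc.exists_bound_of_continuousOn hcont
  refine ⟨ε, max C 1, hε, le_max_right _ _, ?_⟩
  intro R y hR hy
  have hRy : y = R • (R⁻¹ • y) := by
    rw [smul_smul, mul_inv_cancel₀ hR.ne', one_smul]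
  set y' := R⁻¹ • y with hy'
  have hmem : y' ∈ K := by
    rw [hKdef, Metric.mem_closedBall, dist_eq_norm]
    have h1 : y - R • y₀ = R • (y' - y₀) := by rw [hRy, smul_sub]
    rw [h1, norm_smul, Real.norm_of_nonneg hR.le] at hy
    have h2 : R * ‖y' - y₀‖ ≤ R * ε := by linarith
    exact le_of_mul_le_mul_left h2 hR
  have hdet := hK y' hmem
  have hb := hC y' hmem
  set s1 := ∑ B, ∑ E, |(S.Dy φ 8 y')⁻¹ B E| with hs1
  set s2 := ∑ i, ∑ B, ∑ E, |S.Dy φ i y' B E| with hs2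
  set s3 := ∑ A, |(bdet S φ y')⁻¹ *
    fderiv ℝ (bdet S φ) y' (EuclideanSpace.single ((8 : Fin 9), A) 1)| with hs3
  have n1 : 0 ≤ s1 := Finset.sum_nonneg fun _ _ => Finset.sum_nonneg fun _ _ => abs_nonneg _
  have n2 : 0 ≤ s2 := Finset.sum_nonneg fun _ _ => Finset.sum_nonneg fun _ _ =>
    Finset.sum_nonneg fun _ _ => abs_nonneg _
  have n3 : 0 ≤ s3 := Finset.sum_nonneg fun _ _ => abs_nonneg _
  rw [Real.norm_of_nonneg (by linarith)] at hb
  have hb' : s1 + s2 + s3 ≤ max C 1 := hb.trans (le_max_left _ _)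
  refine ⟨?_, ?_, ?_, ?_⟩
  · rw [hRy, bdet_smul]
    exact mul_ne_zero (pow_ne_zero _ hR.ne') hdet
  · intro i B E
    rw [hRy, bd_smul, Matrix.smul_apply, smul_eq_mul, abs_mul, abs_of_pos hR, mul_comm]
    refine mul_le_mul_of_nonneg_right ?_ hR.le
    have h1 : |S.Dy φ i y' B E| ≤ s2 := by
      refine le_trans ?_ (Finset.single_le_sum (f := fun i => ∑ B, ∑ E, |S.Dy φ i y' B E|)
        (fun _ _ => Finset.sum_nonneg fun _ _ => Finset.sum_nonneg fun _ _ => abs_nonneg _)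
        (Finset.mem_univ i))
      refine le_trans ?_ (Finset.single_le_sum (f := fun B => ∑ E, |S.Dy φ i y' B E|)
        (fun _ _ => Finset.sum_nonneg fun _ _ => abs_nonneg _) (Finset.mem_univ B))
      exact Finset.single_le_sum (f := fun E => |S.Dy φ i y' B E|) (fun _ _ => abs_nonneg _)
        (Finset.mem_univ E)
    linarith
  · intro B E
    rw [hRy, bd_inv_smul S φ hR y' hdet, abs_mul, abs_of_pos (inv_pos.2 hR), div_eq_mul_inv,
      mul_comm]
    refine mul_le_mul_of_nonneg_right ?_ (inv_pos.2 hR).le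
    have h1 : |(S.Dy φ 8 y')⁻¹ B E| ≤ s1 := by
      refine le_trans ?_ (Finset.single_le_sum (f := fun B => ∑ E, |(S.Dy φ 8 y')⁻¹ B E|)
        (fun _ _ => Finset.sum_nonneg fun _ _ => abs_nonneg _) (Finset.mem_univ B))
      exact Finset.single_le_sum (f := fun E => |(S.Dy φ 8 y')⁻¹ B E|) (fun _ _ => abs_nonneg _)
        (Finset.mem_univ E)
    linarith
  · intro A
    have hdet2 : bdet S φ y ≠ 0 := by
      rw [hRy, bdet_smul]
      exact mul_ne_zero (pow_ne_zero _ hR.ne') hdet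
    rw [bd_log S φ y hdet2]
    have h1 : (bdet S φ y)⁻¹ * fderiv ℝ (bdet S φ) y (EuclideanSpace.single ((8 : Fin 9), A) 1) =
        ((bdet S φ y')⁻¹ * fderiv ℝ (bdet S φ) y' (EuclideanSpace.single ((8 : Fin 9), A) 1)) *
          R⁻¹ := by
      rw [hRy, bdet_smul, bd_fd_smul S φ hR]
      have hRm : R ^ dm ≠ 0 := pow_ne_zero _ hR.ne'
      field_simp
    rw [h1, abs_mul, abs_of_pos (inv_pos.2 hR), div_eq_mul_inv]
    refine mul_le_mul_of_nonneg_right ?_ (inv_pos.2 hR).le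
    have h2 := Finset.single_le_sum (f := fun A => |(bdet S φ y')⁻¹ *
      fderiv ℝ (bdet S φ) y' (EuclideanSpace.single ((8 : Fin 9), A) 1)|)
      (fun _ _ => abs_nonneg _) (Finset.mem_univ A)
    have h3 : |(bdet S φ y')⁻¹ *
      fderiv ℝ (bdet S φ) y' (EuclideanSpace.single ((8 : Fin 9), A) 1)| ≤ s3 := h2
    linarith

/-- a common bound for all algebraic constants -/
lemma bd_const (S : Setup d F) : ∃ T : ℝ, 0 ≤ T ∧ S.κ ≤ T ∧ (∀ A B C, |S.f A B C| ≤ T) ∧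
    (∀ A β, ‖S.vec (S.g 8) A β‖ ≤ T) ∧ (∀ i j A β, ‖S.vec (S.g2 i j) A β‖ ≤ T) ∧
    ∀ A, ‖S.cS A‖ ≤ T := by
  set t1 := ∑ A, ∑ B, ∑ C, |S.f A B C| with ht1
  set t2 := ∑ A, ∑ β, ‖S.vec (S.g 8) A β‖ with ht2
  set t3 := ∑ i, ∑ j, ∑ A, ∑ β, ‖S.vec (S.g2 i j) A β‖ with ht3
  set t4 := ∑ A, ‖S.cS A‖ with ht4
  have n1 : 0 ≤ t1 := Finset.sum_nonneg fun _ _ => Finset.sum_nonneg fun _ _ =>
    Finset.sum_nonneg fun _ _ => abs_nonneg _
  have n2 : 0 ≤ t2 := Finset.sum_nonneg fun _ _ => Finset.sum_nonneg fun _ _ => norm_nonneg _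
  have n3 : 0 ≤ t3 := Finset.sum_nonneg fun _ _ => Finset.sum_nonneg fun _ _ =>
    Finset.sum_nonneg fun _ _ => Finset.sum_nonneg fun _ _ => norm_nonneg _
  have n4 : 0 ≤ t4 := Finset.sum_nonneg fun _ _ => norm_nonneg _
  have hκ := S.κ_pos
  refine ⟨S.κ + t1 + t2 + t3 + t4, by linarith, by linarith, ?_, ?_, ?_, ?_⟩
  · intro A B C
    have h1 : |S.f A B C| ≤ t1 := by
      refine le_trans ?_ (Finset.single_le_sum (f := fun A => ∑ B, ∑ C, |S.f A B C|)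
        (fun _ _ => Finset.sum_nonneg fun _ _ => Finset.sum_nonneg fun _ _ => abs_nonneg _)
        (Finset.mem_univ A))
      refine le_trans ?_ (Finset.single_le_sum (f := fun B => ∑ C, |S.f A B C|)
        (fun _ _ => Finset.sum_nonneg fun _ _ => abs_nonneg _) (Finset.mem_univ B))
      exact Finset.single_le_sum (f := fun C => |S.f A B C|) (fun _ _ => abs_nonneg _)
        (Finset.mem_univ C)
    linarith
  · intro A β
    have h1 : ‖S.vec (S.g 8) A β‖ ≤ t2 := by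
      refine le_trans ?_ (Finset.single_le_sum (f := fun A => ∑ β, ‖S.vec (S.g 8) A β‖)
        (fun _ _ => Finset.sum_nonneg fun _ _ => norm_nonneg _) (Finset.mem_univ A))
      exact Finset.single_le_sum (f := fun β => ‖S.vec (S.g 8) A β‖) (fun _ _ => norm_nonneg _)
        (Finset.mem_univ β)
    linarith
  · intro i j A β
    have h1 : ‖S.vec (S.g2 i j) A β‖ ≤ t3 := by
      refine le_trans ?_ (Finset.single_le_sum
        (f := fun i => ∑ j, ∑ A, ∑ β, ‖S.vec (S.g2 i j) A β‖)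
        (fun _ _ => Finset.sum_nonneg fun _ _ => Finset.sum_nonneg fun _ _ =>
          Finset.sum_nonneg fun _ _ => norm_nonneg _) (Finset.mem_univ i))
      refine le_trans ?_ (Finset.single_le_sum (f := fun j => ∑ A, ∑ β, ‖S.vec (S.g2 i j) A β‖)
        (fun _ _ => Finset.sum_nonneg fun _ _ => Finset.sum_nonneg fun _ _ => norm_nonneg _)
        (Finset.mem_univ j))
      refine le_trans ?_ (Finset.single_le_sum (f := fun A => ∑ β, ‖S.vec (S.g2 i j) A β‖)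
        (fun _ _ => Finset.sum_nonneg fun _ _ => norm_nonneg _) (Finset.mem_univ A))
      exact Finset.single_le_sum (f := fun β => ‖S.vec (S.g2 i j) A β‖)
        (fun _ _ => norm_nonneg _) (Finset.mem_univ β)
    linarith
  · intro A
    have h1 : ‖S.cS A‖ ≤ t4 := Finset.single_le_sum (f := fun A => ‖S.cS A‖)
      (fun _ _ => norm_nonneg _) (Finset.mem_univ A)
    linarith

lemma bd_w (w : Wsp dm) (j : Fin 8) (B : Fin dm) : |w (j, B)| ≤ ‖w‖ := by
  have := PiLp.norm_apply_le w (j, B)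
  rwa [Real.norm_eq_abs] at this

lemma bd_wt (w : Wsp dm) (i : Fin 9) (B : Fin dm) : |wt w i B| ≤ ‖w‖ := by
  unfold wt
  refine Fin.lastCases ?_ (fun j => ?_) i
  · rw [Fin.lastCases_last, abs_zero]
    exact norm_nonneg w
  · rw [Fin.lastCases_castSucc]
    exact bd_w w j B

lemma bd_sum3 {ι κ' μ : Type*} [Fintype ι] [Fintype κ'] [Fintype μ] (c : ι → κ' → μ → ℂ)
    (p : ι → μ → F) {M : ℝ} (h : ∀ j E A, ‖c j E A‖ ≤ M) :
    ‖∑ j, ∑ E, ∑ A, c j E A • p j A‖ ≤ M * (Fintype.card κ' : ℝ) * ∑ j, ∑ A, ‖p j A‖ := by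
  have h1 : ∀ j, ‖∑ E, ∑ A, c j E A • p j A‖ ≤
      (Fintype.card κ' : ℝ) * (M * ∑ A, ‖p j A‖) := by
    intro j
    have h2 : ∀ E ∈ (Finset.univ : Finset κ'), ‖∑ A, c j E A • p j A‖ ≤
        M * ∑ A, ‖p j A‖ := by
      intro E _
      rw [Finset.mul_sum]
      refine norm_sum_le_of_le _ fun A _ => ?_
      rw [norm_smul]
      exact mul_le_mul_of_nonneg_right (h j E A) (norm_nonneg _)
    refine (norm_sum_le_of_le _ h2).trans ?_
    rw [Finset.sum_const, Finset.card_univ, nsmul_eq_mul]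
  refine (norm_sum_le_of_le _ fun j _ => h1 j).trans ?_
  rw [← Finset.mul_sum, ← Finset.mul_sum]
  exact le_of_eq (by ring)

lemma bd_opsum {n : ℕ} (L : Fin n → F →L[ℂ] F) (x : Fin n → F) {T M : ℝ} (hT : 0 ≤ T)
    (hL : ∀ B, ‖L B‖ ≤ T) (hx : ∀ B, ‖x B‖ ≤ M) : ‖∑ B, L B (x B)‖ ≤ n * (T * M) := by
  have h1 : ∀ B ∈ (Finset.univ : Finset (Fin n)), ‖L B (x B)‖ ≤ T * M := by
    intro B _
    exact ((L B).le_opNorm _).trans (mul_le_mul (hL B) (hx B) (norm_nonneg _) hT)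
  refine (norm_sum_le_of_le _ h1).trans ?_
  rw [Finset.sum_const, Finset.card_univ, Fintype.card_fin, nsmul_eq_mul]

lemma bd_csum {n : ℕ} (c : Fin n → ℂ) (x : Fin n → F) {T M : ℝ} (hT : 0 ≤ T)
    (hL : ∀ B, ‖c B‖ ≤ T) (hx : ∀ B, ‖x B‖ ≤ M) : ‖∑ B, c B • x B‖ ≤ n * (T * M) := by
  have h1 : ∀ B ∈ (Finset.univ : Finset (Fin n)), ‖c B • x B‖ ≤ T * M := by
    intro B _
    rw [norm_smul]
    exact mul_le_mul (hL B) (hx B) (norm_nonneg _) hT
  refine (norm_sum_le_of_le _ h1).trans ?_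
  rw [Finset.sum_const, Finset.card_univ, Fintype.card_fin, nsmul_eq_mul]

/-- terms quadratic in `w` -/
lemma bd_quad (S : Setup d F) {T : ℝ} (hT : 0 ≤ T) (hκ : S.κ ≤ T)
    (hf : ∀ A B C, |S.f A B C| ≤ T) (hg : ∀ i j A β, ‖S.vec (S.g2 i j) A β‖ ≤ T)
    {n : ℕ} (e : Fin n → Fin d) (e' : Fin dm → Fin d) (w : Wsp dm) (β : Fin 16) (x : F) :
    ‖(1 / 2 : ℂ) • (∑ A, ∑ i, ∑ j,
      ((S.κ * ∑ B, ∑ C, S.f (e A) (e' B) (e' C) * wt w i B * wt w j C : ℝ) : ℂ) •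
        S.vec (S.g2 i j) (e A) β x)‖ ≤
      n * (9 * (9 * (T * (dm * (dm * (T * ‖w‖ * ‖w‖))) * (T * ‖x‖)))) := by
  have h0 : ∀ A i j, |S.κ * ∑ B, ∑ C, S.f (e A) (e' B) (e' C) * wt w i B * wt w j C| ≤
      T * (dm * (dm * (T * ‖w‖ * ‖w‖))) := by
    intro A i j
    rw [abs_mul, abs_of_pos S.κ_pos]
    have h1 : |∑ B, ∑ C, S.f (e A) (e' B) (e' C) * wt w i B * wt w j C| ≤
        dm * (dm * (T * ‖w‖ * ‖w‖)) := by
      refine (Finset.abs_sum_le_sum_abs _ _).trans ?_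
      have h2 : ∀ B ∈ (Finset.univ : Finset (Fin dm)),
          |∑ C, S.f (e A) (e' B) (e' C) * wt w i B * wt w j C| ≤ dm * (T * ‖w‖ * ‖w‖) := by
        intro B _
        refine (Finset.abs_sum_le_sum_abs _ _).trans ?_
        have h3 : ∀ C ∈ (Finset.univ : Finset (Fin dm)),
            |S.f (e A) (e' B) (e' C) * wt w i B * wt w j C| ≤ T * ‖w‖ * ‖w‖ := by
          intro C _
          rw [abs_mul, abs_mul]
          exact mul_le_mul (mul_le_mul (hf _ _ _) (bd_wt w i B) (abs_nonneg _) hT)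
            (bd_wt w j C) (abs_nonneg _) (mul_nonneg hT (norm_nonneg _))
        refine (Finset.sum_le_sum h3).trans ?_
        rw [Finset.sum_const, Finset.card_univ, Fintype.card_fin, nsmul_eq_mul]
      refine (Finset.sum_le_sum h2).trans ?_
      rw [Finset.sum_const, Finset.card_univ, Fintype.card_fin, nsmul_eq_mul]
    exact mul_le_mul hκ h1 (abs_nonneg _) hT
  set M := T * (dm * (dm * (T * ‖w‖ * ‖w‖))) with hM
  have hM0 : 0 ≤ M := by positivity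
  have h1 : ∀ A ∈ (Finset.univ : Finset (Fin n)), ‖∑ i, ∑ j,
      ((S.κ * ∑ B, ∑ C, S.f (e A) (e' B) (e' C) * wt w i B * wt w j C : ℝ) : ℂ) •
        S.vec (S.g2 i j) (e A) β x‖ ≤ 9 * (9 * (M * (T * ‖x‖))) := by
    intro A _
    have h2 : ∀ i ∈ (Finset.univ : Finset (Fin 9)), ‖∑ j,
        ((S.κ * ∑ B, ∑ C, S.f (e A) (e' B) (e' C) * wt w i B * wt w j C : ℝ) : ℂ) •
        S.vec (S.g2 i j) (e A) β x‖ ≤ 9 * (M * (T * ‖x‖)) := by
      intro i _
      have := bd_csum (n := 9) (fun j =>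
        ((S.κ * ∑ B, ∑ C, S.f (e A) (e' B) (e' C) * wt w i B * wt w j C : ℝ) : ℂ))
        (fun j => S.vec (S.g2 i j) (e A) β x) (T := M) (M := T * ‖x‖) hM0
        (fun j => by rw [Complex.norm_real, Real.norm_eq_abs]; exact h0 A i j)
        (fun j => ((S.vec (S.g2 i j) (e A) β).le_opNorm x).trans
          (mul_le_mul_of_nonneg_right (hg i j (e A) β) (norm_nonneg _)))
      simpa using this
    refine (norm_sum_le_of_le _ h2).trans ?_
    rw [Finset.sum_const, Finset.card_univ, Fintype.card_fin, nsmul_eq_mul]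
    norm_num
  have h3 : ‖∑ A, ∑ i, ∑ j,
      ((S.κ * ∑ B, ∑ C, S.f (e A) (e' B) (e' C) * wt w i B * wt w j C : ℝ) : ℂ) •
        S.vec (S.g2 i j) (e A) β x‖ ≤ n * (9 * (9 * (M * (T * ‖x‖)))) := by
    refine (norm_sum_le_of_le _ h1).trans ?_
    rw [Finset.sum_const, Finset.card_univ, Fintype.card_fin, nsmul_eq_mul]
  rw [norm_smul]
  have h4 : ‖(1 / 2 : ℂ)‖ ≤ 1 := by norm_num
  have h5 := mul_le_mul h4 h3 (norm_nonneg _) zero_le_one
  rwa [one_mul] at h5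

lemma bd_lin_py (v : Cfg dh → Wsp dm → F) (y : Cfg dh) (w : Wsp dm) :
    ∑ j : Fin 8, ∑ A, ‖py j.castSucc A v y w‖ ≤ ∑ i, ∑ A, ‖py i A v y w‖ := by
  rw [Fin.sum_univ_castSucc (f := fun i : Fin 9 => ∑ A, ‖py i A v y w‖)]
  exact le_add_of_nonneg_right (Finset.sum_nonneg fun _ _ => norm_nonneg _)

/-- the bound of the remaining terms -/
lemma bd_Qr (S : Setup d F) (φ : Spl dh dm d) {T C R : ℝ} (hT : 0 ≤ T) (hC : 0 ≤ C) (hR : 0 < R)
    (hκ : S.κ ≤ T) (hf : ∀ A B C, |S.f A B C| ≤ T) (h8 : ∀ A β, ‖S.vec (S.g 8) A β‖ ≤ T)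
    (hg : ∀ i j A β, ‖S.vec (S.g2 i j) A β‖ ≤ T) (hS : ∀ A, ‖S.cS A‖ ≤ T) (y : Cfg dh)
    (hinv : ∀ B E, |(S.Dy φ 8 y)⁻¹ B E| ≤ C / R)
    (hlog : ∀ A, |fderiv ℝ (fun y' => Real.log (S.Jd φ y')) y
        (EuclideanSpace.single ((8 : Fin 9), A) 1)| ≤ C / R)
    (w : Wsp dm) (v : Cfg dh → Wsp dm → F) (β : Fin 16) :
    ‖S.Qr φ β v y w‖ ≤
      dm * (T * (dm * (C / R * (T * ‖w‖ * dm * ((∑ i, ∑ A, ‖py i A v y w‖) +
        ∑ j, ∑ B, ‖pw j B v y w‖) + T * ‖v y w‖)))) +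
      dh * (9 * (9 * (T * (dm * (dm * (T * ‖w‖ * ‖w‖))) * (T * ‖v y w‖)))) +
      dm * (9 * (9 * (T * (dm * (dm * (T * ‖w‖ * ‖w‖))) * (T * ‖v y w‖)))) +
      dh * (C / R * (T * ‖v y w‖)) := by
  have hCR : 0 ≤ C / R := div_nonneg hC hR.le
  unfold Setup.Qr
  refine (norm_add_le _ _).trans (add_le_add ((norm_add_le _ _).trans
    (add_le_add ((norm_add_le _ _).trans (add_le_add ?_ ?_)) ?_)) ?_)
  · rw [norm_smul, Complex.norm_I, one_mul]
    refine bd_opsum _ _ hT (fun B => h8 _ _) fun B => ?_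
    refine bd_csum _ _ hCR (fun E => ?_) fun C' => ?_
    · rw [Complex.norm_real, Real.norm_eq_abs]
      exact hinv B E
    · refine (norm_add₃_le).trans ?_
      have hc1 : ∀ (j : Fin 8) (E : Fin dm) (A : Fin dh),
          ‖((S.f (φ (Sum.inr C')) (φ (Sum.inr E)) (φ (Sum.inl A)) * w (j, E) : ℝ) : ℂ)‖ ≤
          T * ‖w‖ := by
        intro j E A
        rw [Complex.norm_real, Real.norm_eq_abs, abs_mul]
        exact mul_le_mul (hf _ _ _) (bd_w w j E) (abs_nonneg _) hT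
      have hc2 : ∀ (j : Fin 8) (E : Fin dm) (A : Fin dm),
          ‖((S.f (φ (Sum.inr C')) (φ (Sum.inr E)) (φ (Sum.inr A)) * w (j, E) : ℝ) : ℂ)‖ ≤
          T * ‖w‖ := by
        intro j E A
        rw [Complex.norm_real, Real.norm_eq_abs, abs_mul]
        exact mul_le_mul (hf _ _ _) (bd_w w j E) (abs_nonneg _) hT
      have h1 := bd_sum3 _ (fun (j : Fin 8) (A : Fin dh) => py j.castSucc A v y w) hc1
      have h2 := bd_sum3 _ (fun (j : Fin 8) (A : Fin dm) => pw j A v y w) hc2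
      rw [Fintype.card_fin] at h1 h2
      have h3 : ‖Complex.I • S.cS (φ (Sum.inr C')) (v y w)‖ ≤ T * ‖v y w‖ := by
        rw [norm_smul, Complex.norm_I, one_mul]
        exact ((S.cS _).le_opNorm _).trans (mul_le_mul_of_nonneg_right (hS _) (norm_nonneg _))
      have h4 := bd_lin_py v y w
      have h5 : 0 ≤ T * ‖w‖ * dm := by positivity
      have h6 := mul_le_mul_of_nonneg_left h4 h5
      rw [mul_add]
      linarith
  · exact bd_quad S hT hκ hf hg (fun A => φ (Sum.inl A)) (fun B => φ (Sum.inr B)) w β (v y w)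
  · exact bd_quad S hT hκ hf hg (fun A => φ (Sum.inr A)) (fun B => φ (Sum.inr B)) w β (v y w)
  · rw [norm_smul]
    have h4 : ‖(Complex.I / 2 : ℂ)‖ ≤ 1 := by
      rw [norm_div, Complex.norm_I]
      norm_num
    have h3 := bd_csum (fun A : Fin dh => ((fderiv ℝ (fun y' => Real.log (S.Jd φ y')) y
      (EuclideanSpace.single ((8 : Fin 9), A) 1) : ℝ) : ℂ))
      (fun A => S.vec (S.g 8) (φ (Sum.inl A)) β (v y w)) (M := T * ‖v y w‖) hCR
      (fun A => by rw [Complex.norm_real, Real.norm_eq_abs]; exact hlog A)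
      (fun A => ((S.vec (S.g 8) (φ (Sum.inl A)) β).le_opNorm _).trans
        (mul_le_mul_of_nonneg_right (h8 _ β) (norm_nonneg _)))
    have h5 := mul_le_mul h4 h3 (norm_nonneg _) zero_le_one
    rwa [one_mul] at h5

lemma bd_cs {n : ℕ} (a z : Fin n → ℝ) {M : ℝ} (ha : ∀ E, |a E| ≤ M) :
    (∑ E, a E * z E) ^ 2 ≤ n * M ^ 2 * ∑ E, z E ^ 2 := by
  refine (Finset.sum_mul_sq_le_sq_mul_sq _ _ _).trans ?_
  refine mul_le_mul_of_nonneg_right ?_ (Finset.sum_nonneg fun _ _ => sq_nonneg _)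
  have h1 : ∀ E ∈ (Finset.univ : Finset (Fin n)), a E ^ 2 ≤ M ^ 2 := by
    intro E _
    rw [← sq_abs]
    exact pow_le_pow_left₀ (abs_nonneg _) (ha E) 2
  refine (Finset.sum_le_sum h1).trans ?_
  rw [Finset.sum_const, Finset.card_univ, Fintype.card_fin, nsmul_eq_mul]

lemma bd_cs2 {n : ℕ} (a : Matrix (Fin n) (Fin n) ℝ) (z : Fin n → ℝ) {M : ℝ}
    (ha : ∀ B E, |a B E| ≤ M) :
    ∑ B, (∑ E, a B E * z E) ^ 2 ≤ n * (n * M ^ 2) * ∑ E, z E ^ 2 := by
  refine (Finset.sum_le_sum fun B _ => bd_cs (a B) z (ha B)).trans ?_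
  rw [Finset.sum_const, Finset.card_univ, Fintype.card_fin, nsmul_eq_mul]
  exact le_of_eq (by ring)

theorem bd_stmt (S : Setup d F) : BdStmt S := by
  intro dh dm φ y₀ hstd
  obtain ⟨ε, C, hε, hC1, hmain⟩ := bd_main S φ y₀ hstd.inv
  obtain ⟨T, hT, hκ, hf, h8, hg, hS⟩ := bd_const S
  have hC : 0 ≤ C := by linarith
  set K1 : ℝ := dm * (T * (dm * (C * (T * dm)))) with hK1
  set K2 : ℝ := dm * (T * (dm * (C * T))) with hK2
  set K3 : ℝ := dh * (9 * (9 * (T * (dm * (dm * T)) * T))) with hK3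
  set K4 : ℝ := dm * (9 * (9 * (T * (dm * (dm * T)) * T))) with hK4
  set K5 : ℝ := dh * (C * T) with hK5
  set K6 : ℝ := dm * (dm * C ^ 2) with hK6
  have n1 : 0 ≤ K1 := by positivity
  have n2 : 0 ≤ K2 := by positivity
  have n3 : 0 ≤ K3 := by positivity
  have n4 : 0 ≤ K4 := by positivity
  have n5 : 0 ≤ K5 := by positivity
  have n6 : 0 ≤ K6 := by positivity
  refine ⟨ε, K1 + K2 + K3 + K4 + K5 + K6 + C, hε, by linarith, ?_⟩
  set D := K1 + K2 + K3 + K4 + K5 + K6 + C with hD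
  intro R y hR hy
  obtain ⟨hdet, hDy, hinv, hlog⟩ := hmain R y hR hy
  have hCD : C / R ≤ D / R := div_le_div_of_nonneg_right (by linarith) hR.le
  refine ⟨hdet, ?_, ?_, fun B E => (hinv B E).trans hCD, fun A => (hlog A).trans hCD, ?_⟩
  · intro z
    have hu : IsUnit (S.Dy φ 8 y).det := isUnit_iff_ne_zero.2 hdet
    have h1 : ∀ B, z B = ∑ E, (S.Dy φ 8 y)⁻¹ B E * ∑ G, S.Dy φ 8 y E G * z G := by
      intro B
      have h2 : (S.Dy φ 8 y)⁻¹.mulVec ((S.Dy φ 8 y).mulVec z) = z := by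
        rw [Matrix.mulVec_mulVec, Matrix.nonsing_inv_mul _ hu, Matrix.one_mulVec]
      exact (congrFun h2 B).symm
    have h3 := bd_cs2 (S.Dy φ 8 y)⁻¹ (fun E => ∑ G, S.Dy φ 8 y E G * z G) hinv
    have h4 : ∑ B, z B ^ 2 ≤ dm * (dm * (C / R) ^ 2) *
        ∑ E, (∑ G, S.Dy φ 8 y E G * z G) ^ 2 := by
      refine le_trans (le_of_eq ?_) h3
      exact Finset.sum_congr rfl fun B _ => by rw [← h1 B]
    have h5 := mul_le_mul_of_nonneg_left h4 (sq_nonneg R)
    refine h5.trans ?_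
    have h6 : R ^ 2 * (dm * (dm * (C / R) ^ 2) * ∑ E, (∑ G, S.Dy φ 8 y E G * z G) ^ 2) =
        K6 * ∑ E, (∑ G, S.Dy φ 8 y E G * z G) ^ 2 := by
      rw [hK6]
      have hR' := hR.ne'
      field_simp
    rw [h6]
    exact mul_le_mul_of_nonneg_right (by linarith) (Finset.sum_nonneg fun _ _ => sq_nonneg _)
  · intro i z
    have h3 := bd_cs2 (S.Dy φ i y) z (hDy i)
    refine h3.trans ?_
    have h6 : (dm : ℝ) * (dm * (C * R) ^ 2) = K6 * R ^ 2 := by rw [hK6]; ring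
    rw [h6]
    refine mul_le_mul_of_nonneg_right ?_ (Finset.sum_nonneg fun _ _ => sq_nonneg _)
    exact mul_le_mul_of_nonneg_right (by linarith) (sq_nonneg R)
  · intro w _ v β
    refine (bd_Qr S φ hT hC hR hκ hf h8 hg hS y hinv hlog w v β).trans ?_
    set P := (∑ i, ∑ A, ‖py i A v y w‖) + ∑ j, ∑ B, ‖pw j B v y w‖ with hP
    have hP0 : 0 ≤ P := add_nonneg
      (Finset.sum_nonneg fun _ _ => Finset.sum_nonneg fun _ _ => norm_nonneg _)
      (Finset.sum_nonneg fun _ _ => Finset.sum_nonneg fun _ _ => norm_nonneg _)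
    set X := ‖w‖ / R * P with hX
    set Y := 1 / R * ‖v y w‖ with hY
    set Z := ‖w‖ ^ 2 * ‖v y w‖ with hZ
    have hX0 : 0 ≤ X := by positivity
    have hY0 : 0 ≤ Y := by positivity
    have hZ0 : 0 ≤ Z := by positivity
    have e1 : (dm : ℝ) * (T * (dm * (C / R * (T * ‖w‖ * dm * P + T * ‖v y w‖)))) =
        K1 * X + K2 * Y := by
      rw [hK1, hK2, hX, hY]
      ring
    have e2 : (dh : ℝ) * (9 * (9 * (T * (dm * (dm * (T * ‖w‖ * ‖w‖))) * (T * ‖v y w‖)))) =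
        K3 * Z := by
      rw [hK3, hZ]
      ring
    have e3 : (dm : ℝ) * (9 * (9 * (T * (dm * (dm * (T * ‖w‖ * ‖w‖))) * (T * ‖v y w‖)))) =
        K4 * Z := by
      rw [hK4, hZ]
      ring
    have e4 : (dh : ℝ) * (C / R * (T * ‖v y w‖)) = K5 * Y := by
      rw [hK5, hY]
      ring
    rw [e1, e2, e3, e4]
    have e5 : D * (X + (1 / R + ‖w‖ ^ 2) * ‖v y w‖) = D * X + D * Y + D * Z := by
      rw [hY, hZ]
      ring
    rw [e5]
    have m1 : K1 * X ≤ D * X := mul_le_mul_of_nonneg_right (by linarith) hX0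
    have m2 : (K2 + K5) * Y ≤ D * Y := mul_le_mul_of_nonneg_right (by linarith) hY0
    have m3 : (K3 + K4) * Z ≤ D * Z := mul_le_mul_of_nonneg_right (by linarith) hZ0
    linarith

end Vale.Agent.P353.Z.AN
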