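import Vale.Agent.P353.AN.A.StmtT

/-! # P353, all `N`, block A: the tube coordinates are a measure preserving linear isomorphism -/

open MeasureTheory Filter Topology
open scoped ContDiff

namespace Vale.Agent.P353.Z.AN

variable {d dh dm : ℕ}

/-- index map of the coordinates -/
def cooIdx (φ : Spl dh dm d) : Fin dm ⊕ ((Fin 9 × Fin dh) ⊕ (Fin 8 × Fin dm)) → Fin 9 × Fin d :=
  Sum.elim (fun B => (8, φ (Sum.inr B)))
    (Sum.elim (fun p => (p.1, φ (Sum.inl p.2))) fun p => (p.1.castSucc, φ (Sum.inr p.2)))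

theorem cooIdx_bijective (φ : Spl dh dm d) : Function.Bijective (cooIdx φ) := by
  have h8 : ∀ j : Fin 8, (8 : Fin 9) ≠ j.castSucc := fun j h => by
    have := congrArg Fin.val h
    have hj := j.isLt
    simp at this
    omega
  constructor
  · rintro (B | ⟨i, A⟩ | ⟨j, B⟩) (B' | ⟨i', A'⟩ | ⟨j', B'⟩) h
    all_goals simp only [cooIdx, Sum.elim_inl, Sum.elim_inr, Prod.mk.injEq,
      EmbeddingLike.apply_eq_iff_eq, Sum.inr.injEq, Sum.inl.injEq, true_and, reduceCtorEq,
      and_false, Fin.castSucc_inj] at h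
    · rw [h]
    · exact absurd h.1 (h8 j')
    · rw [h.1, h.2]
    · exact absurd h.1.symm (h8 j)
    · rw [h.1, h.2]
  · rintro ⟨i, A⟩
    obtain ⟨s, rfl⟩ := φ.surjective A
    rcases s with A | B
    · exact ⟨Sum.inr (Sum.inl (i, A)), rfl⟩
    · refine Fin.lastCases ?_ (fun j => ?_) i
      · exact ⟨Sum.inl B, rfl⟩
      · exact ⟨Sum.inr (Sum.inr (j, B)), rfl⟩

/-- the index equivalence -/
noncomputable def cooEquiv (φ : Spl dh dm d) :
    Fin dm ⊕ ((Fin 9 × Fin dh) ⊕ (Fin 8 × Fin dm)) ≃ Fin 9 × Fin d :=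
  Equiv.ofBijective _ (cooIdx_bijective φ)

theorem coo_mp (φ : Spl dh dm d) :
    MeasurePreserving (fun z : Cfg d => (zm φ z, (zy φ z, zw φ z))) volume
      (volume.prod (volume.prod volume)) := by
  have m1 := PiLp.volume_preserving_ofLp (Fin 9 × Fin d)
  have m2 := (volume_measurePreserving_piCongrLeft (fun _ : Fin 9 × Fin d => ℝ)
    (cooEquiv φ)).symm
  have m3 := volume_measurePreserving_sumPiEquivProdPi
    (fun _ : Fin dm ⊕ ((Fin 9 × Fin dh) ⊕ (Fin 8 × Fin dm)) => ℝ)
  have m4 := volume_measurePreserving_sumPiEquivProdPi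
    (fun _ : (Fin 9 × Fin dh) ⊕ (Fin 8 × Fin dm) => ℝ)
  have n1 := PiLp.volume_preserving_toLp (Fin dm)
  have n2 := PiLp.volume_preserving_toLp (Fin 9 × Fin dh)
  have n3 := PiLp.volume_preserving_toLp (Fin 8 × Fin dm)
  have m5 := n1.prod ((n2.prod n3).comp m4)
  exact m5.comp (m3.comp (m2.comp m1))

theorem coo_stmt : CooStmt := by
  intro d dh dm φ
  let f : Cfg d →ₗ[ℝ] EuclideanSpace ℝ (Fin dm) × (Cfg dh × Wsp dm) :=
    { toFun := fun z => (zm φ z, (zy φ z, zw φ z))
      map_add' := fun _ _ => rfl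
      map_smul' := fun _ _ => rfl }
  have hinj : Function.Injective f := by
    intro z z' h
    have h1 : zm φ z = zm φ z' := congrArg Prod.fst h
    have h2 : zy φ z = zy φ z' := congrArg (fun t => t.2.1) h
    have h3 : zw φ z = zw φ z' := congrArg (fun t => t.2.2) h
    ext p
    obtain ⟨s, rfl⟩ := (cooIdx_bijective φ).2 p
    rcases s with B | p | p
    · exact congrArg (fun t : EuclideanSpace ℝ (Fin dm) => t B) h1
    · exact congrArg (fun t : Cfg dh => t p) h2
    · exact congrArg (fun t : Wsp dm => t p) h3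
  have hdim : Module.finrank ℝ (Cfg d) =
      Module.finrank ℝ (EuclideanSpace ℝ (Fin dm) × (Cfg dh × Wsp dm)) := by
    rw [Module.finrank_prod, Module.finrank_prod, finrank_euclideanSpace, finrank_euclideanSpace,
      finrank_euclideanSpace, finrank_euclideanSpace, ← Fintype.card_congr (cooEquiv φ),
      Fintype.card_sum, Fintype.card_sum]
  let e := (f.linearEquivOfInjective hinj hdim).toContinuousLinearEquiv
  have he : ∀ z, e z = (zm φ z, (zy φ z, zw φ z)) := fun z => rfl
  refine ⟨e, he, ?_⟩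
  have : (e : Cfg d → EuclideanSpace ℝ (Fin dm) × (Cfg dh × Wsp dm)) =
      fun z => (zm φ z, (zy φ z, zw φ z)) := funext he
  rw [this]
  exact coo_mp φ

end Vale.Agent.P353.Z.AN
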