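import Vale.Agent.P353.AN.A.Stmt

/-! # P353, all `N`, block A7: finite cover -/

open MeasureTheory Filter Topology
open scoped ContDiff

namespace Vale.Agent.P353.Z.AN

variable {d dh dm : ℕ} {F : Type*} [NormedAddCommGroup F] [InnerProductSpace ℂ F]

theorem cov_FF_smul (S : Setup d F) (c : ℝ) (x : Cfg d) (A : Fin d) (i j : Fin 9) :
    S.FF A i j (c • x) = c ^ 2 * S.FF A i j x := by
  unfold Setup.FF
  rw [mul_left_comm]
  congr 1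
  rw [Finset.mul_sum]
  refine Finset.sum_congr rfl fun B _ => ?_
  rw [Finset.mul_sum]
  refine Finset.sum_congr rfl fun C _ => ?_
  rw [PiLp.smul_apply, PiLp.smul_apply, smul_eq_mul, smul_eq_mul]
  ring

theorem cov_V_smul (S : Setup d F) (c : ℝ) (x : Cfg d) : S.V (c • x) = c ^ 4 * S.V x := by
  unfold Setup.V
  rw [mul_left_comm]
  congr 1
  rw [Finset.mul_sum]
  refine Finset.sum_congr rfl fun A _ => ?_
  rw [Finset.mul_sum]
  refine Finset.sum_congr rfl fun i _ => ?_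
  rw [Finset.mul_sum]
  refine Finset.sum_congr rfl fun j _ => ?_
  rw [cov_FF_smul]
  ring

theorem cov_V_nonneg (S : Setup d F) (x : Cfg d) : 0 ≤ S.V x := by
  unfold Setup.V
  positivity

theorem cov_V_cont (S : Setup d F) : Continuous S.V := by
  unfold Setup.V Setup.FF
  fun_prop

theorem cov_rox_smul (R : Matrix (Fin 9) (Fin 9) ℝ) (O : Matrix (Fin d) (Fin d) ℝ) (c : ℝ)
    (x : Cfg d) : rox R O (c • x) = c • rox R O x := by
  ext p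
  change ∑ j, ∑ B, R p.1 j * O p.2 B * (c • x) (j, B) = c * ∑ j, ∑ B, R p.1 j * O p.2 B * x (j, B)
  rw [Finset.mul_sum]
  refine Finset.sum_congr rfl fun j _ => ?_
  rw [Finset.mul_sum]
  refine Finset.sum_congr rfl fun B _ => ?_
  rw [PiLp.smul_apply, smul_eq_mul]
  ring

theorem cov_rox_cont (R : Matrix (Fin 9) (Fin 9) ℝ) (O : Matrix (Fin d) (Fin d) ℝ) :
    Continuous (rox R O : Cfg d → Cfg d) := by
  unfold rox
  fun_prop

theorem cov_emb_zero (φ : Spl dh dm d) : emb φ (0 : Cfg dh) (0 : Wsp dm) = 0 := by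
  ext p
  unfold emb
  change Sum.elim (fun A => (0 : Cfg dh) (p.1, A))
    (fun B => Fin.lastCases (motive := fun _ => ℝ) 0 (fun j => (0 : Wsp dm) (j, B)) p.1) (φ.symm p.2) = 0
  rcases φ.symm p.2 with A | B
  · simp
  · rw [Sum.elim_inr]
    refine Fin.lastCases (motive := fun i => Fin.lastCases (motive := fun _ => ℝ) 0
      (fun j => (0 : Wsp dm) (j, B)) i = 0) ?_ (fun j => ?_) p.1
    · rw [Fin.lastCases_last]
    · rw [Fin.lastCases_castSucc]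
      rfl

theorem cov_scale {R : Matrix (Fin 9) (Fin 9) ℝ} {O : Matrix (Fin d) (Fin d) ℝ} {s : ℝ} (hs : 0 < s)
    {x z : Cfg d} {δ : ℝ} (h : rox R O (s⁻¹ • x) ∈ Metric.ball z δ) :
    rox R O x ∈ Metric.ball (s • z) (δ * s) := by
  have hx' : rox R O x = s • rox R O (s⁻¹ • x) := by
    rw [cov_rox_smul, smul_smul, mul_inv_cancel₀ hs.ne', one_smul]
  rw [Metric.mem_ball, dist_eq_norm] at h ⊢
  rw [hx', ← smul_sub, norm_smul, Real.norm_of_nonneg hs.le, mul_comm]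
  exact mul_lt_mul_of_pos_right h hs

/-- data of a standard position -/
structure CovDat (d : ℕ) where
  R : Matrix (Fin 9) (Fin 9) ℝ
  O : Matrix (Fin d) (Fin d) ℝ
  dh : ℕ
  dm : ℕ
  φ : Spl dh dm d
  y : Cfg dh
  r : ℝ
  δ : ℝ

/-- the property required of the data -/
def CovOk (S : Setup d F)
    (P : ∀ (_ : Matrix (Fin 9) (Fin 9) ℝ) (_ : Matrix (Fin d) (Fin d) ℝ) (dh dm : ℕ)
      (_ : Spl dh dm d) (_ : Cfg dh) (_ _ : ℝ), Prop) (D : CovDat d) : Prop :=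
  ∃ (hR : D.R * D.R.transpose = 1) (hO : D.O * D.O.transpose = 1),
    Std (S.rot D.R hR D.O hO) D.φ D.y ∧ 0 < D.dm ∧ 0 < D.δ ∧ P D.R D.O D.dh D.dm D.φ D.y D.r D.δ

theorem cov_loc (S : Setup d F) (h : StdStmt S) (h1 : RotStmt S) (hC : Cless S)
    (P : ∀ (_ : Matrix (Fin 9) (Fin 9) ℝ) (_ : Matrix (Fin d) (Fin d) ℝ) (dh dm : ℕ)
      (_ : Spl dh dm d) (_ : Cfg dh) (_ _ : ℝ), Prop)
    (hP : ∀ (R : Matrix (Fin 9) (Fin 9) ℝ) (hR : R * R.transpose = 1) (O : Matrix (Fin d) (Fin d) ℝ)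
      (hO : O * O.transpose = 1)
      (dh dm : ℕ) (φ : Spl dh dm d) (y : Cfg dh), Std (S.rot R hR O hO) φ y → 0 < dm → y ≠ 0 →
      ∃ r δ : ℝ, 0 < r ∧ 0 < δ ∧ P R O dh dm φ y r δ)
    (Y : Cfg d) (hY : S.V Y = 0) (hY0 : Y ≠ 0) :
    ∃ D : CovDat d, CovOk S P D ∧ rox D.R D.O Y = emb D.φ D.y 0 ∧ 0 < D.δ := by
  obtain ⟨R, hR, O, hO, dh, dm, φ, y, hstd, hrox, hdm⟩ := h Y hY
  have hdm0 : 0 < dm := by
    rcases Nat.eq_zero_or_pos dm with h0 | h0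
    · exfalso
      apply hY0
      have h2 := hdm h0
      have h3 : ∀ i, (fun A => Y (i, A)) = 0 := fun i => hC _ (h2 i)
      ext p
      exact congrFun (h3 p.1) p.2
    · exact h0
  have hy0 : y ≠ 0 := by
    rintro rfl
    rw [cov_emb_zero] at hrox
    apply hY0
    rw [← norm_eq_zero, ← (h1 R hR O hO).1 Y, hrox, norm_zero]
  obtain ⟨r, δ, -, hδ, hPP⟩ := hP R hR O hO dh dm φ y hstd hdm0 hy0
  exact ⟨⟨R, O, dh, dm, φ, y, r, δ⟩, ⟨hR, hO, hstd, hdm0, hδ, hPP⟩, hrox, hδ⟩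

theorem cov_mem {R : Matrix (Fin 9) (Fin 9) ℝ} {O : Matrix (Fin d) (Fin d) ℝ} {x z : Cfg d} {δ : ℝ}
    (h : rox R O x = z) (hδ : 0 < δ) : x ∈ rox R O ⁻¹' Metric.ball z δ := by
  rw [Set.mem_preimage, h]
  exact Metric.mem_ball_self hδ

theorem cov_cover (S : Setup d F) (D : Cfg d → CovDat d)
    (hD : ∀ Y : Cfg d, S.V Y = 0 → Y ≠ 0 →
      rox (D Y).R (D Y).O Y = emb (D Y).φ (D Y).y 0 ∧ 0 < (D Y).δ) {ε L : ℝ} (hε : 0 < ε) :
    ∃ (t : Finset (Cfg d)) (η : ℝ), 0 < η ∧ (∀ Y ∈ t, S.V Y = 0 ∧ Y ≠ 0) ∧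
      ∀ x : Cfg d, ε ≤ ‖x‖ → ‖x‖ ≤ L → S.V x ≤ η →
        ∃ Y ∈ t, rox (D Y).R (D Y).O x ∈ Metric.ball (emb (D Y).φ (D Y).y 0) (D Y).δ := by
  let U : Cfg d → Set (Cfg d) := fun Y =>
    rox (D Y).R (D Y).O ⁻¹' Metric.ball (emb (D Y).φ (D Y).y 0) (D Y).δ
  have hU : ∀ Y, IsOpen (U Y) := fun Y => Metric.isOpen_ball.preimage (cov_rox_cont _ _)
  let K : Set (Cfg d) := {x | ε ≤ ‖x‖ ∧ ‖x‖ ≤ L}
  have hKclosed : IsClosed K :=
    (isClosed_le continuous_const continuous_norm).inter (isClosed_le continuous_norm continuous_const)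
  have hK : IsCompact K := by
    refine (isCompact_closedBall (0 : Cfg d) L).of_isClosed_subset hKclosed fun x hx => ?_
    rw [mem_closedBall_zero_iff]
    exact hx.2
  have hZ : IsCompact (K ∩ {x | S.V x = 0}) :=
    hK.inter_right (isClosed_eq (cov_V_cont S) continuous_const)
  have hne : ∀ x ∈ K, x ≠ 0 := by
    rintro x hx rfl
    have := hx.1
    rw [norm_zero] at this
    linarith
  obtain ⟨t, htK, ht⟩ := hZ.elim_nhds_subcover U (fun x hx => (hU x).mem_nhds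
    (cov_mem (hD x hx.2 (hne x hx.1)).1 (hD x hx.2 (hne x hx.1)).2))
  have hK' : IsCompact (K \ ⋃ Y ∈ t, U Y) := hK.diff (isOpen_biUnion fun Y _ => hU Y)
  have hmem : ∀ x ∈ K, x ∉ K \ ⋃ Y ∈ t, U Y → ∃ Y ∈ t, x ∈ U Y := by
    intro x hx hx'
    by_contra hc
    refine hx' ⟨hx, fun hx'' => hc ?_⟩
    obtain ⟨Y, hY, hxY⟩ := Set.mem_iUnion₂.1 hx''
    exact ⟨Y, hY, hxY⟩
  have htZ : ∀ Y ∈ t, S.V Y = 0 ∧ Y ≠ 0 := fun Y hY => ⟨(htK Y hY).2, hne Y (htK Y hY).1⟩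
  rcases (K \ ⋃ Y ∈ t, U Y).eq_empty_or_nonempty with he | hn
  · refine ⟨t, 1, one_pos, htZ, fun x hx1 hx2 _ => hmem x ⟨hx1, hx2⟩ ?_⟩
    rw [he]
    exact Set.notMem_empty x
  · obtain ⟨x₀, hx₀, hmin⟩ := hK'.exists_isMinOn hn (cov_V_cont S).continuousOn
    have hpos : 0 < S.V x₀ := by
      refine lt_of_le_of_ne (cov_V_nonneg S x₀) fun h0 => ?_
      exact hx₀.2 (ht ⟨hx₀.1, h0.symm⟩)
    refine ⟨t, S.V x₀ / 2, by linarith, htZ, fun x hx1 hx2 hVx => hmem x ⟨hx1, hx2⟩ fun hx' => ?_⟩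
    have : S.V x₀ ≤ S.V x := hmin hx'
    linarith

theorem cov_stmt (S : Setup d F) (h : StdStmt S) (h1 : RotStmt S) : CovStmt S := by
  intro hC P hP ε L hε hεL
  have hloc : ∀ Y : Cfg d, ∃ D : CovDat d, S.V Y = 0 → Y ≠ 0 →
      CovOk S P D ∧ rox D.R D.O Y = emb D.φ D.y 0 ∧ 0 < D.δ := by
    intro Y
    by_cases hY : S.V Y = 0 ∧ Y ≠ 0
    · obtain ⟨D, hD⟩ := cov_loc S h h1 hC P hP Y hY.1 hY.2
      exact ⟨D, fun _ _ => hD⟩
    · exact ⟨⟨0, 0, 0, d, Equiv.emptySum (Fin 0) (Fin d), 0, 0, 0⟩, fun h2 h3 => absurd ⟨h2, h3⟩ hY⟩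
  choose D hD using hloc
  obtain ⟨t, η, hη0, htZ, hη⟩ := cov_cover S D (fun Y h2 h3 => (hD Y h2 h3).2) (L := L) hε
  obtain ⟨q, hqt, hq⟩ : ∃ q : Fin t.card → Cfg d, (∀ k, q k ∈ t) ∧ ∀ Y ∈ t, ∃ k, q k = Y :=
    ⟨fun k => (t.equivFin.symm k).1, fun k => (t.equivFin.symm k).2,
      fun Y hY => ⟨t.equivFin ⟨Y, hY⟩, by simp only [Equiv.symm_apply_apply]⟩⟩
  refine ⟨t.card, η, hη0, fun k => (D (q k)).R, fun k => (D (q k)).O, fun k => (D (q k)).dh,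
    fun k => (D (q k)).dm, fun k => (D (q k)).φ, fun k => (D (q k)).y, fun k => (D (q k)).r,
    fun k => (D (q k)).δ, fun k => (hD (q k) (htZ _ (hqt k)).1 (htZ _ (hqt k)).2).1, ?_⟩
  intro s x hs hx1 hx2 hV
  have hn : ‖s⁻¹ • x‖ = s⁻¹ * ‖x‖ := by
    rw [norm_smul, Real.norm_of_nonneg (inv_nonneg.2 hs.le)]
  have hVK : S.V (s⁻¹ • x) ≤ η := by
    rw [cov_V_smul, inv_pow, inv_mul_le_iff₀ (pow_pos hs 4), mul_comm]
    exact hV
  obtain ⟨Y, hYt, hxY⟩ := hη (s⁻¹ • x)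
    (by rw [hn, ← div_eq_inv_mul, le_div_iff₀ hs]; exact hx1)
    (by rw [hn, ← div_eq_inv_mul, div_le_iff₀ hs]; exact hx2) hVK
  obtain ⟨k, rfl⟩ := hq Y hYt
  exact ⟨k, cov_scale hs hxY⟩

end Vale.Agent.P353.Z.AN
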