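import Vale.Agent.P353.AN.A.StmtS

/-! # P353, all `N`, block A: A10, cutoffs on the slice -/

open MeasureTheory Filter Topology
open scoped ContDiff

namespace Vale.Agent.P353.Z.AN

variable {d dh dm : ℕ} {F : Type*} [NormedAddCommGroup F] [InnerProductSpace ℂ F]

/-- the first order part of `Qs` -/
noncomputable def cut_E (S : Setup d F) (φ : Spl dh dm d) (β : Fin 16) (y : Cfg dh) (w : Wsp dm)
    (P : Fin 9 → Fin dh → F) (X : Fin 8 → Fin dm → F) : F :=
  (-Complex.I) • (∑ i, ∑ A, S.vec (S.g i) (φ (Sum.inl A)) β (P i A)) +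
  ((-Complex.I) • (∑ j : Fin 8, ∑ B, S.vec (S.g j.castSucc) (φ (Sum.inr B)) β (X j B)) +
    Complex.I • (∑ B, S.vec (S.g 8) (φ (Sum.inr B)) β
      (∑ C, (((S.Dy φ 8 y)⁻¹ B C : ℝ) : ℂ) • ∑ j : Fin 8, ∑ E, ((S.Dy φ j.castSucc y C E : ℝ) : ℂ) • X j E))) +
  Complex.I • (∑ B, S.vec (S.g 8) (φ (Sum.inr B)) β (∑ C, (((S.Dy φ 8 y)⁻¹ B C : ℝ) : ℂ) •
      ((∑ j : Fin 8, ∑ E, ∑ A, ((S.f (φ (Sum.inr C)) (φ (Sum.inr E)) (φ (Sum.inl A)) * w (j, E) : ℝ) : ℂ) •
          P j.castSucc A) +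
        (∑ j : Fin 8, ∑ E, ∑ G, ((S.f (φ (Sum.inr C)) (φ (Sum.inr E)) (φ (Sum.inr G)) * w (j, E) : ℝ) : ℂ) •
          X j G))))

/-- the zero order part of `Qs` -/
noncomputable def cut_Z (S : Setup d F) (φ : Spl dh dm d) (β : Fin 16) (y : Cfg dh) (w : Wsp dm) (v : F) : F :=
  (1 / 2 : ℂ) • (∑ A, ∑ i, ∑ j,
      ((S.κ * ∑ B, ∑ C, S.f (φ (Sum.inl A)) (φ (Sum.inl B)) (φ (Sum.inl C)) * y (i, B) * y (j, C) : ℝ) : ℂ) •
        S.vec (S.g2 i j) (φ (Sum.inl A)) β v) +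
  (1 / 2 : ℂ) • (∑ B, ∑ i, ∑ j, ((S.FL φ B i j y w : ℝ) : ℂ) • S.vec (S.g2 i j) (φ (Sum.inr B)) β v) +
  (Complex.I • (∑ B, S.vec (S.g 8) (φ (Sum.inr B)) β (∑ C, (((S.Dy φ 8 y)⁻¹ B C : ℝ) : ℂ) •
      (Complex.I • S.cS (φ (Sum.inr C)) v))) +
    (1 / 2 : ℂ) • (∑ A, ∑ i, ∑ j,
      ((S.κ * ∑ B, ∑ C, S.f (φ (Sum.inl A)) (φ (Sum.inr B)) (φ (Sum.inr C)) * wt w i B * wt w j C : ℝ) : ℂ) •
        S.vec (S.g2 i j) (φ (Sum.inl A)) β v) +
    (1 / 2 : ℂ) • (∑ A, ∑ i, ∑ j,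
      ((S.κ * ∑ B, ∑ C, S.f (φ (Sum.inr A)) (φ (Sum.inr B)) (φ (Sum.inr C)) * wt w i B * wt w j C : ℝ) : ℂ) •
        S.vec (S.g2 i j) (φ (Sum.inr A)) β v) +
    (Complex.I / 2) • ∑ A, ((fderiv ℝ (fun y' => Real.log (S.Jd φ y')) y (EuclideanSpace.single ((8 : Fin 9), A) 1) : ℝ) : ℂ) •
      S.vec (S.g 8) (φ (Sum.inl A)) β v)

theorem cut_split (S : Setup d F) (φ : Spl dh dm d) (β : Fin 16) (v : Cfg dh → Wsp dm → F) (y : Cfg dh)
    (w : Wsp dm) : Qs S φ β v y w =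
      cut_E S φ β y w (fun i A => py i A v y w) (fun j B => pw j B v y w) + cut_Z S φ β y w (v y w) := by
  unfold Qs Setup.Qh Setup.Q1 Setup.Qr cut_E cut_Z
  simp only [smul_add, Finset.sum_add_distrib, map_add]
  abel

theorem cut_Z_smul (S : Setup d F) (φ : Spl dh dm d) (β : Fin 16) (y : Cfg dh) (w : Wsp dm) (c : ℂ) (v : F) :
    cut_Z S φ β y w (c • v) = c • cut_Z S φ β y w v := by
  unfold cut_Z
  simp only [smul_add, Finset.smul_sum, map_smul, map_sum, smul_comm c]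

theorem cut_E_add (S : Setup d F) (φ : Spl dh dm d) (β : Fin 16) (y : Cfg dh) (w : Wsp dm)
    (P P' : Fin 9 → Fin dh → F) (X X' : Fin 8 → Fin dm → F) :
    cut_E S φ β y w (fun i A => P i A + P' i A) (fun j B => X j B + X' j B) =
      cut_E S φ β y w P X + cut_E S φ β y w P' X' := by
  unfold cut_E
  simp only [smul_add, Finset.sum_add_distrib, map_add]
  abel

theorem cut_E_smul (S : Setup d F) (φ : Spl dh dm d) (β : Fin 16) (y : Cfg dh) (w : Wsp dm) (c : ℂ)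
    (P : Fin 9 → Fin dh → F) (X : Fin 8 → Fin dm → F) :
    cut_E S φ β y w (fun i A => c • P i A) (fun j B => c • X j B) = c • cut_E S φ β y w P X := by
  unfold cut_E
  simp only [smul_add, Finset.smul_sum, map_smul, map_sum, map_add, smul_comm c]

/-- a bound for the Clifford maps -/
noncomputable def cut_M (S : Setup d F) : ℝ := ∑ i, ∑ A, ∑ β, ‖S.vec (S.g i) A β‖

theorem cut_M_nonneg (S : Setup d F) : 0 ≤ cut_M S :=
  Finset.sum_nonneg fun _ _ => Finset.sum_nonneg fun _ _ => Finset.sum_nonneg fun _ _ => norm_nonneg _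

theorem cut_vec (S : Setup d F) (i : Fin 9) (A : Fin d) (β : Fin 16) (x : F) :
    ‖S.vec (S.g i) A β x‖ ≤ cut_M S * ‖x‖ := by
  refine (ContinuousLinearMap.le_opNorm _ _).trans (mul_le_mul_of_nonneg_right ?_ (norm_nonneg _))
  unfold cut_M
  refine le_trans ?_ (Finset.single_le_sum (f := fun i => ∑ A, ∑ β, ‖S.vec (S.g i) A β‖)
    (fun i _ => Finset.sum_nonneg fun _ _ => Finset.sum_nonneg fun _ _ => norm_nonneg _)
    (Finset.mem_univ i))
  refine le_trans ?_ (Finset.single_le_sum (f := fun A => ∑ β, ‖S.vec (S.g i) A β‖)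
    (fun A _ => Finset.sum_nonneg fun _ _ => norm_nonneg _) (Finset.mem_univ A))
  exact Finset.single_le_sum (f := fun β => ‖S.vec (S.g i) A β‖) (fun β _ => norm_nonneg _)
    (Finset.mem_univ β)

/-- a bound for the structure constants -/
noncomputable def cut_f (S : Setup d F) : ℝ := ∑ A, ∑ B, ∑ C, |S.f A B C|

theorem cut_f_nonneg (S : Setup d F) : 0 ≤ cut_f S :=
  Finset.sum_nonneg fun _ _ => Finset.sum_nonneg fun _ _ => Finset.sum_nonneg fun _ _ => abs_nonneg _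

theorem cut_f_le (S : Setup d F) (A B C : Fin d) : |S.f A B C| ≤ cut_f S := by
  unfold cut_f
  refine le_trans ?_ (Finset.single_le_sum (f := fun A => ∑ B, ∑ C, |S.f A B C|)
    (fun i _ => Finset.sum_nonneg fun _ _ => Finset.sum_nonneg fun _ _ => abs_nonneg _)
    (Finset.mem_univ A))
  refine le_trans ?_ (Finset.single_le_sum (f := fun B => ∑ C, |S.f A B C|)
    (fun A _ => Finset.sum_nonneg fun _ _ => abs_nonneg _) (Finset.mem_univ B))
  exact Finset.single_le_sum (f := fun C => |S.f A B C|) (fun β _ => abs_nonneg _)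
    (Finset.mem_univ C)

theorem cut_sum_le {ι : Type*} [Fintype ι] (g : ι → F) (b : ℝ) (h : ∀ i, ‖g i‖ ≤ b) :
    ‖∑ i, g i‖ ≤ Fintype.card ι * b := by
  refine (norm_sum_le _ _).trans ?_
  refine (Finset.sum_le_sum fun i _ => h i).trans ?_
  simp

/-- norm of the first order part -/
theorem cut_E_norm (S : Setup d F) (φ : Spl dh dm d) (β : Fin 16) (y : Cfg dh) (w : Wsp dm)
    (P : Fin 9 → Fin dh → F) (X : Fin 8 → Fin dm → F) {R ε C₀ K b : ℝ} (hR : 0 < R) (hε : 0 ≤ ε)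
    (hC₀ : 0 ≤ C₀) (hK : 0 ≤ K) (hb : 0 ≤ b)
    (hinv : ∀ B E, |(S.Dy φ 8 y)⁻¹ B E| ≤ C₀ / R) (hD : ∀ i B E, |S.Dy φ i y B E| ≤ K * R)
    (hw : ‖w‖ ≤ ε * R) (hP : ∀ i A, ‖P i A‖ ≤ b) (hX : ∀ j B, ‖X j B‖ ≤ b) :
    ‖cut_E S φ β y w P X‖ ≤
      (cut_M S * (9 * dh) + cut_M S * (8 * dm) + cut_M S * (dm * (dm * (C₀ * (8 * (dm * K))))) +
        cut_M S * (dm * (dm * (C₀ * (8 * (dm * (dh * (cut_f S * ε))) + 8 * (dm * (dm * (cut_f S * ε)))))))) * b := by
  have hM := cut_M_nonneg S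
  have hf := cut_f_nonneg S
  have hwj : ∀ j E, |w (j, E)| ≤ ε * R := fun j E => by
    have := EuclideanSpace.norm_eq w
    refine le_trans ?_ hw
    rw [← Real.norm_eq_abs]
    exact PiLp.norm_apply_le w (j, E)
  have hI : ∀ x : F, ‖(-Complex.I) • x‖ = ‖x‖ := fun x => by
    rw [norm_smul, norm_neg, Complex.norm_I, one_mul]
  have hI' : ∀ x : F, ‖Complex.I • x‖ = ‖x‖ := fun x => by
    rw [norm_smul, Complex.norm_I, one_mul]
  have hr : ∀ (t : ℝ) (x : F), ‖((t : ℝ) : ℂ) • x‖ = |t| * ‖x‖ := fun t x => by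
    rw [norm_smul, Complex.norm_real, Real.norm_eq_abs]
  -- the four terms
  have t1 : ‖(-Complex.I) • (∑ i, ∑ A, S.vec (S.g i) (φ (Sum.inl A)) β (P i A))‖ ≤
      cut_M S * (9 * dh) * b := by
    rw [hI]
    refine (cut_sum_le _ (dh * (cut_M S * b)) fun i => ?_).trans (le_of_eq ?_)
    · refine (cut_sum_le _ (cut_M S * b) fun A => ?_).trans (le_of_eq ?_)
      · exact (cut_vec S i _ β _).trans (mul_le_mul_of_nonneg_left (hP i A) hM)
      · simp
    · simp; ring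
  have t2 : ‖(-Complex.I) • (∑ j : Fin 8, ∑ B, S.vec (S.g j.castSucc) (φ (Sum.inr B)) β (X j B))‖ ≤
      cut_M S * (8 * dm) * b := by
    rw [hI]
    refine (cut_sum_le _ (dm * (cut_M S * b)) fun i => ?_).trans (le_of_eq ?_)
    · refine (cut_sum_le _ (cut_M S * b) fun A => ?_).trans (le_of_eq ?_)
      · exact (cut_vec S _ _ β _).trans (mul_le_mul_of_nonneg_left (hX i A) hM)
      · simp
    · simp; ring
  have key : ∀ (Yv : Fin dm → F) (c : ℝ), 0 ≤ c → (∀ C, ‖Yv C‖ ≤ c * R * b) →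
      ‖Complex.I • (∑ B, S.vec (S.g 8) (φ (Sum.inr B)) β
        (∑ C, (((S.Dy φ 8 y)⁻¹ B C : ℝ) : ℂ) • Yv C))‖ ≤ cut_M S * (dm * (dm * (C₀ * c))) * b := by
    intro Yv c hc hY
    rw [hI']
    refine (cut_sum_le _ (cut_M S * (dm * (C₀ * c * b))) fun B => ?_).trans (le_of_eq ?_)
    · refine (cut_vec S _ _ β _).trans (mul_le_mul_of_nonneg_left ?_ hM)
      refine (cut_sum_le _ (C₀ * c * b) fun C => ?_).trans (le_of_eq ?_)
      · rw [hr]
        have h1 : |(S.Dy φ 8 y)⁻¹ B C| * ‖Yv C‖ ≤ C₀ / R * (c * R * b) :=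
          mul_le_mul (hinv B C) (hY C) (norm_nonneg _) (by positivity)
        refine h1.trans (le_of_eq ?_)
        field_simp
      · simp
    · simp; ring
  have t3 : ‖Complex.I • (∑ B, S.vec (S.g 8) (φ (Sum.inr B)) β
      (∑ C, (((S.Dy φ 8 y)⁻¹ B C : ℝ) : ℂ) • ∑ j : Fin 8, ∑ E, ((S.Dy φ j.castSucc y C E : ℝ) : ℂ) • X j E))‖ ≤
      cut_M S * (dm * (dm * (C₀ * (8 * (dm * K))))) * b := by
    refine key _ (8 * (dm * K)) (by positivity) fun C => ?_
    refine (cut_sum_le _ (dm * (K * R * b)) fun j => ?_).trans (le_of_eq ?_)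
    · refine (cut_sum_le _ (K * R * b) fun E => ?_).trans (le_of_eq ?_)
      · rw [hr]
        exact mul_le_mul (hD _ _ _) (hX j E) (norm_nonneg _) (by positivity)
      · simp
    · simp; ring
  have hfw : ∀ a b' c' j E, |S.f a b' c' * w (j, E)| ≤ cut_f S * ε * R := fun a b' c' j E => by
    rw [abs_mul, mul_assoc]
    exact mul_le_mul (cut_f_le S _ _ _) (hwj j E) (abs_nonneg _) hf
  have t4 : ‖Complex.I • (∑ B, S.vec (S.g 8) (φ (Sum.inr B)) β (∑ C, (((S.Dy φ 8 y)⁻¹ B C : ℝ) : ℂ) •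
      ((∑ j : Fin 8, ∑ E, ∑ A, ((S.f (φ (Sum.inr C)) (φ (Sum.inr E)) (φ (Sum.inl A)) * w (j, E) : ℝ) : ℂ) •
          P j.castSucc A) +
        (∑ j : Fin 8, ∑ E, ∑ G, ((S.f (φ (Sum.inr C)) (φ (Sum.inr E)) (φ (Sum.inr G)) * w (j, E) : ℝ) : ℂ) •
          X j G))))‖ ≤
      cut_M S * (dm * (dm * (C₀ * (8 * (dm * (dh * (cut_f S * ε))) + 8 * (dm * (dm * (cut_f S * ε))))))) * b := by
    refine key _ _ (by positivity) fun C => ?_
    refine (norm_add_le _ _).trans ?_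
    have e1 : ‖∑ j : Fin 8, ∑ E, ∑ A, ((S.f (φ (Sum.inr C)) (φ (Sum.inr E)) (φ (Sum.inl A)) * w (j, E) : ℝ) : ℂ) •
          P j.castSucc A‖ ≤ 8 * (dm * (dh * (cut_f S * ε * R * b))) := by
      refine (cut_sum_le _ (dm * (dh * (cut_f S * ε * R * b))) fun j => ?_).trans (le_of_eq (by simp))
      refine (cut_sum_le _ (dh * (cut_f S * ε * R * b)) fun E => ?_).trans (le_of_eq (by simp))
      refine (cut_sum_le _ (cut_f S * ε * R * b) fun A => ?_).trans (le_of_eq (by simp))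
      rw [hr]
      exact mul_le_mul (hfw _ _ _ _ _) (hP _ _) (norm_nonneg _) (by positivity)
    have e2 : ‖∑ j : Fin 8, ∑ E, ∑ G, ((S.f (φ (Sum.inr C)) (φ (Sum.inr E)) (φ (Sum.inr G)) * w (j, E) : ℝ) : ℂ) •
          X j G‖ ≤ 8 * (dm * (dm * (cut_f S * ε * R * b))) := by
      refine (cut_sum_le _ (dm * (dm * (cut_f S * ε * R * b))) fun j => ?_).trans (le_of_eq (by simp))
      refine (cut_sum_le _ (dm * (cut_f S * ε * R * b)) fun E => ?_).trans (le_of_eq (by simp))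
      refine (cut_sum_le _ (cut_f S * ε * R * b) fun A => ?_).trans (le_of_eq (by simp))
      rw [hr]
      exact mul_le_mul (hfw _ _ _ _ _) (hX _ _) (norm_nonneg _) (by positivity)
    refine (add_le_add e1 e2).trans (le_of_eq ?_)
    ring
  unfold cut_E
  refine (norm_add_le _ _).trans ?_
  refine (add_le_add ((norm_add_le _ _).trans (add_le_add t1 ((norm_add_le _ _).trans
    (add_le_add t2 t3)))) t4).trans (le_of_eq ?_)
  ring

theorem cut_open (S : Setup d F) (φ : Spl dh dm d) :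
    IsOpen {p : Cfg dh × Wsp dm | (S.Dy φ 8 p.1).det ≠ 0} := by
  have h : Continuous fun p : Cfg dh × Wsp dm => (S.Dy φ 8 p.1).det := by
    refine Continuous.matrix_det ?_
    refine continuous_matrix fun B C => ?_
    simp only [Setup.Dy, Setup.Dm, Matrix.of_apply]
    refine continuous_finsetSum _ fun A _ => continuous_const.mul ?_
    exact (EuclideanSpace.proj ((8 : Fin 9), A) : Cfg dh →L[ℝ] ℝ).continuous.comp continuous_fst
  exact isOpen_ne_fun h continuous_const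

theorem cut_stmt (S : Setup d F) (hbd : BdStmt S) : CutStmt S := by
  intro dh dm φ y₀ hstd
  obtain ⟨ε, C₀, hε, hC₀, H⟩ := hbd dh dm φ y₀ hstd
  set M : ℝ := cut_M S * (9 * dh) + cut_M S * (8 * dm) +
    cut_M S * (dm * (dm * (C₀ * (8 * (dm * Real.sqrt C₀))))) +
    cut_M S * (dm * (dm * (C₀ * (8 * (dm * (dh * (cut_f S * ε))) + 8 * (dm * (dm * (cut_f S * ε))))))) with hMdef
  have hMn : 0 ≤ M := by
    have := cut_M_nonneg S
    have := cut_f_nonneg S
    positivity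
  refine ⟨ε, M + 1, hε, by positivity, ?_⟩
  intro R y w hR hy hw χ v hχ hv β
  obtain ⟨hdet, -, hD, hinv, -, -⟩ := H R y hR hy.le
  have hD' : ∀ i B E, |S.Dy φ i y B E| ≤ Real.sqrt C₀ * R := by
    intro i B E
    have h1 := hD i (Pi.single E 1)
    have h2 : ∀ B', ∑ E', S.Dy φ i y B' E' * (Pi.single E (1 : ℝ) : Fin dm → ℝ) E' = S.Dy φ i y B' E := by
      intro B'
      rw [Finset.sum_eq_single E]
      · simp
      · intro E' _ hE'
        simp [Pi.single_eq_of_ne hE']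
      · simp
    simp only [h2] at h1
    have h3 : ∑ B', (Pi.single E (1 : ℝ) : Fin dm → ℝ) B' ^ 2 = 1 := by
      rw [Finset.sum_eq_single E]
      · simp
      · intro E' _ hE'
        simp [Pi.single_eq_of_ne hE']
      · simp
    rw [h3, mul_one] at h1
    have h4 : (S.Dy φ i y B E) ^ 2 ≤ C₀ * R ^ 2 :=
      (Finset.single_le_sum (f := fun B' => (S.Dy φ i y B' E) ^ 2) (fun _ _ => sq_nonneg _)
        (Finset.mem_univ B)).trans h1
    refine abs_le_of_sq_le_sq ?_ (by positivity)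
    rw [mul_pow, Real.sq_sqrt hC₀.le]
    exact h4
  -- derivatives
  have hvd : DifferentiableAt ℝ (fun p : Cfg dh × Wsp dm => v p.1 p.2) (y, w) :=
    ((hv.contDiffAt ((cut_open S φ).mem_nhds hdet)).differentiableAt (by simp))
  have hχd : DifferentiableAt ℝ χ (y, w) := hχ.differentiable (by simp) _
  have hvy : DifferentiableAt ℝ (fun y' => v y' w) y :=
    DifferentiableAt.comp (g := fun p : Cfg dh × Wsp dm => v p.1 p.2) (f := fun y' : Cfg dh => (y', w)) y hvd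
      (differentiableAt_id.prodMk (differentiableAt_const w))
  have hvw : DifferentiableAt ℝ (v y) w :=
    DifferentiableAt.comp (g := fun p : Cfg dh × Wsp dm => v p.1 p.2) (f := fun w' : Wsp dm => (y, w')) w hvd
      ((differentiableAt_const y).prodMk differentiableAt_id)
  have hχy : HasFDerivAt (fun y' => χ (y', w))
      ((fderiv ℝ χ (y, w)).comp (ContinuousLinearMap.inl ℝ (Cfg dh) (Wsp dm))) y := by
    have h1 : HasFDerivAt (fun y' : Cfg dh => (y', w)) (ContinuousLinearMap.inl ℝ (Cfg dh) (Wsp dm)) y :=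
      (hasFDerivAt_id y).prodMk (hasFDerivAt_const w y)
    exact hχd.hasFDerivAt.comp y h1
  have hχw : HasFDerivAt (fun w' => χ (y, w'))
      ((fderiv ℝ χ (y, w)).comp (ContinuousLinearMap.inr ℝ (Cfg dh) (Wsp dm))) w := by
    have h1 : HasFDerivAt (fun w' : Wsp dm => (y, w')) (ContinuousLinearMap.inr ℝ (Cfg dh) (Wsp dm)) w :=
      (hasFDerivAt_const y w).prodMk (hasFDerivAt_id w)
    exact hχd.hasFDerivAt.comp w h1
  have e1 : ∀ i A, py i A (fun y' w' => ((χ (y', w') : ℝ) : ℂ) • v y' w') y w =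
      ((χ (y, w) : ℝ) : ℂ) • py i A v y w +
        (((fderiv ℝ χ (y, w) (EuclideanSpace.single (i, A) 1, 0) : ℝ)) : ℂ) • v y w := by
    intro i A
    have h1 : HasFDerivAt (fun y' => χ (y', w) • v y' w) _ y := hχy.smul hvy.hasFDerivAt
    have h2 : (fun y' => ((χ (y', w) : ℝ) : ℂ) • v y' w) = fun y' => χ (y', w) • v y' w := by
      funext y'
      exact Complex.coe_smul _ _
    unfold py pd
    simp only [h2]
    rw [h1.fderiv]
    simp only [add_apply, smul_apply, ContinuousLinearMap.smulRight_apply,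
      ContinuousLinearMap.comp_apply, ContinuousLinearMap.inl_apply, Complex.coe_smul]
  have e2 : ∀ j B, pw j B (fun y' w' => ((χ (y', w') : ℝ) : ℂ) • v y' w') y w =
      ((χ (y, w) : ℝ) : ℂ) • pw j B v y w +
        (((fderiv ℝ χ (y, w) (0, EuclideanSpace.single (j, B) 1) : ℝ)) : ℂ) • v y w := by
    intro j B
    have h1 : HasFDerivAt (fun w' => χ (y, w') • v y w') _ w := hχw.smul hvw.hasFDerivAt
    have h2 : (fun w' => ((χ (y, w') : ℝ) : ℂ) • v y w') = fun w' => χ (y, w') • v y w' := by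
      funext y'
      exact Complex.coe_smul _ _
    unfold pw
    simp only [h2]
    rw [h1.fderiv]
    simp only [add_apply, smul_apply, ContinuousLinearMap.smulRight_apply,
      ContinuousLinearMap.comp_apply, ContinuousLinearMap.inr_apply, Complex.coe_smul]
  have e3 : Qs S φ β (fun y' w' => ((χ (y', w') : ℝ) : ℂ) • v y' w') y w -
      ((χ (y, w) : ℝ) : ℂ) • Qs S φ β v y w =
      cut_E S φ β y w
        (fun i A => (((fderiv ℝ χ (y, w) (EuclideanSpace.single (i, A) 1, 0) : ℝ)) : ℂ) • v y w)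
        (fun j B => (((fderiv ℝ χ (y, w) (0, EuclideanSpace.single (j, B) 1) : ℝ)) : ℂ) • v y w) := by
    rw [cut_split, cut_split]
    simp only [e1, e2]
    rw [cut_E_add, cut_E_smul, cut_Z_smul, smul_add]
    abel
  rw [e3]
  have hn1 : ∀ i (A : Fin dh), ‖(((fderiv ℝ χ (y, w) (EuclideanSpace.single (i, A) 1, 0) : ℝ)) : ℂ) • v y w‖ ≤
      ‖fderiv ℝ χ (y, w)‖ * ‖v y w‖ := by
    intro i A
    rw [norm_smul, Complex.norm_real]
    refine mul_le_mul_of_nonneg_right ?_ (norm_nonneg _)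
    refine (ContinuousLinearMap.le_opNorm _ _).trans (le_of_eq ?_)
    rw [Prod.norm_mk]
    simp
  have hn2 : ∀ j (B : Fin dm), ‖(((fderiv ℝ χ (y, w) (0, EuclideanSpace.single (j, B) 1) : ℝ)) : ℂ) • v y w‖ ≤
      ‖fderiv ℝ χ (y, w)‖ * ‖v y w‖ := by
    intro i A
    rw [norm_smul, Complex.norm_real]
    refine mul_le_mul_of_nonneg_right ?_ (norm_nonneg _)
    refine (ContinuousLinearMap.le_opNorm _ _).trans (le_of_eq ?_)
    rw [Prod.norm_mk]
    simp
  refine (cut_E_norm S φ β y w _ _ hR hε.le hC₀.le (Real.sqrt_nonneg _)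
    (b := ‖fderiv ℝ χ (y, w)‖ * ‖v y w‖) (by positivity) hinv hD' hw.le hn1 hn2).trans ?_
  rw [← hMdef, mul_assoc (M + 1)]
  exact mul_le_mul_of_nonneg_right (by linarith) (by positivity)

end Vale.Agent.P353.Z.AN
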