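import Vale.Agent.P353.AN.A.Stmt

/-! # P353, all `N`, block A: exact decomposition of the supercharges on the slice (A3) -/

set_option linter.all false

open MeasureTheory Filter Topology
open scoped ContDiff

namespace Vale.Agent.P353.Z.AN

variable {d dh dm : ℕ} {F : Type*} [NormedAddCommGroup F] [InnerProductSpace ℂ F]

lemma dec_emb_inl (φ : Spl dh dm d) (y : Cfg dh) (w : Wsp dm) (i : Fin 9) (A : Fin dh) :
    emb φ y w (i, φ (Sum.inl A)) = y (i, A) := by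
  simp [emb]

lemma dec_emb_inr (φ : Spl dh dm d) (y : Cfg dh) (w : Wsp dm) (i : Fin 9) (B : Fin dm) :
    emb φ y w (i, φ (Sum.inr B)) = wt w i B := by
  simp [emb, wt]

lemma dec_wt_last (w : Wsp dm) (B : Fin dm) : wt w 8 B = 0 := by
  show wt w (Fin.last 8) B = 0
  simp only [wt, Fin.lastCases_last]

lemma dec_wt_cast (w : Wsp dm) (j : Fin 8) (B : Fin dm) : wt w j.castSucc B = w (j, B) := by
  simp only [wt, Fin.lastCases_castSucc]

lemma dec_wt_add (w w' : Wsp dm) (i : Fin 9) (B : Fin dm) : wt (w + w') i B = wt w i B + wt w' i B := by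
  refine Fin.lastCases ?_ (fun j => ?_) i
  · simp only [wt, Fin.lastCases_last, add_zero]
  · simp only [dec_wt_cast]; rfl

lemma dec_wt_smul (c : ℝ) (w : Wsp dm) (i : Fin 9) (B : Fin dm) : wt (c • w) i B = c * wt w i B := by
  refine Fin.lastCases ?_ (fun j => ?_) i
  · simp only [wt, Fin.lastCases_last, mul_zero]
  · simp only [dec_wt_cast]; rfl

/-- the slice embedding as a continuous linear map -/
noncomputable def embL (φ : Spl dh dm d) : Cfg dh × Wsp dm →L[ℝ] Cfg d :=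
  LinearMap.toContinuousLinearMap
    { toFun := fun p => emb φ p.1 p.2
      map_add' := by
        intro p q
        ext ⟨i, A⟩
        obtain ⟨a, rfl⟩ := φ.surjective A
        rcases a with a | a
        · rw [PiLp.add_apply]; simp only [dec_emb_inl, Prod.fst_add, Prod.snd_add]; rfl
        · rw [PiLp.add_apply]; simp only [dec_emb_inr, Prod.fst_add, Prod.snd_add, dec_wt_add]
      map_smul' := by
        intro c p
        ext ⟨i, A⟩
        obtain ⟨a, rfl⟩ := φ.surjective A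
        rcases a with a | a
        · rw [PiLp.smul_apply]; simp only [dec_emb_inl, Prod.smul_fst, Prod.smul_snd]; rfl
        · rw [PiLp.smul_apply]; simp only [dec_emb_inr, Prod.smul_fst, Prod.smul_snd, dec_wt_smul]; rfl }

lemma embL_apply (φ : Spl dh dm d) (p : Cfg dh × Wsp dm) : embL φ p = emb φ p.1 p.2 := rfl

lemma dec_embL_y (φ : Spl dh dm d) (i : Fin 9) (A : Fin dh) :
    embL φ (EuclideanSpace.single (i, A) 1, 0) = EuclideanSpace.single (i, φ (Sum.inl A)) 1 := by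
  ext ⟨k, C⟩
  obtain ⟨a, rfl⟩ := φ.surjective C
  rw [embL_apply]
  rcases a with a | a
  · simp only [dec_emb_inl, PiLp.single_apply, Prod.mk.injEq, EmbeddingLike.apply_eq_iff_eq, Sum.inl.injEq]
  · rw [dec_emb_inr]
    have h0 : wt (0 : Wsp dm) k a = 0 := by
      have := dec_wt_smul 0 (0 : Wsp dm) k a
      simpa using this
    simp only [h0, PiLp.single_apply, Prod.mk.injEq, EmbeddingLike.apply_eq_iff_eq]
    simp

lemma dec_embL_w (φ : Spl dh dm d) (j : Fin 8) (B : Fin dm) :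
    embL φ (0, EuclideanSpace.single (j, B) 1) = EuclideanSpace.single (j.castSucc, φ (Sum.inr B)) 1 := by
  ext ⟨k, C⟩
  obtain ⟨a, rfl⟩ := φ.surjective C
  rw [embL_apply]
  rcases a with a | a
  · simp only [dec_emb_inl, PiLp.single_apply, Prod.mk.injEq, EmbeddingLike.apply_eq_iff_eq]
    simp
  · rw [dec_emb_inr]
    refine Fin.lastCases ?_ (fun l => ?_) k
    · simp only [wt, Fin.lastCases_last, PiLp.single_apply, Prod.mk.injEq, EmbeddingLike.apply_eq_iff_eq]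
      rw [if_neg]
      rintro ⟨h, -⟩
      exact (Fin.castSucc_lt_last j).ne h.symm
    · simp only [dec_wt_cast, PiLp.single_apply, Prod.mk.injEq, EmbeddingLike.apply_eq_iff_eq, Sum.inr.injEq,
        Fin.castSucc_inj]

/-- derivatives of `u ∘ emb` -/
lemma dec_der_y (φ : Spl dh dm d) {u : Cfg d → F} (y : Cfg dh) (w : Wsp dm) (hu : DifferentiableAt ℝ u (emb φ y w)) :
    HasFDerivAt (fun y' => u (emb φ y' w)) ((fderiv ℝ u (emb φ y w)).comp
      ((embL φ).comp (ContinuousLinearMap.inl ℝ (Cfg dh) (Wsp dm)))) y := by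
  have h1 : HasFDerivAt (fun y' : Cfg dh => embL φ (y', w))
      ((embL φ).comp (ContinuousLinearMap.inl ℝ (Cfg dh) (Wsp dm))) y :=
    (embL φ).hasFDerivAt.comp y (hasFDerivAt_prodMk_left y w)
  exact HasFDerivAt.comp y hu.hasFDerivAt h1

lemma dec_der_w (φ : Spl dh dm d) {u : Cfg d → F} (y : Cfg dh) (w : Wsp dm) (hu : DifferentiableAt ℝ u (emb φ y w)) :
    HasFDerivAt (fun w' => u (emb φ y w')) ((fderiv ℝ u (emb φ y w)).comp
      ((embL φ).comp (ContinuousLinearMap.inr ℝ (Cfg dh) (Wsp dm)))) w := by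
  have h1 : HasFDerivAt (fun w' : Wsp dm => embL φ (y, w'))
      ((embL φ).comp (ContinuousLinearMap.inr ℝ (Cfg dh) (Wsp dm))) w :=
    (embL φ).hasFDerivAt.comp w (hasFDerivAt_prodMk_right y w)
  exact HasFDerivAt.comp w hu.hasFDerivAt h1

lemma dec_det_smooth (S : Setup d F) (φ : Spl dh dm d) (i : Fin 9) :
    ContDiff ℝ ∞ (fun y : Cfg dh => (S.Dy φ i y).det) := by
  simp only [Matrix.det_apply]
  refine ContDiff.sum fun σ _ => ?_
  have h1 : ContDiff ℝ ∞ (fun y : Cfg dh => ∏ B, S.Dy φ i y (σ B) B) := by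
    refine contDiff_prod fun B _ => ?_
    show ContDiff ℝ ∞ (fun y : Cfg dh => ∑ A, S.f (φ (Sum.inr (σ B))) (φ (Sum.inl A)) (φ (Sum.inr B)) * y (i, A))
    fun_prop
  have h2 : (fun y : Cfg dh => Equiv.Perm.sign σ • ∏ B, S.Dy φ i y (σ B) B) =
      fun y : Cfg dh => ((Equiv.Perm.sign σ : ℤ) : ℝ) * ∏ B, S.Dy φ i y (σ B) B := by
    funext y'
    rw [Units.smul_def, zsmul_eq_mul]
  rw [h2]
  exact contDiff_const.mul h1

lemma dec_J_deriv (S : Setup d F) (φ : Spl dh dm d) (y : Cfg dh) (h : (S.Dy φ 8 y).det ≠ 0) :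
    ∃ L : Cfg dh →L[ℝ] ℝ, HasFDerivAt (S.Jd φ) L y := by
  have h1 : HasFDerivAt (fun y : Cfg dh => (S.Dy φ 8 y).det) (fderiv ℝ (fun y : Cfg dh => (S.Dy φ 8 y).det) y) y :=
    ((dec_det_smooth S φ 8).differentiable (by simp)).differentiableAt.hasFDerivAt
  exact ⟨_, (hasDerivAt_abs h).comp_hasFDerivAt y h1⟩

lemma dec_J_pos (S : Setup d F) (φ : Spl dh dm d) (y : Cfg dh) (h : (S.Dy φ 8 y).det ≠ 0) :
    0 < S.Jd φ y := abs_pos.2 h

lemma dec_sqrt (S : Setup d F) (φ : Spl dh dm d) (y : Cfg dh) (h : (S.Dy φ 8 y).det ≠ 0) :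
    HasFDerivAt (fun y' => Real.sqrt (S.Jd φ y'))
      ((Real.sqrt (S.Jd φ y) / 2) • fderiv ℝ (fun y' => Real.log (S.Jd φ y')) y) y := by
  obtain ⟨L, hL⟩ := dec_J_deriv S φ y h
  have hp := dec_J_pos S φ y h
  have h1 := hL.log hp.ne'
  have h2 := hL.sqrt hp.ne'
  rw [h1.fderiv]
  have e0 : (Real.sqrt (S.Jd φ y) / 2) • ((S.Jd φ y)⁻¹ • L) = (1 / (2 * Real.sqrt (S.Jd φ y))) • L := by
    rw [smul_smul]
    congr 1
    have h3 : Real.sqrt (S.Jd φ y) ≠ 0 := (Real.sqrt_pos.2 hp).ne'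
    have h4 : Real.sqrt (S.Jd φ y) * Real.sqrt (S.Jd φ y) = S.Jd φ y := Real.mul_self_sqrt hp.le
    have h5 : (S.Jd φ y)⁻¹ = (Real.sqrt (S.Jd φ y))⁻¹ * (Real.sqrt (S.Jd φ y))⁻¹ := by
      rw [← mul_inv, h4]
    rw [h5]
    field_simp
  rw [e0]
  exact h2

lemma dec_log_zero (S : Setup d F) (φ : Spl dh dm d) (y : Cfg dh) (h : (S.Dy φ 8 y).det ≠ 0) (i : Fin 9) (hi : i ≠ 8)
    (A : Fin dh) : fderiv ℝ (fun y' => Real.log (S.Jd φ y')) y (EuclideanSpace.single (i, A) 1) = 0 := by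
  obtain ⟨L, hL⟩ := dec_J_deriv S φ y h
  have hp := dec_J_pos S φ y h
  have h1 := hL.log hp.ne'
  have h2 := h1.hasLineDerivAt (EuclideanSpace.single (i, A) 1)
  have h3 : HasLineDerivAt ℝ (fun y' => Real.log (S.Jd φ y')) 0 y (EuclideanSpace.single (i, A) 1) := by
    show HasDerivAt _ _ _
    have : (fun t : ℝ => Real.log (S.Jd φ (y + t • EuclideanSpace.single (i, A) 1))) =
        fun _ => Real.log (S.Jd φ y) := by
      funext t
      have e : S.Dy φ 8 (y + t • EuclideanSpace.single (i, A) 1) = S.Dy φ 8 y := by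
        ext B C
        simp only [Setup.Dy, Setup.Dm, Matrix.of_apply]
        refine Finset.sum_congr rfl fun A' _ => ?_
        congr 1
        show (y + t • EuclideanSpace.single (i, A) (1 : ℝ)) ((8 : Fin 9), A') = y ((8 : Fin 9), A')
        rw [PiLp.add_apply, PiLp.smul_apply, PiLp.single_apply, if_neg, smul_zero, add_zero]
        intro h; exact hi (congrArg Prod.fst h).symm
      rw [Setup.Jd, Setup.Jd, e]
    rw [this]
    exact hasDerivAt_const _ _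
  rw [h1.fderiv]
  exact h2.unique h3

/-- derivative of `log J` -/
noncomputable def lJ (S : Setup d F) (φ : Spl dh dm d) (y : Cfg dh) (i : Fin 9) (A : Fin dh) : ℝ :=
  fderiv ℝ (fun y' => Real.log (S.Jd φ y')) y (EuclideanSpace.single (i, A) 1)

lemma dec_py (S : Setup d F) (φ : Spl dh dm d) {u : Cfg d → F} (y : Cfg dh) (w : Wsp dm)
    (hu : DifferentiableAt ℝ u (emb φ y w)) (h : (S.Dy φ 8 y).det ≠ 0) (i : Fin 9) (A : Fin dh) :
    py i A (S.res φ u) y w = ((Real.sqrt (S.Jd φ y) : ℝ) : ℂ) • pd i (φ (Sum.inl A)) u (emb φ y w) +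
      ((Real.sqrt (S.Jd φ y) / 2 * lJ S φ y i A : ℝ) : ℂ) • u (emb φ y w) := by
  have h1 := (dec_sqrt S φ y h).smul (dec_der_y φ y w hu)
  have h2 : (fun y' => S.res φ u y' w) = (fun y' => Real.sqrt (S.Jd φ y')) • fun y' => u (emb φ y' w) := by
    funext y'
    show ((Real.sqrt (S.Jd φ y') : ℝ) : ℂ) • u (emb φ y' w) = Real.sqrt (S.Jd φ y') • u (emb φ y' w)
    rw [Complex.coe_smul]
  rw [← h2] at h1
  rw [py, pd, h1.fderiv]
  simp only [_root_.add_apply, _root_.smul_apply, ContinuousLinearMap.comp_apply, ContinuousLinearMap.inl_apply,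
    dec_embL_y, ContinuousLinearMap.smulRight_apply, Complex.coe_smul]
  rfl

lemma dec_pw (S : Setup d F) (φ : Spl dh dm d) {u : Cfg d → F} (y : Cfg dh) (w : Wsp dm)
    (hu : DifferentiableAt ℝ u (emb φ y w)) (j : Fin 8) (B : Fin dm) :
    pw j B (S.res φ u) y w = ((Real.sqrt (S.Jd φ y) : ℝ) : ℂ) • pd j.castSucc (φ (Sum.inr B)) u (emb φ y w) := by
  have h1 := (dec_der_w φ y w hu).const_smul (Real.sqrt (S.Jd φ y))
  have h2 : S.res φ u y = fun w' => Real.sqrt (S.Jd φ y) • u (emb φ y w') := by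
    funext w'
    show ((Real.sqrt (S.Jd φ y) : ℝ) : ℂ) • u (emb φ y w') = Real.sqrt (S.Jd φ y) • u (emb φ y w')
    rw [Complex.coe_smul]
  rw [pw, h2, pd]
  have h3 : HasFDerivAt (fun w' => Real.sqrt (S.Jd φ y) • u (emb φ y w')) _ w := h1
  rw [h3.fderiv]
  simp only [_root_.smul_apply, ContinuousLinearMap.comp_apply, ContinuousLinearMap.inr_apply,
    dec_embL_w, Complex.coe_smul]

lemma dec_sum {M : Type*} [AddCommMonoid M] (φ : Spl dh dm d) (g : Fin d → M) :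
    ∑ A, g A = ∑ A, g (φ (Sum.inl A)) + ∑ B, g (φ (Sum.inr B)) := by
  rw [← φ.sum_comp, Fintype.sum_sum_type]

lemma dec_f1 (S : Setup d F) {φ : Spl dh dm d} (hs : S.IsSub φ) (A B C) :
    S.f (φ (Sum.inl A)) (φ (Sum.inr C)) (φ (Sum.inl B)) = 0 := by
  rw [S.f_cyc, S.f_cyc]
  rw [hs]

lemma dec_f2 (S : Setup d F) {φ : Spl dh dm d} (hs : S.IsSub φ) (A B C) :
    S.f (φ (Sum.inr C)) (φ (Sum.inl A)) (φ (Sum.inl B)) = 0 := by
  rw [S.f_cyc]
  rw [hs]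

lemma dec_FF_inl (S : Setup d F) {φ : Spl dh dm d} (hs : S.IsSub φ) (y : Cfg dh) (w : Wsp dm) (A : Fin dh) (i j : Fin 9) :
    S.FF (φ (Sum.inl A)) i j (emb φ y w) =
      S.κ * (∑ B, ∑ C, S.f (φ (Sum.inl A)) (φ (Sum.inl B)) (φ (Sum.inl C)) * y (i, B) * y (j, C)) +
      S.κ * ∑ B, ∑ C, S.f (φ (Sum.inl A)) (φ (Sum.inr B)) (φ (Sum.inr C)) * wt w i B * wt w j C := by
  rw [Setup.FF, dec_sum φ]
  simp only [dec_sum φ (fun C => S.f _ _ C * _ * _), dec_emb_inl, dec_emb_inr, hs A, dec_f1 S hs, zero_mul,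
    Finset.sum_const_zero, add_zero, zero_add, mul_add]

lemma dec_FF_inr (S : Setup d F) {φ : Spl dh dm d} (hs : S.IsSub φ) (y : Cfg dh) (w : Wsp dm) (A : Fin dm) (i j : Fin 9) :
    S.FF (φ (Sum.inr A)) i j (emb φ y w) = S.FL φ A i j y w +
      S.κ * ∑ B, ∑ C, S.f (φ (Sum.inr A)) (φ (Sum.inr B)) (φ (Sum.inr C)) * wt w i B * wt w j C := by
  rw [Setup.FF, dec_sum φ]
  simp only [dec_sum φ (fun C => S.f _ _ C * _ * _), dec_emb_inl, dec_emb_inr, dec_f2 S hs, zero_mul,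
    Finset.sum_const_zero, add_zero, zero_add]
  rw [Setup.FL, Finset.sum_add_distrib, ← mul_add, ← add_assoc]
  congr 2
  rw [sub_eq_add_neg]
  congr 1
  · simp only [Setup.Dy, Setup.Dm, Matrix.of_apply, Finset.sum_mul]
    rw [Finset.sum_comm]
  · simp only [Setup.Dy, Setup.Dm, Matrix.of_apply, Finset.sum_mul]
    rw [← Finset.sum_neg_distrib]
    refine Finset.sum_congr rfl fun B _ => ?_
    rw [← Finset.sum_neg_distrib]
    refine Finset.sum_congr rfl fun C _ => ?_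
    rw [S.f_swap' (φ (Sum.inr A)) (φ (Sum.inl C)) (φ (Sum.inr B))]
    ring

lemma dec_W (S : Setup d F) {φ : Spl dh dm d} (hs : S.IsSub φ) (y : Cfg dh) (w : Wsp dm) (β : Fin 16) (U : F) :
    S.W β (emb φ y w) U =
      (1 / 2 : ℂ) • (∑ A, ∑ i, ∑ j,
        ((S.κ * ∑ B, ∑ C, S.f (φ (Sum.inl A)) (φ (Sum.inl B)) (φ (Sum.inl C)) * y (i, B) * y (j, C) : ℝ) : ℂ) •
        S.vec (S.g2 i j) (φ (Sum.inl A)) β U) +
      (1 / 2 : ℂ) • (∑ B, ∑ i, ∑ j, ((S.FL φ B i j y w : ℝ) : ℂ) • S.vec (S.g2 i j) (φ (Sum.inr B)) β U) +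
      (1 / 2 : ℂ) • (∑ A, ∑ i, ∑ j,
      ((S.κ * ∑ B, ∑ C, S.f (φ (Sum.inl A)) (φ (Sum.inr B)) (φ (Sum.inr C)) * wt w i B * wt w j C : ℝ) : ℂ) •
        S.vec (S.g2 i j) (φ (Sum.inl A)) β U) +
      (1 / 2 : ℂ) • (∑ A, ∑ i, ∑ j,
      ((S.κ * ∑ B, ∑ C, S.f (φ (Sum.inr A)) (φ (Sum.inr B)) (φ (Sum.inr C)) * wt w i B * wt w j C : ℝ) : ℂ) •
        S.vec (S.g2 i j) (φ (Sum.inr A)) β U) := by
  rw [Setup.W]
  simp only [_root_.smul_apply, _root_.sum_apply]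
  rw [dec_sum φ]
  simp only [dec_FF_inl S hs, dec_FF_inr S hs, Complex.ofReal_add, add_smul, Finset.sum_add_distrib, smul_add]
  abel

/-- the Gauss law solved for `∂_8^m` -/
lemma dec_gauss (S : Setup d F) {φ : Spl dh dm d} (hs : S.IsSub φ) {u : Cfg d → F} (hG : ∀ C x, S.G C u x = 0)
    (y : Cfg dh) (w : Wsp dm) (c : Fin dm) :
    ∑ E, ((S.Dy φ 8 y c E : ℝ) : ℂ) • pd 8 (φ (Sum.inr E)) u (emb φ y w) =
      -((∑ j : Fin 8, ∑ E, ((S.Dy φ j.castSucc y c E : ℝ) : ℂ) • pd j.castSucc (φ (Sum.inr E)) u (emb φ y w)) +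
        ((∑ j : Fin 8, ∑ E, ∑ A, ((S.f (φ (Sum.inr c)) (φ (Sum.inr E)) (φ (Sum.inl A)) * w (j, E) : ℝ) : ℂ) •
          pd j.castSucc (φ (Sum.inl A)) u (emb φ y w)) +
        (∑ j : Fin 8, ∑ E, ∑ G, ((S.f (φ (Sum.inr c)) (φ (Sum.inr E)) (φ (Sum.inr G)) * w (j, E) : ℝ) : ℂ) •
          pd j.castSucc (φ (Sum.inr G)) u (emb φ y w)) +
        Complex.I • S.cS (φ (Sum.inr c)) (u (emb φ y w)))) := by
  have h1 := hG (φ (Sum.inr c)) (emb φ y w)
  rw [Setup.G] at h1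
  have h2 : (∑ i, ∑ A, ∑ B, ((S.f (φ (Sum.inr c)) A B : ℂ) * ((emb φ y w) (i, A) : ℂ)) • pd i B u (emb φ y w)) =
      (∑ i, ∑ E, ((S.Dy φ i y c E : ℝ) : ℂ) • pd i (φ (Sum.inr E)) u (emb φ y w)) +
      ((∑ i, ∑ E, ∑ A, ((S.f (φ (Sum.inr c)) (φ (Sum.inr E)) (φ (Sum.inl A)) * wt w i E : ℝ) : ℂ) •
          pd i (φ (Sum.inl A)) u (emb φ y w)) +
        (∑ i, ∑ E, ∑ G, ((S.f (φ (Sum.inr c)) (φ (Sum.inr E)) (φ (Sum.inr G)) * wt w i E : ℝ) : ℂ) •
          pd i (φ (Sum.inr G)) u (emb φ y w))) := by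
    rw [← Finset.sum_add_distrib, ← Finset.sum_add_distrib]
    refine Finset.sum_congr rfl fun i _ => ?_
    rw [dec_sum φ]
    simp only [dec_sum φ (fun B => (_ : ℂ) • pd i B u _), dec_emb_inl, dec_emb_inr, dec_f2 S hs,
      Complex.ofReal_zero, zero_mul, zero_smul, Finset.sum_const_zero, zero_add, Finset.sum_add_distrib,
      Complex.ofReal_mul]
    congr 1
    rw [Finset.sum_comm]
    refine Finset.sum_congr rfl fun E _ => ?_
    rw [← Finset.sum_smul]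
    simp only [Setup.Dy, Setup.Dm, Matrix.of_apply]
    push_cast
    rfl
  rw [h2] at h1
  rw [Fin.sum_univ_castSucc (f := fun i => ∑ E, ((S.Dy φ i y c E : ℝ) : ℂ) • pd i (φ (Sum.inr E)) u (emb φ y w)),
    Fin.sum_univ_castSucc (f := fun i => ∑ E, ∑ A, ((S.f (φ (Sum.inr c)) (φ (Sum.inr E)) (φ (Sum.inl A)) * wt w i E : ℝ) : ℂ) •
          pd i (φ (Sum.inl A)) u (emb φ y w)),
    Fin.sum_univ_castSucc (f := fun i => ∑ E, ∑ G, ((S.f (φ (Sum.inr c)) (φ (Sum.inr E)) (φ (Sum.inr G)) * wt w i E : ℝ) : ℂ) •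
          pd i (φ (Sum.inr G)) u (emb φ y w))] at h1
  have h8 : (Fin.last 8 : Fin 9) = 8 := rfl
  simp only [h8, dec_wt_last, dec_wt_cast, mul_zero, Complex.ofReal_zero, zero_smul, Finset.sum_const_zero,
    add_zero] at h1
  have h3 := congrArg (fun z => Complex.I • z) h1
  simp only [smul_add, smul_smul, smul_zero, mul_neg, Complex.I_mul_I, neg_neg, one_smul] at h3
  rw [eq_neg_iff_add_eq_zero, ← h3]
  simp only [smul_add]
  abel

/-- right side of the Gauss law -/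
noncomputable def dec_R (S : Setup d F) (φ : Spl dh dm d) (u : Cfg d → F) (y : Cfg dh) (w : Wsp dm) (c : Fin dm) : F :=
  (∑ j : Fin 8, ∑ E, ((S.Dy φ j.castSucc y c E : ℝ) : ℂ) • pd j.castSucc (φ (Sum.inr E)) u (emb φ y w)) +
        ((∑ j : Fin 8, ∑ E, ∑ A, ((S.f (φ (Sum.inr c)) (φ (Sum.inr E)) (φ (Sum.inl A)) * w (j, E) : ℝ) : ℂ) •
          pd j.castSucc (φ (Sum.inl A)) u (emb φ y w)) +
        (∑ j : Fin 8, ∑ E, ∑ G, ((S.f (φ (Sum.inr c)) (φ (Sum.inr E)) (φ (Sum.inr G)) * w (j, E) : ℝ) : ℂ) •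
          pd j.castSucc (φ (Sum.inr G)) u (emb φ y w)) +
        Complex.I • S.cS (φ (Sum.inr c)) (u (emb φ y w)))

lemma dec_pd8 (S : Setup d F) {φ : Spl dh dm d} (hs : S.IsSub φ) {u : Cfg d → F} (hG : ∀ C x, S.G C u x = 0)
    (y : Cfg dh) (w : Wsp dm) (h : (S.Dy φ 8 y).det ≠ 0) (B : Fin dm) :
    pd 8 (φ (Sum.inr B)) u (emb φ y w) = -∑ C, (((S.Dy φ 8 y)⁻¹ B C : ℝ) : ℂ) • dec_R S φ u y w C := by
  have h1 : (S.Dy φ 8 y)⁻¹ * S.Dy φ 8 y = 1 := Matrix.nonsing_inv_mul _ (isUnit_iff_ne_zero.2 h)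
  have h2 : ∀ E, ∑ C, ((S.Dy φ 8 y)⁻¹ B C) * S.Dy φ 8 y C E = if B = E then 1 else 0 := by
    intro E
    have := congrFun (congrFun h1 B) E
    rwa [Matrix.mul_apply, Matrix.one_apply] at this
  have h3 : ∀ C, dec_R S φ u y w C = -∑ E, ((S.Dy φ 8 y C E : ℝ) : ℂ) • pd 8 (φ (Sum.inr E)) u (emb φ y w) := by
    intro C
    rw [dec_gauss S hs hG y w C, neg_neg]
    rfl
  simp only [h3, smul_neg, Finset.sum_neg_distrib, neg_neg, Finset.smul_sum, smul_smul]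
  rw [Finset.sum_comm]
  simp only [← Finset.sum_smul]
  have h4 : ∀ E, (∑ C, (((S.Dy φ 8 y)⁻¹ B C : ℝ) : ℂ) * ((S.Dy φ 8 y C E : ℝ) : ℂ)) = if B = E then 1 else 0 := by
    intro E
    have := congrArg (fun t : ℝ => (t : ℂ)) (h2 E)
    push_cast at this
    rw [this]
    split_ifs <;> simp
  simp only [h4, ite_smul, one_smul, zero_smul, Finset.sum_ite_eq, Finset.mem_univ, if_true]

theorem dec_stmt (S : Setup d F) : DecStmt S := by
  intro dh dm φ hs u hu hG β y w hdet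
  have hd : DifferentiableAt ℝ u (emb φ y w) := (hu.differentiable (by simp)).differentiableAt
  have hpy := dec_py S φ y w hd hdet
  have hpy' : ∀ (j : Fin 8) (A : Fin dh), py j.castSucc A (S.res φ u) y w =
      ((Real.sqrt (S.Jd φ y) : ℝ) : ℂ) • pd j.castSucc (φ (Sum.inl A)) u (emb φ y w) := by
    intro j A
    have h0 : lJ S φ y j.castSucc A = 0 := dec_log_zero S φ y hdet j.castSucc (Fin.castSucc_lt_last j).ne A
    rw [hpy, h0, mul_zero, Complex.ofReal_zero, zero_smul, add_zero]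
  have hpw := dec_pw S φ y w hd
  have hres : S.res φ u y w = ((Real.sqrt (S.Jd φ y) : ℝ) : ℂ) • u (emb φ y w) := rfl
  have hresQ : S.res φ (S.Q β u) y w = ((Real.sqrt (S.Jd φ y) : ℝ) : ℂ) • S.Q β u (emb φ y w) := rfl
  have hlz : ∀ (i : Fin 9) (A : Fin dh), i ≠ 8 → lJ S φ y i A = 0 := fun i A hi => dec_log_zero S φ y hdet i hi A
  generalize hrr : Real.sqrt (S.Jd φ y) = r at *
  -- the three pieces
  have e1 : S.Qh φ β (S.res φ u) y w =
      (r : ℂ) • ((-Complex.I) • ∑ i, ∑ A, S.vec (S.g i) (φ (Sum.inl A)) β (pd i (φ (Sum.inl A)) u (emb φ y w))) +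
      (-Complex.I) • (∑ A, ((r / 2 * lJ S φ y 8 A : ℝ) : ℂ) • S.vec (S.g 8) (φ (Sum.inl A)) β (u (emb φ y w))) +
      (r : ℂ) • ((1 / 2 : ℂ) • ∑ A, ∑ i, ∑ j,
      ((S.κ * ∑ B, ∑ C, S.f (φ (Sum.inl A)) (φ (Sum.inl B)) (φ (Sum.inl C)) * y (i, B) * y (j, C) : ℝ) : ℂ) •
        S.vec (S.g2 i j) (φ (Sum.inl A)) β (u (emb φ y w))) := by
    rw [Setup.Qh]
    simp only [hpy, hres, map_add, map_smul, Finset.sum_add_distrib, smul_add]
    have e2 : (∑ i, ∑ A, ((r / 2 * lJ S φ y i A : ℝ) : ℂ) • S.vec (S.g i) (φ (Sum.inl A)) β (u (emb φ y w))) =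
        ∑ A, ((r / 2 * lJ S φ y 8 A : ℝ) : ℂ) • S.vec (S.g 8) (φ (Sum.inl A)) β (u (emb φ y w)) := by
      refine Finset.sum_eq_single_of_mem 8 (Finset.mem_univ _) fun i _ hi => ?_
      refine Finset.sum_eq_zero fun A _ => ?_
      rw [hlz i A hi, mul_zero, Complex.ofReal_zero, zero_smul]
    rw [e2]
    congr 1
    · congr 1
      simp only [Finset.smul_sum]
      refine Finset.sum_congr rfl fun i _ => Finset.sum_congr rfl fun A _ => ?_
      rw [smul_comm]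
    · simp only [Finset.smul_sum]
      refine Finset.sum_congr rfl fun A _ => Finset.sum_congr rfl fun i _ => Finset.sum_congr rfl fun j _ => ?_
      rw [smul_comm (r : ℂ) (1 / 2 : ℂ), smul_comm (r : ℂ)]
  have e3 : S.Q1 φ β (S.res φ u) y w + S.Qr φ β (S.res φ u) y w =
      (r : ℂ) • ((-Complex.I) • (∑ j : Fin 8, ∑ B, S.vec (S.g j.castSucc) (φ (Sum.inr B)) β
        (pd j.castSucc (φ (Sum.inr B)) u (emb φ y w))) +
      Complex.I • (∑ B, S.vec (S.g 8) (φ (Sum.inr B)) β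
        (∑ C, (((S.Dy φ 8 y)⁻¹ B C : ℝ) : ℂ) • dec_R S φ u y w C)) +
      (1 / 2 : ℂ) • (∑ B, ∑ i, ∑ j, ((S.FL φ B i j y w : ℝ) : ℂ) • S.vec (S.g2 i j) (φ (Sum.inr B)) β (u (emb φ y w))) +
      (1 / 2 : ℂ) • (∑ A, ∑ i, ∑ j,
      ((S.κ * ∑ B, ∑ C, S.f (φ (Sum.inl A)) (φ (Sum.inr B)) (φ (Sum.inr C)) * wt w i B * wt w j C : ℝ) : ℂ) •
        S.vec (S.g2 i j) (φ (Sum.inl A)) β (u (emb φ y w))) +
      (1 / 2 : ℂ) • (∑ A, ∑ i, ∑ j,
      ((S.κ * ∑ B, ∑ C, S.f (φ (Sum.inr A)) (φ (Sum.inr B)) (φ (Sum.inr C)) * wt w i B * wt w j C : ℝ) : ℂ) •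
        S.vec (S.g2 i j) (φ (Sum.inr A)) β (u (emb φ y w)))) +
      (Complex.I / 2) • (∑ A, ((lJ S φ y 8 A : ℝ) : ℂ) • S.vec (S.g 8) (φ (Sum.inl A)) β ((r : ℂ) • u (emb φ y w))) := by
    rw [Setup.Q1, Setup.Qr]
    have e4 : ∀ B, (∑ C, (((S.Dy φ 8 y)⁻¹ B C : ℝ) : ℂ) • dec_R S φ u y w C) =
        (∑ C, (((S.Dy φ 8 y)⁻¹ B C : ℝ) : ℂ) • ∑ j : Fin 8, ∑ E, ((S.Dy φ j.castSucc y C E : ℝ) : ℂ) •
          pd j.castSucc (φ (Sum.inr E)) u (emb φ y w)) +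
        ∑ C, (((S.Dy φ 8 y)⁻¹ B C : ℝ) : ℂ) •
          ((∑ j : Fin 8, ∑ E, ∑ A, ((S.f (φ (Sum.inr C)) (φ (Sum.inr E)) (φ (Sum.inl A)) * w (j, E) : ℝ) : ℂ) •
          pd j.castSucc (φ (Sum.inl A)) u (emb φ y w)) +
        (∑ j : Fin 8, ∑ E, ∑ G, ((S.f (φ (Sum.inr C)) (φ (Sum.inr E)) (φ (Sum.inr G)) * w (j, E) : ℝ) : ℂ) •
          pd j.castSucc (φ (Sum.inr G)) u (emb φ y w)) +
        Complex.I • S.cS (φ (Sum.inr C)) (u (emb φ y w))) := by
      intro B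
      rw [← Finset.sum_add_distrib]
      refine Finset.sum_congr rfl fun C _ => ?_
      rw [dec_R, smul_add]
    simp only [e4]
    have hv : ∀ (T : F →L[ℂ] F) (z : F), T ((r : ℂ) • z) = (r : ℂ) • T z := fun T z => map_smul _ _ _
    have sc : ∀ (c : ℂ) (z : F), c • ((r : ℂ) • z) = (r : ℂ) • (c • z) := fun c z => smul_comm _ _ _
    have sa : ∀ a b : F, (r : ℂ) • a + (r : ℂ) • b = (r : ℂ) • (a + b) := fun a b => (smul_add _ _ _).symm
    have ss : ∀ {n : ℕ} (g : Fin n → F), (∑ k, (r : ℂ) • g k) = (r : ℂ) • ∑ k, g k := fun g => (Finset.smul_sum).symm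
    simp only [hpy', hpw, hres, hv, sc, ss, sa]
    congr 1
    simp only [map_add, Finset.sum_add_distrib, smul_add]
    change _ = _ + (Complex.I / 2) • (∑ A, ((lJ S φ y 8 A : ℝ) : ℂ) • S.vec (S.g 8) (φ (Sum.inl A)) β (u (emb φ y w)))
    rw [show (∑ A, ((fderiv ℝ (fun y' => Real.log (S.Jd φ y')) y (EuclideanSpace.single ((8 : Fin 9), A) 1) : ℝ) : ℂ) •
      S.vec (S.g 8) (φ (Sum.inl A)) β (u (emb φ y w))) = (∑ A, ((lJ S φ y 8 A : ℝ) : ℂ) • S.vec (S.g 8) (φ (Sum.inl A)) β (u (emb φ y w))) from rfl]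
    abel
  rw [add_assoc, e3, e1, hresQ, Setup.Q, dec_W S hs y w β]
  have e5 : (∑ i, ∑ A, S.vec (S.g i) A β (pd i A u (emb φ y w))) =
      (∑ i, ∑ A, S.vec (S.g i) (φ (Sum.inl A)) β (pd i (φ (Sum.inl A)) u (emb φ y w))) +
      ((∑ j : Fin 8, ∑ B, S.vec (S.g j.castSucc) (φ (Sum.inr B)) β
        (pd j.castSucc (φ (Sum.inr B)) u (emb φ y w))) -
        ∑ B, S.vec (S.g 8) (φ (Sum.inr B)) β
        (∑ C, (((S.Dy φ 8 y)⁻¹ B C : ℝ) : ℂ) • dec_R S φ u y w C)) := by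
    have e6 : (∑ i, ∑ A, S.vec (S.g i) A β (pd i A u (emb φ y w))) =
        (∑ i, ∑ A, S.vec (S.g i) (φ (Sum.inl A)) β (pd i (φ (Sum.inl A)) u (emb φ y w))) +
        ∑ i, ∑ B, S.vec (S.g i) (φ (Sum.inr B)) β (pd i (φ (Sum.inr B)) u (emb φ y w)) := by
      rw [← Finset.sum_add_distrib]
      exact Finset.sum_congr rfl fun i _ => dec_sum φ _
    rw [e6]
    congr 1
    rw [Fin.sum_univ_castSucc (n := 8), sub_eq_add_neg]
    congr 1
    have h8 : (Fin.last 8 : Fin 9) = 8 := rfl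
    rw [h8, ← Finset.sum_neg_distrib]
    refine Finset.sum_congr rfl fun B _ => ?_
    rw [dec_pd8 S hs hG y w hdet B, map_neg]
  rw [e5]
  have e7 : (Complex.I / 2) • (∑ A, ((lJ S φ y 8 A : ℝ) : ℂ) • S.vec (S.g 8) (φ (Sum.inl A)) β ((r : ℂ) • u (emb φ y w))) =
      Complex.I • (∑ A, ((r / 2 * lJ S φ y 8 A : ℝ) : ℂ) • S.vec (S.g 8) (φ (Sum.inl A)) β (u (emb φ y w))) := by
    simp only [Finset.smul_sum, map_smul, smul_smul]
    refine Finset.sum_congr rfl fun A _ => ?_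
    congr 1
    push_cast
    ring
  rw [e7]
  simp only [smul_add, smul_sub, neg_smul, smul_neg]
  abel

end Vale.Agent.P353.Z.AN
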