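import Vale.Agent.P353.Z.U.StmtC

/-! # P353, all `N`, block A: linear slices — definitions

The colour index is split as `Fin dh ⊕ Fin dm ≃ Fin d` (`h` = subalgebra, `m` = complement), the slice is
`{x | x_8^A = 0 for A ∈ m}` with coordinates `y : Cfg dh` and `w : Wsp dm` (`w (j, B) = x_j^B`, `j < 8`). The general slice
(direction `e ∈ S^8`, arbitrary subalgebra) is brought to this form by `Setup.rot`. -/

open MeasureTheory Filter Topology
open scoped ContDiff

namespace Vale.Agent.P353.Z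

variable {d dh dm : ℕ} {F : Type*} [NormedAddCommGroup F] [InnerProductSpace ℂ F]

/-- off-diagonal coordinates of the slice -/
abbrev Wsp (dm : ℕ) : Type := EuclideanSpace ℝ (Fin 8 × Fin dm)

/-- splitting of the colour index -/
abbrev Spl (dh dm d : ℕ) : Type := Fin dh ⊕ Fin dm ≃ Fin d

/-- the slice point with coordinates `y`, `w` -/
noncomputable def emb (φ : Spl dh dm d) (y : Cfg dh) (w : Wsp dm) : Cfg d :=
  WithLp.toLp 2 fun p => Sum.elim (fun A => y (p.1, A))
    (fun B => Fin.lastCases (motive := fun _ => ℝ) 0 (fun j => w (j, B)) p.1) (φ.symm p.2)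

/-- `w_i^B` with `w_8 = 0` -/
noncomputable def wt (w : Wsp dm) (i : Fin 9) (B : Fin dm) : ℝ :=
  Fin.lastCases (motive := fun _ => ℝ) 0 (fun j => w (j, B)) i

/-- partial derivative in the direction `w_j^B` -/
noncomputable def pw (j : Fin 8) (B : Fin dm) (v : Cfg dh → Wsp dm → F) (y : Cfg dh) (w : Wsp dm) : F :=
  fderiv ℝ (v y) w (EuclideanSpace.single (j, B) 1)

/-- partial derivative in the direction `y_i^A` -/
noncomputable def py (i : Fin 9) (A : Fin dh) (v : Cfg dh → Wsp dm → F) (y : Cfg dh) (w : Wsp dm) : F :=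
  pd i A (fun y' => v y' w) y

namespace Setup

variable (S : Setup d F)

/-- the first summand spans a subalgebra -/
def IsSub (φ : Spl dh dm d) : Prop :=
  ∀ A B C, S.f (φ (Sum.inl A)) (φ (Sum.inl B)) (φ (Sum.inr C)) = 0

/-- the setup of the subalgebra (on the same fermion space) -/
noncomputable def sub (φ : Spl dh dm d) (h : S.IsSub φ) : Setup dh F where
  g := S.g
  g_symm := S.g_symm
  g_anti := S.g_anti
  th := fun α A => S.th α (φ (Sum.inl A))
  th_anti := by
    intro α A β B
    rw [S.th_anti]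
    simp only [EmbeddingLike.apply_eq_iff_eq, Sum.inl.injEq]
  κ := S.κ
  κ_pos := S.κ_pos
  f := fun A B C => S.f (φ (Sum.inl A)) (φ (Sum.inl B)) (φ (Sum.inl C))
  f_swap := fun A B C => S.f_swap _ _ _
  f_cyc := fun A B C => S.f_cyc _ _ _
  f_jac := by
    intro A B C D
    have h1 := S.f_jac (φ (Sum.inl A)) (φ (Sum.inl B)) (φ (Sum.inl C)) (φ (Sum.inl D))
    rw [← φ.sum_comp, Fintype.sum_sum_type] at h1
    have h2 : ∀ E : Fin dm, S.f (φ (Sum.inl A)) (φ (Sum.inl B)) (φ (Sum.inr E)) *
        S.f (φ (Sum.inr E)) (φ (Sum.inl C)) (φ (Sum.inl D)) +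
        S.f (φ (Sum.inl B)) (φ (Sum.inl C)) (φ (Sum.inr E)) *
        S.f (φ (Sum.inr E)) (φ (Sum.inl A)) (φ (Sum.inl D)) +
        S.f (φ (Sum.inl C)) (φ (Sum.inl A)) (φ (Sum.inr E)) *
        S.f (φ (Sum.inr E)) (φ (Sum.inl B)) (φ (Sum.inl D)) = 0 := by
      intro E
      rw [h, h, h]
      ring
    simpa [h2] using h1
  g_real := S.g_real
  th_sa := fun α A v w => S.th_sa α _ v w

/-- matrix of `ad v` on `m`, `v ∈ h`: `(ad v)_{BC} = ∑_A f_{BAC} v^A` -/
noncomputable def Dm (φ : Spl dh dm d) (v : Fin dh → ℝ) : Matrix (Fin dm) (Fin dm) ℝ :=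
  Matrix.of fun B C => ∑ A, S.f (φ (Sum.inr B)) (φ (Sum.inl A)) (φ (Sum.inr C)) * v A

/-- `D_i(y) = ad y_i` on `m` -/
noncomputable def Dy (φ : Spl dh dm d) (i : Fin 9) (y : Cfg dh) : Matrix (Fin dm) (Fin dm) ℝ :=
  S.Dm φ fun A => y (i, A)

/-- density of the slice: `|det ad y_8|_m|` -/
noncomputable def Jd (φ : Spl dh dm d) (y : Cfg dh) : ℝ := |(S.Dy φ 8 y).det|

/-- `F_{ij}^B`, part linear in `w`: `κ (D_i w_j - D_j w_i)^B` -/
noncomputable def FL (φ : Spl dh dm d) (B : Fin dm) (i j : Fin 9) (y : Cfg dh) (w : Wsp dm) : ℝ :=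
  S.κ * ((∑ C, S.Dy φ i y B C * wt w j C) - ∑ C, S.Dy φ j y B C * wt w i C)

/-- block diagonal supercharge -/
noncomputable def Qh (φ : Spl dh dm d) (β : Fin 16) (v : Cfg dh → Wsp dm → F) (y : Cfg dh) (w : Wsp dm) : F :=
  (-Complex.I) • ∑ i, ∑ A, S.vec (S.g i) (φ (Sum.inl A)) β (py i A v y w) +
    (1 / 2 : ℂ) • ∑ A, ∑ i, ∑ j,
      ((S.κ * ∑ B, ∑ C, S.f (φ (Sum.inl A)) (φ (Sum.inl B)) (φ (Sum.inl C)) * y (i, B) * y (j, C) : ℝ) : ℂ) •
        S.vec (S.g2 i j) (φ (Sum.inl A)) β (v y w)

/-- off-diagonal supercharge (fibrewise in `y`): first order in `w, ∂_w, θ^m` -/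
noncomputable def Q1 (φ : Spl dh dm d) (β : Fin 16) (v : Cfg dh → Wsp dm → F) (y : Cfg dh) (w : Wsp dm) : F :=
  (-Complex.I) • (∑ j : Fin 8, ∑ B, S.vec (S.g j.castSucc) (φ (Sum.inr B)) β (pw j B v y w)) +
    Complex.I • (∑ B, S.vec (S.g 8) (φ (Sum.inr B)) β
      (∑ C, (((S.Dy φ 8 y)⁻¹ B C : ℝ) : ℂ) • ∑ j : Fin 8, ∑ E, ((S.Dy φ j.castSucc y C E : ℝ) : ℂ) • pw j E v y w)) +
    (1 / 2 : ℂ) • ∑ B, ∑ i, ∑ j, ((S.FL φ B i j y w : ℝ) : ℂ) • S.vec (S.g2 i j) (φ (Sum.inr B)) β (v y w)

/-- the remaining terms: (a) `γ^8θ^m D_8⁻¹` of `(ad w) ∂^h`, `(ad w) ∂^w` and of the spin part of the Gauss law, (b) the terms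
quadratic in `w` of the potential, (c) the derivative of the density. -/
noncomputable def Qr (φ : Spl dh dm d) (β : Fin 16) (v : Cfg dh → Wsp dm → F) (y : Cfg dh) (w : Wsp dm) : F :=
  Complex.I • (∑ B, S.vec (S.g 8) (φ (Sum.inr B)) β (∑ C, (((S.Dy φ 8 y)⁻¹ B C : ℝ) : ℂ) •
      ((∑ j : Fin 8, ∑ E, ∑ A, ((S.f (φ (Sum.inr C)) (φ (Sum.inr E)) (φ (Sum.inl A)) * w (j, E) : ℝ) : ℂ) •
          py j.castSucc A v y w) +
        (∑ j : Fin 8, ∑ E, ∑ G, ((S.f (φ (Sum.inr C)) (φ (Sum.inr E)) (φ (Sum.inr G)) * w (j, E) : ℝ) : ℂ) •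
          pw j G v y w) +
        Complex.I • S.cS (φ (Sum.inr C)) (v y w)))) +
    (1 / 2 : ℂ) • (∑ A, ∑ i, ∑ j,
      ((S.κ * ∑ B, ∑ C, S.f (φ (Sum.inl A)) (φ (Sum.inr B)) (φ (Sum.inr C)) * wt w i B * wt w j C : ℝ) : ℂ) •
        S.vec (S.g2 i j) (φ (Sum.inl A)) β (v y w)) +
    (1 / 2 : ℂ) • (∑ A, ∑ i, ∑ j,
      ((S.κ * ∑ B, ∑ C, S.f (φ (Sum.inr A)) (φ (Sum.inr B)) (φ (Sum.inr C)) * wt w i B * wt w j C : ℝ) : ℂ) •
        S.vec (S.g2 i j) (φ (Sum.inr A)) β (v y w)) +
    (Complex.I / 2) • ∑ A, ((fderiv ℝ (fun y' => Real.log (S.Jd φ y')) y (EuclideanSpace.single ((8 : Fin 9), A) 1) : ℝ) : ℂ) •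
      S.vec (S.g 8) (φ (Sum.inl A)) β (v y w)

/-- restriction to the slice with the square root of the density -/
noncomputable def res (φ : Spl dh dm d) (u : Cfg d → F) (y : Cfg dh) (w : Wsp dm) : F :=
  ((Real.sqrt (S.Jd φ y) : ℝ) : ℂ) • u (emb φ y w)

/-- rotated setup: `R ∈ O(9)` acts on the vector index, `O ∈ O(d)` on the colour index -/
noncomputable def rot (R : Matrix (Fin 9) (Fin 9) ℝ) (hR : R * R.transpose = 1)
    (O : Matrix (Fin d) (Fin d) ℝ) (hO : O * O.transpose = 1) : Setup d F where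
  g := fun i => ∑ j, (R i j : ℂ) • S.g j
  g_symm := by
    intro i
    rw [Matrix.transpose_sum]
    exact Finset.sum_congr rfl fun j _ => by rw [Matrix.transpose_smul, S.g_symm]
  g_anti := by
    intro i j
    have h0 : ∑ k, R i k * R j k = if i = j then 1 else 0 := by
      have := congrFun (congrFun hR i) j
      rw [Matrix.mul_apply, Matrix.one_apply] at this
      simpa [Matrix.transpose_apply] using this
    have h1 : (∑ k, (R i k : ℂ) • S.g k) * (∑ l, (R j l : ℂ) • S.g l) +
        (∑ l, (R j l : ℂ) • S.g l) * (∑ k, (R i k : ℂ) • S.g k) =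
        ∑ k, ∑ l, ((R i k : ℂ) * (R j l : ℂ)) • (S.g k * S.g l + S.g l * S.g k) := by
      rw [Finset.sum_mul_sum, Finset.sum_mul_sum, Finset.sum_comm (s := Finset.univ) (t := Finset.univ)
        (f := fun l k => ((R j l : ℂ) • S.g l) * ((R i k : ℂ) • S.g k)), ← Finset.sum_add_distrib]
      refine Finset.sum_congr rfl fun k _ => ?_
      rw [← Finset.sum_add_distrib]
      refine Finset.sum_congr rfl fun l _ => ?_
      rw [smul_mul_smul_comm, smul_mul_smul_comm, smul_add, mul_comm (R j l : ℂ)]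
    rw [h1]
    have h2 : ∀ k l, ((R i k : ℂ) * (R j l : ℂ)) • (S.g k * S.g l + S.g l * S.g k) =
        if k = l then ((R i k : ℂ) * (R j k : ℂ)) • (2 : Matrix (Fin 16) (Fin 16) ℂ) else 0 := by
      intro k l
      rw [S.g_anti]
      by_cases hkl : k = l
      · subst hkl; simp
      · simp [hkl]
    simp only [h2, Finset.sum_ite_eq, Finset.mem_univ, if_true]
    rw [← Finset.sum_smul]
    have h3 : (∑ k, (R i k : ℂ) * (R j k : ℂ)) = if i = j then 1 else 0 := by
      have := congrArg (fun t : ℝ => (t : ℂ)) h0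
      push_cast at this
      rw [this]
      split_ifs <;> simp
    rw [h3]
    by_cases hij : i = j
    · simp [hij]
    · simp [hij]
  th := fun α A => ∑ B, (O A B : ℂ) • S.th α B
  th_anti := by
    intro α A β B
    have h0 : ∑ k, O A k * O B k = if A = B then 1 else 0 := by
      have := congrFun (congrFun hO A) B
      rw [Matrix.mul_apply, Matrix.one_apply] at this
      simpa [Matrix.transpose_apply] using this
    have h1 : (∑ k, (O A k : ℂ) • S.th α k) * (∑ l, (O B l : ℂ) • S.th β l) +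
        (∑ l, (O B l : ℂ) • S.th β l) * (∑ k, (O A k : ℂ) • S.th α k) =
        ∑ k, ∑ l, ((O A k : ℂ) * (O B l : ℂ)) • (S.th α k * S.th β l + S.th β l * S.th α k) := by
      rw [Finset.sum_mul_sum, Finset.sum_mul_sum, Finset.sum_comm (s := Finset.univ) (t := Finset.univ)
        (f := fun l k => ((O B l : ℂ) • S.th β l) * ((O A k : ℂ) • S.th α k)), ← Finset.sum_add_distrib]
      refine Finset.sum_congr rfl fun k _ => ?_
      rw [← Finset.sum_add_distrib]
      refine Finset.sum_congr rfl fun l _ => ?_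
      rw [smul_mul_smul_comm, smul_mul_smul_comm, smul_add, mul_comm (O B l : ℂ)]
    rw [h1]
    have h2 : ∀ k l, ((O A k : ℂ) * (O B l : ℂ)) • (S.th α k * S.th β l + S.th β l * S.th α k) =
        if k = l then (if α = β then ((O A k : ℂ) * (O B k : ℂ)) • (1 : F →L[ℂ] F) else 0) else 0 := by
      intro k l
      rw [S.th_anti]
      by_cases hkl : k = l
      · subst hkl
        by_cases hab : α = β <;> simp [hab]
      · simp [hkl]
    simp only [h2, Finset.sum_ite_eq, Finset.mem_univ, if_true]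
    by_cases hab : α = β
    · simp only [hab, if_true, true_and]
      rw [← Finset.sum_smul]
      have h3 : (∑ k, (O A k : ℂ) * (O B k : ℂ)) = if A = B then 1 else 0 := by
        have := congrArg (fun t : ℝ => (t : ℂ)) h0
        push_cast at this
        rw [this]
        split_ifs <;> simp
      rw [h3]
      by_cases hij : A = B
      · simp [hij]
      · simp [hij]
    · simp [hab]
  κ := S.κ
  κ_pos := S.κ_pos
  f := fun A B C => ∑ A', ∑ B', ∑ C', O A A' * O B B' * O C C' * S.f A' B' C'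
  f_swap := by
    intro A B C
    rw [Finset.sum_comm (s := Finset.univ) (t := Finset.univ), ← Finset.sum_neg_distrib]
    refine Finset.sum_congr rfl fun B' _ => ?_
    rw [← Finset.sum_neg_distrib]
    refine Finset.sum_congr rfl fun A' _ => ?_
    rw [← Finset.sum_neg_distrib]
    refine Finset.sum_congr rfl fun C' _ => ?_
    rw [S.f_swap A' B' C']
    ring
  f_cyc := by
    intro A B C
    rw [Finset.sum_comm (s := Finset.univ) (t := Finset.univ)]
    refine Finset.sum_congr rfl fun B' _ => ?_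
    rw [Finset.sum_comm (s := Finset.univ) (t := Finset.univ)]
    refine Finset.sum_congr rfl fun C' _ => ?_
    refine Finset.sum_congr rfl fun A' _ => ?_
    rw [S.f_cyc A' B' C']
    ring
  f_jac := by
    intro A B C D
    have hO' : O.transpose * O = 1 := mul_eq_one_comm.1 hO
    have h0 : ∀ k l, ∑ E, O E k * O E l = if k = l then 1 else 0 := by
      intro k l
      have := congrFun (congrFun hO' k) l
      rw [Matrix.mul_apply, Matrix.one_apply] at this
      simpa [Matrix.transpose_apply] using this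
    have h1 : ∀ A B C D, (∑ E, (∑ A', ∑ B', ∑ E', O A A' * O B B' * O E E' * S.f A' B' E') *
        (∑ E', ∑ C', ∑ D', O E E' * O C C' * O D D' * S.f E' C' D')) =
        ∑ A', ∑ B', ∑ C', ∑ D', O A A' * O B B' * O C C' * O D D' *
          ∑ E', S.f A' B' E' * S.f E' C' D' := by
      intro A B C D
      have e1 : ∀ E, (∑ A', ∑ B', ∑ E', O A A' * O B B' * O E E' * S.f A' B' E') =
          ∑ E', O E E' * ∑ A', ∑ B', O A A' * O B B' * S.f A' B' E' := by
        intro E
        simp only [Finset.mul_sum]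
        rw [Finset.sum_comm_cycle]
        refine Finset.sum_congr rfl fun E' _ => ?_
        refine Finset.sum_congr rfl fun A' _ => Finset.sum_congr rfl fun B' _ => ?_
        ring
      have e2 : ∀ E, (∑ E', ∑ C', ∑ D', O E E' * O C C' * O D D' * S.f E' C' D') =
          ∑ E', O E E' * ∑ C', ∑ D', O C C' * O D D' * S.f E' C' D' := by
        intro E
        simp only [Finset.mul_sum]
        refine Finset.sum_congr rfl fun E' _ => Finset.sum_congr rfl fun C' _ =>
          Finset.sum_congr rfl fun D' _ => ?_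
        ring
      have e3 : ∀ (p q : Fin d → ℝ), (∑ E, (∑ k, O E k * p k) * (∑ l, O E l * q l)) = ∑ k, p k * q k := by
        intro p q
        have : ∀ E, (∑ k, O E k * p k) * (∑ l, O E l * q l) = ∑ k, ∑ l, (O E k * O E l) * (p k * q l) := by
          intro E
          rw [Finset.sum_mul_sum]
          exact Finset.sum_congr rfl fun k _ => Finset.sum_congr rfl fun l _ => by ring
        simp only [this]
        rw [Finset.sum_comm]
        refine Finset.sum_congr rfl fun k _ => ?_
        rw [Finset.sum_comm]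
        simp only [← Finset.sum_mul, h0, ite_mul, one_mul, zero_mul, Finset.sum_ite_eq, Finset.mem_univ,
          if_true]
      simp only [e1, e2]
      rw [e3]
      have e4 : ∀ E', (∑ A', ∑ B', O A A' * O B B' * S.f A' B' E') *
          (∑ C', ∑ D', O C C' * O D D' * S.f E' C' D') =
          ∑ A', ∑ B', ∑ C', ∑ D', O A A' * O B B' * O C C' * O D D' * (S.f A' B' E' * S.f E' C' D') := by
        intro E'
        simp only [Finset.sum_mul]
        refine Finset.sum_congr rfl fun A' _ => Finset.sum_congr rfl fun B' _ => ?_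
        simp only [Finset.mul_sum]
        refine Finset.sum_congr rfl fun C' _ => Finset.sum_congr rfl fun D' _ => ?_
        ring
      simp only [e4, Finset.mul_sum]
      rw [Finset.sum_comm]
      refine Finset.sum_congr rfl fun A' _ => ?_
      rw [Finset.sum_comm]
      refine Finset.sum_congr rfl fun B' _ => ?_
      rw [Finset.sum_comm]
      refine Finset.sum_congr rfl fun C' _ => ?_
      rw [Finset.sum_comm]
    have h2 : ∀ A' B' C' D', (∑ E', S.f A' B' E' * S.f E' C' D') +
        (∑ E', S.f B' C' E' * S.f E' A' D') + (∑ E', S.f C' A' E' * S.f E' B' D') = 0 := by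
      intro A' B' C' D'
      rw [← Finset.sum_add_distrib, ← Finset.sum_add_distrib]
      exact S.f_jac A' B' C' D'
    simp only [Finset.sum_add_distrib]
    rw [h1 A B C D, h1 B C A D, h1 C A B D]
    have h3 : (∑ B', ∑ C', ∑ A', ∑ D', O B B' * O C C' * O A A' * O D D' *
          ∑ E', S.f B' C' E' * S.f E' A' D') =
        ∑ A', ∑ B', ∑ C', ∑ D', O A A' * O B B' * O C C' * O D D' *
          ∑ E', S.f B' C' E' * S.f E' A' D' := by
      rw [Finset.sum_comm_cycle]
      refine Finset.sum_congr rfl fun A' _ => Finset.sum_congr rfl fun B' _ =>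
        Finset.sum_congr rfl fun C' _ => Finset.sum_congr rfl fun D' _ => ?_
      ring
    have h4 : (∑ C', ∑ A', ∑ B', ∑ D', O C C' * O A A' * O B B' * O D D' *
          ∑ E', S.f C' A' E' * S.f E' B' D') =
        ∑ A', ∑ B', ∑ C', ∑ D', O A A' * O B B' * O C C' * O D D' *
          ∑ E', S.f C' A' E' * S.f E' B' D' := by
      rw [Finset.sum_comm]
      refine Finset.sum_congr rfl fun A' _ => ?_
      rw [Finset.sum_comm]
      refine Finset.sum_congr rfl fun B' _ => Finset.sum_congr rfl fun C' _ =>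
        Finset.sum_congr rfl fun D' _ => ?_
      ring
    rw [h3, h4]
    simp only [← Finset.sum_add_distrib]
    refine Finset.sum_eq_zero fun A' _ => Finset.sum_eq_zero fun B' _ => Finset.sum_eq_zero fun C' _ =>
      Finset.sum_eq_zero fun D' _ => ?_
    rw [← mul_add, ← mul_add, h2, mul_zero]
  g_real := by
    intro i α β
    rw [Matrix.sum_apply, Complex.im_sum]
    refine Finset.sum_eq_zero fun j _ => ?_
    rw [Matrix.smul_apply, smul_eq_mul, Complex.mul_im, Complex.ofReal_re, Complex.ofReal_im, S.g_real]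
    ring
  th_sa := by
    intro α A v w
    simp only [_root_.sum_apply, _root_.smul_apply, sum_inner, inner_sum,
      inner_smul_left, inner_smul_right, Complex.conj_ofReal]
    exact Finset.sum_congr rfl fun B _ => by rw [S.th_sa]

end Setup

/-- coordinates in the rotated frame: `x'_i^A = ∑ R_{ij} O_{AB} x_j^B` -/
noncomputable def rox (R : Matrix (Fin 9) (Fin 9) ℝ) (O : Matrix (Fin d) (Fin d) ℝ) (x : Cfg d) : Cfg d :=
  WithLp.toLp 2 fun p => ∑ j, ∑ B, R p.1 j * O p.2 B * x (j, B)

end Vale.Agent.P353.Z
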