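import Vale.Agent.P353.AN.A.Coo

/-! # P353, all `N`, block A: Jacobian of the tube coordinates -/

open MeasureTheory Filter Topology
open scoped ContDiff

namespace Vale.Agent.P353.Z.AN

variable {d dh dm : ℕ} {F : Type*} [NormedAddCommGroup F] [InnerProductSpace ℂ F]

private lemma dt_emb_inl (φ : Spl dh dm d) (y : Cfg dh) (w : Wsp dm) (i : Fin 9) (A : Fin dh) :
    emb φ y w (i, φ (Sum.inl A)) = y (i, A) := by
  simp [emb]

private lemma dt_emb_8 (φ : Spl dh dm d) (y : Cfg dh) (w : Wsp dm) (B : Fin dm) :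
    emb φ y w (8, φ (Sum.inr B)) = 0 := by
  simp only [emb, Equiv.symm_apply_apply, Sum.elim_inr]
  exact Fin.lastCases_last (motive := fun _ => ℝ)

private lemma dt_emb_cs (φ : Spl dh dm d) (y : Cfg dh) (w : Wsp dm) (j : Fin 8) (B : Fin dm) :
    emb φ y w (j.castSucc, φ (Sum.inr B)) = w (j, B) := by
  simp [emb]

private lemma dt_ext (φ : Spl dh dm d) {x x' : Cfg d} (h1 : ∀ B, x (8, φ (Sum.inr B)) = x' (8, φ (Sum.inr B)))
    (h2 : ∀ i A, x (i, φ (Sum.inl A)) = x' (i, φ (Sum.inl A)))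
    (h3 : ∀ (j : Fin 8) B, x (j.castSucc, φ (Sum.inr B)) = x' (j.castSucc, φ (Sum.inr B))) : x = x' := by
  ext p
  obtain ⟨s, rfl⟩ := (cooIdx_bijective φ).2 p
  rcases s with B | p | p
  · exact h1 B
  · exact h2 p.1 p.2
  · exact h3 p.1 p.2

/-- slice part -/
private noncomputable def dtP (φ : Spl dh dm d) : Cfg d →L[ℝ] Cfg d :=
  LinearMap.toContinuousLinearMap
    { toFun := fun z => emb φ (zy φ z) (zw φ z)
      map_add' := by
        intro z z'
        apply dt_ext φ
        · intro B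
          rw [PiLp.add_apply, dt_emb_8, dt_emb_8, dt_emb_8, add_zero]
        · intro i A
          rw [PiLp.add_apply, dt_emb_inl, dt_emb_inl, dt_emb_inl]
          rfl
        · intro j B
          rw [PiLp.add_apply, dt_emb_cs, dt_emb_cs, dt_emb_cs]
          rfl
      map_smul' := by
        intro c z
        apply dt_ext φ
        · intro B
          rw [PiLp.smul_apply, dt_emb_8, dt_emb_8, smul_zero]
        · intro i A
          rw [PiLp.smul_apply, dt_emb_inl, dt_emb_inl]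
          rfl
        · intro j B
          rw [PiLp.smul_apply, dt_emb_cs, dt_emb_cs]
          rfl }

private lemma dtP_apply (φ : Spl dh dm d) (z : Cfg d) : dtP φ z = emb φ (zy φ z) (zw φ z) := rfl

/-- gauge part -/
private noncomputable def dtL (φ : Spl dh dm d) : Cfg d →L[ℝ] (Fin d → ℝ) :=
  LinearMap.toContinuousLinearMap
    { toFun := fun z => exm φ (zm φ z)
      map_add' := by
        intro z z'
        funext A
        obtain ⟨s, rfl⟩ := φ.surjective A
        rcases s with A | B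
        · simp [exm]
        · simp [exm, zm]
      map_smul' := by
        intro c z
        funext A
        obtain ⟨s, rfl⟩ := φ.surjective A
        rcases s with A | B
        · simp [exm]
        · simp [exm, zm] }

private lemma dtL_apply (φ : Spl dh dm d) (z : Cfg d) : dtL φ z = exm φ (zm φ z) := rfl

private lemma dt_ro_add (O : Matrix (Fin d) (Fin d) ℝ) (x y : Cfg d) : ro O (x + y) = ro O x + ro O y := by
  ext p
  simp [ro, mul_add, Finset.sum_add_distrib]

private lemma dt_ro_smul (O : Matrix (Fin d) (Fin d) ℝ) (c : ℝ) (x : Cfg d) : ro O (c • x) = c • ro O x := by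
  ext p
  simp only [ro, PiLp.smul_apply, smul_eq_mul, Finset.mul_sum]
  exact Finset.sum_congr rfl fun B _ => by ring

private lemma dt_fderiv (S : Setup d F) (h : DexpStmt S) (a : Fin d → ℝ) (x : Cfg d) (α : Fin d → ℝ) (σ : Cfg d) :
    fderiv ℝ (fun p : (Fin d → ℝ) × Cfg d => ro (NormedSpace.exp (S.adm p.1)) p.2) (a, x) (α, σ) =
      ro (NormedSpace.exp (S.adm a)) (ro (S.adm (om S a α)) x + σ) := by
  obtain ⟨h1, h2, -⟩ := h
  set Ψ : (Fin d → ℝ) × Cfg d → Cfg d := fun p => ro (NormedSpace.exp (S.adm p.1)) p.2 with hΨ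
  have hd : DifferentiableAt ℝ Ψ (a, x) := (h2.differentiable (by simp)).differentiableAt
  have e0 : ((α, σ) : (Fin d → ℝ) × Cfg d) = (α, 0) + (0, σ) := by simp
  rw [e0, map_add]
  have e1 : fderiv ℝ Ψ (a, x) (α, 0) = ro (NormedSpace.exp (S.adm a)) (ro (S.adm (om S a α)) x) := by
    have hc : HasDerivAt (fun t : ℝ => ((a + t • α, x) : (Fin d → ℝ) × Cfg d)) (α, 0) 0 := by
      have hc1 : HasDerivAt (fun t : ℝ => a + t • α) α 0 := by
        simpa using ((hasDerivAt_id (0 : ℝ)).smul_const α).const_add a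
      exact hc1.prodMk (hasDerivAt_const (0 : ℝ) x)
    have hf : HasFDerivAt Ψ (fderiv ℝ Ψ (a, x)) ((fun t : ℝ => ((a + t • α, x) : (Fin d → ℝ) × Cfg d)) 0) := by
      simpa using hd.hasFDerivAt
    have hcomp := hf.comp_hasDerivAt (0 : ℝ) hc
    exact hcomp.unique (h1 a α x)
  have e2 : fderiv ℝ Ψ (a, x) (0, σ) = ro (NormedSpace.exp (S.adm a)) σ := by
    have hc : HasDerivAt (fun t : ℝ => ((a, x + t • σ) : (Fin d → ℝ) × Cfg d)) (0, σ) 0 := by
      have hc1 : HasDerivAt (fun t : ℝ => x + t • σ) σ 0 := by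
        simpa using ((hasDerivAt_id (0 : ℝ)).smul_const σ).const_add x
      exact (hasDerivAt_const (0 : ℝ) a).prodMk hc1
    have hf : HasFDerivAt Ψ (fderiv ℝ Ψ (a, x)) ((fun t : ℝ => ((a, x + t • σ) : (Fin d → ℝ) × Cfg d)) 0) := by
      simpa using hd.hasFDerivAt
    have hcomp := hf.comp_hasDerivAt (0 : ℝ) hc
    have h3 : HasDerivAt (fun t : ℝ => ro (NormedSpace.exp (S.adm a)) x + t • ro (NormedSpace.exp (S.adm a)) σ)
        (ro (NormedSpace.exp (S.adm a)) σ) 0 := by
      simpa using ((hasDerivAt_id (0 : ℝ)).smul_const (ro (NormedSpace.exp (S.adm a)) σ)).const_add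
        (ro (NormedSpace.exp (S.adm a)) x)
    have h4 : (Ψ ∘ fun t : ℝ => ((a, x + t • σ) : (Fin d → ℝ) × Cfg d)) =
        fun t : ℝ => ro (NormedSpace.exp (S.adm a)) x + t • ro (NormedSpace.exp (S.adm a)) σ := by
      funext t
      simp only [hΨ, Function.comp]
      rw [dt_ro_add, dt_ro_smul]
    rw [h4] at hcomp
    exact hcomp.unique h3
  rw [e1, e2, dt_ro_add]

private lemma dt_tz_eq (S : Setup d F) (φ : Spl dh dm d) :
    tz S φ = (fun p : (Fin d → ℝ) × Cfg d => ro (NormedSpace.exp (S.adm p.1)) p.2) ∘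
      fun z => (dtL φ z, dtP φ z) := rfl

private lemma dt_fderiv_tz (S : Setup d F) (h : DexpStmt S) (φ : Spl dh dm d) (z ζ : Cfg d) :
    fderiv ℝ (tz S φ) z ζ =
      ro (NormedSpace.exp (S.adm (dtL φ z))) (ro (S.adm (om S (dtL φ z) (dtL φ ζ))) (dtP φ z) + dtP φ ζ) := by
  rw [← dt_fderiv S h, dt_tz_eq]
  have hd : DifferentiableAt ℝ (fun p : (Fin d → ℝ) × Cfg d => ro (NormedSpace.exp (S.adm p.1)) p.2)
      (dtL φ z, dtP φ z) := (h.2.1.differentiable (by simp)).differentiableAt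
  have hg : HasFDerivAt (fun z => (dtL φ z, dtP φ z)) ((dtL φ).prod (dtP φ)) z :=
    ((dtL φ).prod (dtP φ)).hasFDerivAt
  have hc := hd.hasFDerivAt.comp z hg
  rw [hc.fderiv]
  rfl

private lemma dt_det (f : Cfg d →ₗ[ℝ] Cfg d) :
    LinearMap.det f = Matrix.det (Matrix.of fun p q : Fin 9 × Fin d => f (EuclideanSpace.single q 1) p) := by
  rw [← LinearMap.det_toMatrix (EuclideanSpace.basisFun (Fin 9 × Fin d) ℝ).toBasis f]
  congr 1

/-- matrix of `ro O` -/
private noncomputable def dtM (O : Matrix (Fin d) (Fin d) ℝ) : Matrix (Fin 9 × Fin d) (Fin 9 × Fin d) ℝ :=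
  Matrix.of fun p q => if p.1 = q.1 then O p.2 q.2 else 0

private lemma dtM_ro (O : Matrix (Fin d) (Fin d) ℝ) (x : Cfg d) (p : Fin 9 × Fin d) :
    ro O x p = ∑ q, dtM O p q * x q := by
  rw [Fintype.sum_prod_type]
  simp only [dtM, Matrix.of_apply, ite_mul, zero_mul]
  rw [Finset.sum_comm]
  simp [ro]

private lemma dtM_det (O : Matrix (Fin d) (Fin d) ℝ) (hO : O * O.transpose = 1) : |(dtM O).det| = 1 := by
  have h1 : dtM O * (dtM O).transpose = 1 := by
    ext p q
    rw [Matrix.mul_apply, Fintype.sum_prod_type]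
    simp only [dtM, Matrix.of_apply, Matrix.transpose_apply, ite_mul, zero_mul, mul_ite, mul_zero]
    rw [Finset.sum_comm]
    simp only [Finset.sum_ite_eq, Finset.mem_univ, if_true]
    by_cases h : p.1 = q.1
    · have h2 := congrFun (congrFun hO p.2) q.2
      rw [Matrix.mul_apply] at h2
      simp only [Matrix.transpose_apply] at h2
      simp only [h, if_true]
      rw [h2, Matrix.one_apply, Matrix.one_apply]
      congr 1
      rw [Prod.ext_iff]
      simp [h]
    · have h3 : p ≠ q := fun hh => h (by rw [hh])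
      simp [h, h3]
  have h2 := congrArg Matrix.det h1
  rw [Matrix.det_mul, Matrix.det_transpose, Matrix.det_one] at h2
  have h3 : |(dtM O).det| * |(dtM O).det| = 1 := by
    rw [← abs_mul, h2, abs_one]
  nlinarith [abs_nonneg (dtM O).det]

/-- matrix of `P_m ω_a` -/
private noncomputable def dtJ (S : Setup d F) (φ : Spl dh dm d) (a : EuclideanSpace ℝ (Fin dm)) :
    Matrix (Fin dm) (Fin dm) ℝ :=
  Matrix.of fun E B => om S (exm φ a) (Pi.single (φ (Sum.inr B)) 1) (φ (Sum.inr E))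


private lemma dtJ_zero (S : Setup d F) (h : DexpStmt S) (φ : Spl dh dm d) : dtJ S φ 0 = 1 := by
  have h0 : exm φ (0 : EuclideanSpace ℝ (Fin dm)) = 0 := by
    funext A
    obtain ⟨s, rfl⟩ := φ.surjective A
    rcases s with A | B <;> simp [exm]
  ext E B
  simp only [dtJ, Matrix.of_apply]
  rw [h0, h.2.2.2.2.1, Matrix.one_apply, Pi.single_apply]
  simp only [EmbeddingLike.apply_eq_iff_eq, Sum.inr.injEq]

private lemma dt_exm_cont (φ : Spl dh dm d) : Continuous fun a : EuclideanSpace ℝ (Fin dm) => exm φ a := by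
  refine continuous_pi fun A => ?_
  obtain ⟨s, rfl⟩ := φ.surjective A
  rcases s with A | B
  · simp only [exm, Equiv.symm_apply_apply, Sum.elim_inl]
    exact continuous_const
  · simp only [exm, Equiv.symm_apply_apply, Sum.elim_inr]
    fun_prop

private lemma dt_b11 (S : Setup d F) (φ : Spl dh dm d) (hsub : S.IsSub φ) (z : Cfg d) (C B : Fin dm) :
    (ro (S.adm (om S (dtL φ z) (dtL φ (EuclideanSpace.single (8, φ (Sum.inr B)) 1)))) (dtP φ z) +
      dtP φ (EuclideanSpace.single (8, φ (Sum.inr B)) 1)) (8, φ (Sum.inr C)) =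
      (-(S.Dy φ 8 (zy φ z) * dtJ S φ (zm φ z))) C B := by
  have hLe : dtL φ (EuclideanSpace.single (8, φ (Sum.inr B)) (1 : ℝ)) = Pi.single (φ (Sum.inr B)) 1 := by
    rw [dtL_apply]
    funext A
    obtain ⟨t, rfl⟩ := φ.surjective A
    rcases t with A | E
    · simp [exm, Pi.single_apply]
    · simp [exm, zm, Pi.single_apply]
  rw [hLe, PiLp.add_apply, dtP_apply φ (EuclideanSpace.single (8, φ (Sum.inr B)) (1 : ℝ)), dt_emb_8, add_zero]
  set vv := om S (dtL φ z) (Pi.single (φ (Sum.inr B)) 1) with hvv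
  have e1 : ro (S.adm vv) (dtP φ z) (8, φ (Sum.inr C)) =
      ∑ A : Fin dh, S.adm vv (φ (Sum.inr C)) (φ (Sum.inl A)) * z (8, φ (Sum.inl A)) := by
    have e2 : ro (S.adm vv) (dtP φ z) (8, φ (Sum.inr C)) =
        ∑ A, S.adm vv (φ (Sum.inr C)) A * dtP φ z (8, A) := rfl
    rw [e2, ← φ.sum_comp, Fintype.sum_sum_type]
    have e3 : ∀ E : Fin dm, S.adm vv (φ (Sum.inr C)) (φ (Sum.inr E)) * dtP φ z (8, φ (Sum.inr E)) = 0 := by
      intro E
      rw [dtP_apply, dt_emb_8, mul_zero]
    simp only [e3, Finset.sum_const_zero, add_zero]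
    refine Finset.sum_congr rfl fun A _ => ?_
    rw [dtP_apply, dt_emb_inl]
    rfl
  have e4 : ∀ A : Fin dh, S.adm vv (φ (Sum.inr C)) (φ (Sum.inl A)) =
      -∑ E : Fin dm, S.f (φ (Sum.inr C)) (φ (Sum.inl A)) (φ (Sum.inr E)) * vv (φ (Sum.inr E)) := by
    intro A
    have e5 : S.adm vv (φ (Sum.inr C)) (φ (Sum.inl A)) = ∑ G, S.f (φ (Sum.inr C)) G (φ (Sum.inl A)) * vv G := rfl
    rw [e5, ← φ.sum_comp, Fintype.sum_sum_type]
    have e6 : ∀ A' : Fin dh, S.f (φ (Sum.inr C)) (φ (Sum.inl A')) (φ (Sum.inl A)) * vv (φ (Sum.inl A')) = 0 := by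
      intro A'
      rw [S.f_cyc, hsub, zero_mul]
    simp only [e6, Finset.sum_const_zero, zero_add]
    rw [← Finset.sum_neg_distrib]
    refine Finset.sum_congr rfl fun E _ => ?_
    rw [S.f_swap' (φ (Sum.inr C)) (φ (Sum.inl A)) (φ (Sum.inr E))]
    ring
  rw [e1, Matrix.neg_apply, Matrix.mul_apply]
  simp only [e4]
  have e7 : ∀ E : Fin dm, S.Dy φ 8 (zy φ z) C E * dtJ S φ (zm φ z) E B =
      ∑ A : Fin dh, S.f (φ (Sum.inr C)) (φ (Sum.inl A)) (φ (Sum.inr E)) * z (8, φ (Sum.inl A)) * vv (φ (Sum.inr E)) := by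
    intro E
    have e8 : S.Dy φ 8 (zy φ z) C E =
        ∑ A : Fin dh, S.f (φ (Sum.inr C)) (φ (Sum.inl A)) (φ (Sum.inr E)) * z (8, φ (Sum.inl A)) := rfl
    have e9 : dtJ S φ (zm φ z) E B = vv (φ (Sum.inr E)) := rfl
    rw [e8, e9, Finset.sum_mul]
  simp only [e7]
  rw [Finset.sum_comm, ← Finset.sum_neg_distrib]
  refine Finset.sum_congr rfl fun A _ => ?_
  rw [neg_mul, Finset.sum_mul]
  congr 1
  refine Finset.sum_congr rfl fun E _ => ?_
  ring

/-- block form of the derivative -/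
private lemma dt_block (S : Setup d F) (h : DexpStmt S) (φ : Spl dh dm d) (hsub : S.IsSub φ) (z : Cfg d) :
    Matrix.det (Matrix.of fun p q : Fin 9 × Fin d =>
      (ro (S.adm (om S (dtL φ z) (dtL φ (EuclideanSpace.single q 1)))) (dtP φ z) +
        dtP φ (EuclideanSpace.single q 1)) p) = Matrix.det (-(S.Dy φ 8 (zy φ z) * dtJ S φ (zm φ z))) := by
  set T : Matrix (Fin 9 × Fin d) (Fin 9 × Fin d) ℝ := Matrix.of fun p q : Fin 9 × Fin d =>
      (ro (S.adm (om S (dtL φ z) (dtL φ (EuclideanSpace.single q 1)))) (dtP φ z) +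
        dtP φ (EuclideanSpace.single q 1)) p with hT
  rw [← Matrix.det_submatrix_equiv_self (cooEquiv φ) T]
  have hL0 : ∀ s : (Fin 9 × Fin dh) ⊕ (Fin 8 × Fin dm),
      dtL φ (EuclideanSpace.single (cooIdx φ (Sum.inr s)) (1 : ℝ)) = 0 := by
    intro s
    rw [dtL_apply]
    funext A
    obtain ⟨t, rfl⟩ := φ.surjective A
    rcases t with A | B
    · simp [exm]
    · have hne : (8, φ (Sum.inr B)) ≠ cooIdx φ (Sum.inr s) := fun hh => by
        have := (cooIdx_bijective φ).1 (a₁ := Sum.inl B) (a₂ := Sum.inr s) hh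
        simp at this
      simp only [exm, zm, Equiv.symm_apply_apply, Sum.elim_inr, PiLp.single_apply, Pi.zero_apply]
      rw [if_neg hne]
  have hP0 : ∀ s : (Fin 9 × Fin dh) ⊕ (Fin 8 × Fin dm),
      dtP φ (EuclideanSpace.single (cooIdx φ (Sum.inr s)) (1 : ℝ)) =
        EuclideanSpace.single (cooIdx φ (Sum.inr s)) (1 : ℝ) := by
    intro s
    rw [dtP_apply]
    apply dt_ext φ
    · intro B
      have hne : (8, φ (Sum.inr B)) ≠ cooIdx φ (Sum.inr s) := fun hh => by
        have := (cooIdx_bijective φ).1 (a₁ := Sum.inl B) (a₂ := Sum.inr s) hh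
        simp at this
      rw [dt_emb_8, PiLp.single_apply, if_neg hne]
    · intro i A
      rw [dt_emb_inl]
      rfl
    · intro j B
      rw [dt_emb_cs]
      rfl
  have hom0 : om S (dtL φ z) 0 = 0 := (h.2.2.2.1 (dtL φ z)).map_zero
  have hadm0 : S.adm 0 = 0 := by
    ext A C
    simp [Setup.adm]
  have hro0 : ∀ x : Cfg d, ro (0 : Matrix (Fin d) (Fin d) ℝ) x = 0 := by
    intro x
    ext p
    simp [ro]
  have hblock : T.submatrix (cooEquiv φ) (cooEquiv φ) =
      Matrix.fromBlocks (-(S.Dy φ 8 (zy φ z) * dtJ S φ (zm φ z))) 0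
        (Matrix.of fun p q => T (cooIdx φ (Sum.inr p)) (cooIdx φ (Sum.inl q))) 1 := by
    ext p q
    rcases p with C | p
    · rcases q with B | q
      · rw [Matrix.fromBlocks_apply₁₁, Matrix.submatrix_apply]
        exact dt_b11 S φ hsub z C B
      · rw [Matrix.fromBlocks_apply₁₂, Matrix.submatrix_apply]
        show (ro (S.adm (om S (dtL φ z) (dtL φ (EuclideanSpace.single (cooIdx φ (Sum.inr q)) 1)))) (dtP φ z) +
          dtP φ (EuclideanSpace.single (cooIdx φ (Sum.inr q)) 1)) (cooIdx φ (Sum.inl C)) = 0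
        rw [hL0, hP0, hom0, hadm0, hro0, zero_add, PiLp.single_apply, if_neg]
        intro hh
        have := (cooIdx_bijective φ).1 hh
        simp at this
    · rcases q with B | q
      · rw [Matrix.fromBlocks_apply₂₁, Matrix.submatrix_apply]
        rfl
      · rw [Matrix.fromBlocks_apply₂₂, Matrix.submatrix_apply]
        show (ro (S.adm (om S (dtL φ z) (dtL φ (EuclideanSpace.single (cooIdx φ (Sum.inr q)) 1)))) (dtP φ z) +
          dtP φ (EuclideanSpace.single (cooIdx φ (Sum.inr q)) 1)) (cooIdx φ (Sum.inr p)) = _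
        rw [hL0, hP0, hom0, hadm0, hro0, zero_add, PiLp.single_apply, Matrix.one_apply]
        congr 1
        rw [(cooIdx_bijective φ).1.eq_iff]
        simp
  rw [hblock, Matrix.det_fromBlocks_zero₁₂, Matrix.det_one, mul_one]

theorem det_stmt (S : Setup d F) (h : DexpStmt S) : DetStmt S := by
  intro dh dm φ hsub
  obtain ⟨h1, h2, h3, h4, h5, h6⟩ := id h
  refine ⟨?_, fun a => (dtJ S φ a).det, ?_, ?_, ?_⟩
  · rw [dt_tz_eq]
    exact h2.comp ((dtL φ).contDiff.prodMk (dtP φ).contDiff)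
  · apply Continuous.matrix_det
    refine continuous_pi fun E => continuous_pi fun B => ?_
    exact (continuous_apply (φ (Sum.inr E))).comp
      ((h3 (Pi.single (φ (Sum.inr B)) 1)).comp (dt_exm_cont φ))
  · show (dtJ S φ 0).det = 1
    rw [dtJ_zero S h, Matrix.det_one]
  · intro z
    have e1 : (fderiv ℝ (tz S φ) z).det = LinearMap.det ((fderiv ℝ (tz S φ) z : Cfg d →L[ℝ] Cfg d) : Cfg d →ₗ[ℝ] Cfg d) := rfl
    rw [e1, dt_det]
    have e2 : (Matrix.of fun p q : Fin 9 × Fin d =>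
        ((fderiv ℝ (tz S φ) z : Cfg d →L[ℝ] Cfg d) : Cfg d →ₗ[ℝ] Cfg d) (EuclideanSpace.single q 1) p) =
        dtM (NormedSpace.exp (S.adm (dtL φ z))) * Matrix.of fun p q : Fin 9 × Fin d =>
          (ro (S.adm (om S (dtL φ z) (dtL φ (EuclideanSpace.single q 1)))) (dtP φ z) +
            dtP φ (EuclideanSpace.single q 1)) p := by
      ext p q
      rw [Matrix.mul_apply, Matrix.of_apply]
      have e3 : ((fderiv ℝ (tz S φ) z : Cfg d →L[ℝ] Cfg d) : Cfg d →ₗ[ℝ] Cfg d) (EuclideanSpace.single q 1) =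
          fderiv ℝ (tz S φ) z (EuclideanSpace.single q 1) := rfl
      rw [e3, dt_fderiv_tz S h, dtM_ro]
      rfl
    rw [e2, Matrix.det_mul, abs_mul, dtM_det _ (h6 _), one_mul, dt_block S h φ hsub, Matrix.det_neg, abs_mul,
      Matrix.det_mul, abs_mul, abs_pow, abs_neg, abs_one, one_pow, one_mul]
    rfl

end Vale.Agent.P353.Z.AN
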