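import Vale.Agent.P353.AN.A.StmtT
import Vale.Agent.P353.Z.U.GrpExp

/-! # P353, all `N`, block A, A5a: derivative of `exp (ad a)` (Duhamel) -/

open MeasureTheory Filter Topology
open scoped ContDiff

namespace Vale.Agent.P353.Z.AN

variable {d dh dm : ℕ} {F : Type*} [NormedAddCommGroup F] [InnerProductSpace ℂ F]

section Duhamel

variable {𝔸 : Type*} [NormedRing 𝔸] [NormedAlgebra ℝ 𝔸] [NormedAlgebra ℚ 𝔸] [CompleteSpace 𝔸]

open NormedSpace

/-- integrand of Duhamel's formula -/
private lemma dx969_cont (A B : 𝔸) :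
    Continuous (fun p : ℝ × ℝ => exp (p.2 • (A + p.1 • B)) * B * exp ((1 - p.2) • A)) := by
  have h : Continuous (exp : 𝔸 → 𝔸) := exp_continuous
  fun_prop

private lemma dx969_duh (A B : 𝔸) (t : ℝ) :
    exp (A + t • B) - exp A =
      t • ∫ s in (0 : ℝ)..1, exp (s • (A + t • B)) * B * exp ((1 - s) • A) := by
  have hd : ∀ s : ℝ, HasDerivAt (fun s : ℝ => exp (s • (A + t • B)) * exp ((1 - s) • A))
      (t • (exp (s • (A + t • B)) * B * exp ((1 - s) • A))) s := by
    intro s
    have h1 := hasDerivAt_exp_smul_const (𝕂 := ℝ) (A + t • B) s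
    have h2 := hasDerivAt_exp_smul_const' (𝕂 := ℝ) A (1 - s)
    have h3 : HasDerivAt (fun s : ℝ => 1 - s) (-1) s := by
      simpa using (hasDerivAt_id s).const_sub 1
    have h4 := h2.scomp s h3
    refine (h1.mul h4).congr_deriv ?_
    simp only [Function.comp_apply, neg_smul, one_smul, mul_neg, mul_add, add_mul, mul_assoc,
      Algebra.smul_mul_assoc, Algebra.mul_smul_comm]
    abel
  have hc : Continuous (fun s : ℝ => t • (exp (s • (A + t • B)) * B * exp ((1 - s) • A))) :=
    ((dx969_cont A B).comp (Continuous.prodMk_right t)).const_smul t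
  have h5 := intervalIntegral.integral_eq_sub_of_hasDerivAt (a := 0) (b := 1)
    (fun s _ => hd s) (hc.intervalIntegrable 0 1)
  rw [intervalIntegral.integral_smul] at h5
  rw [h5]
  simp

private lemma dx969_hasDerivAt (A B : 𝔸) :
    HasDerivAt (fun t : ℝ => exp (A + t • B))
      (∫ s in (0 : ℝ)..1, exp (s • A) * B * exp ((1 - s) • A)) 0 := by
  rw [hasDerivAt_iff_tendsto_slope_zero]
  have hc : Continuous (fun t : ℝ => ∫ s in (0 : ℝ)..1,
      exp (s • (A + t • B)) * B * exp ((1 - s) • A)) :=
    intervalIntegral.continuous_parametric_intervalIntegral_of_continuous' (dx969_cont A B) 0 1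
  have h1 := (hc.tendsto 0).mono_left (nhdsWithin_le_nhds (s := {(0 : ℝ)}ᶜ))
  simp only [zero_smul, add_zero] at h1
  refine h1.congr' ?_
  filter_upwards [self_mem_nhdsWithin] with t ht
  rw [zero_add, zero_smul, add_zero, dx969_duh, smul_smul, inv_mul_cancel₀ ht, one_smul]

private lemma dx969_eq (A B : 𝔸) :
    ∫ s in (0 : ℝ)..1, exp (s • A) * B * exp ((1 - s) • A) =
      ∫ s in (0 : ℝ)..1, exp A * (exp (-(s • A)) * B * exp (s • A)) := by
  have h1 := intervalIntegral.integral_comp_sub_left (a := 0) (b := 1)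
    (fun s : ℝ => exp (s • A) * B * exp ((1 - s) • A)) 1
  simp only [sub_self, sub_zero, sub_sub_cancel] at h1
  rw [← h1]
  congr 1
  funext s
  have h2 : exp ((1 - s) • A) = exp A * exp (-(s • A)) := by
    rw [sub_smul, one_smul, sub_eq_add_neg]
    exact exp_add_of_commute (((Commute.refl A).smul_right s).neg_right)
  rw [h2, mul_assoc, mul_assoc, mul_assoc]

end Duhamel

section Mat

open scoped Matrix.Norms.Operator

private lemma dx969_exp_cont : Continuous (NormedSpace.exp : Matrix (Fin d) (Fin d) ℝ → _) :=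
  NormedSpace.exp_continuous

private lemma dx969_exp_contDiff (i j : Fin d) :
    ContDiff ℝ ∞ (fun M : Matrix (Fin d) (Fin d) ℝ => (NormedSpace.exp M) i j) := by
  have h1 : ContDiff ℝ ∞ (NormedSpace.exp : Matrix (Fin d) (Fin d) ℝ → Matrix (Fin d) (Fin d) ℝ) :=
    contDiff_iff_contDiffAt.2 fun M => (NormedSpace.exp_analytic (𝕂 := ℝ) M).contDiffAt
  exact (LinearMap.toContinuousLinearMap
    (Matrix.entryLinearMap ℝ ℝ i j)).contDiff.comp h1

private lemma dx969_exp_lin_contDiff (L : (Fin d → ℝ) →ₗ[ℝ] Matrix (Fin d) (Fin d) ℝ)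
    (i j : Fin d) : ContDiff ℝ ∞ (fun a : Fin d → ℝ => (NormedSpace.exp (L a)) i j) :=
  (dx969_exp_contDiff i j).comp (LinearMap.toContinuousLinearMap L).contDiff

private lemma dx969_entry (A B : Matrix (Fin d) (Fin d) ℝ) (i j : Fin d) :
    HasDerivAt (fun t : ℝ => (NormedSpace.exp (A + t • B)) i j)
      (∫ s in (0 : ℝ)..1, (NormedSpace.exp A *
        (NormedSpace.exp (-(s • A)) * B * NormedSpace.exp (s • A))) i j) 0 := by
  have h1 := dx969_hasDerivAt A B
  rw [dx969_eq] at h1
  have hc : Continuous (fun s : ℝ => NormedSpace.exp A *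
      (NormedSpace.exp (-(s • A)) * B * NormedSpace.exp (s • A))) := by
    have h : Continuous (NormedSpace.exp : Matrix (Fin d) (Fin d) ℝ → _) := dx969_exp_cont
    fun_prop
  have h2 := (LinearMap.toContinuousLinearMap
    (Matrix.entryLinearMap ℝ ℝ i j)).hasFDerivAt.comp_hasDerivAt 0 h1
  exact h2.congr_deriv ((LinearMap.toContinuousLinearMap
    (Matrix.entryLinearMap ℝ ℝ i j)).intervalIntegral_comp_comm (hc.intervalIntegrable 0 1)).symm

end Mat

section Adm

variable (S : Setup d F)

private lemma dx969_adm_add (a b : Fin d → ℝ) (t : ℝ) :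
    S.adm (a + t • b) = S.adm a + t • S.adm b := by
  ext A C
  simp only [Setup.adm, Matrix.of_apply, Matrix.add_apply, Matrix.smul_apply, Pi.add_apply,
    Pi.smul_apply, smul_eq_mul, Finset.mul_sum, ← Finset.sum_add_distrib]
  exact Finset.sum_congr rfl fun B _ => by ring

private lemma dx969_adm_contDiff (i j : Fin d) :
    ContDiff ℝ ∞ (fun a : Fin d → ℝ => (NormedSpace.exp (S.adm a)) i j) := by
  let L : (Fin d → ℝ) →ₗ[ℝ] Matrix (Fin d) (Fin d) ℝ :=
    { toFun := fun a => S.adm a
      map_add' := fun a b => by simpa using dx969_adm_add S a b 1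
      map_smul' := fun t b => by
        ext A C
        simp only [Setup.adm, Matrix.of_apply, Matrix.smul_apply, Pi.smul_apply, smul_eq_mul,
          Finset.mul_sum, RingHom.id_apply]
        exact Finset.sum_congr rfl fun B _ => by ring }
  exact dx969_exp_lin_contDiff L i j

private lemma dx969_adm_zero : S.adm 0 = 0 := by
  ext A C
  simp [Setup.adm]

private lemma dx969_adm_cont : Continuous (fun a : Fin d → ℝ => S.adm a) := by
  refine continuous_matrix fun A C => ?_
  simp only [Setup.adm, Matrix.of_apply]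
  fun_prop

private lemma dx969_orth (a : Fin d → ℝ) (s : ℝ) :
    (NormedSpace.exp (s • S.adm a)).transpose = NormedSpace.exp (-(s • S.adm a)) := by
  rw [← Matrix.exp_transpose, Matrix.transpose_smul, U.gx983_adm_transpose, smul_neg]

private lemma dx969_conj (a α : Fin d → ℝ) (s : ℝ) :
    NormedSpace.exp (-(s • S.adm a)) * S.adm α * NormedSpace.exp (s • S.adm a) =
      S.adm ((NormedSpace.exp (-(s • S.adm a))).mulVec α) := by
  have hO := U.gx983_orth S a s
  have hO' := mul_eq_one_comm.1 hO
  have hinv := U.gx983_inv S a s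
  rw [← dx969_orth]
  set O := NormedSpace.exp (s • S.adm a) with hOdef
  set b := O.transpose.mulVec α with hb
  have hα : α = O.mulVec b := by
    rw [hb, Matrix.mulVec_mulVec, hO', Matrix.one_mulVec]
  ext A C
  rw [hα]
  simp only [Matrix.mul_apply, Matrix.transpose_apply, Setup.adm, Matrix.of_apply, Matrix.mulVec,
    dotProduct]
  have h1 : ∀ B, S.f A B C * b B = ∑ A', ∑ B', ∑ C', O A' A * O B' B * O C' C * S.f A' B' C' *
      b B := by
    intro B
    rw [← hinv A B C]
    simp only [Finset.sum_mul]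
  simp only [h1, Finset.sum_mul, Finset.mul_sum]
  rw [Finset.sum_comm]
  conv_rhs => rw [Finset.sum_comm]
  refine Finset.sum_congr rfl fun A' _ => ?_
  rw [Finset.sum_comm]
  conv_rhs => rw [Finset.sum_comm]
  refine Finset.sum_congr rfl fun B' _ => ?_
  rw [Finset.sum_comm]
  refine Finset.sum_congr rfl fun B _ => Finset.sum_congr rfl fun C' _ => ?_
  ring

private lemma dx969_int_cont (α : Fin d → ℝ) (A : Fin d) :
    Continuous (fun p : (Fin d → ℝ) × ℝ =>
      (NormedSpace.exp (-(p.2 • S.adm p.1))).mulVec α A) := by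
  have h1 : Continuous (fun p : (Fin d → ℝ) × ℝ => NormedSpace.exp (-(p.2 • S.adm p.1))) :=
    dx969_exp_cont.comp (continuous_snd.smul ((dx969_adm_cont S).comp continuous_fst)).neg
  have h2 : Continuous (fun p : (Fin d → ℝ) × ℝ =>
      (NormedSpace.exp (-(p.2 • S.adm p.1))).mulVec α) := h1.matrix_mulVec continuous_const
  exact (continuous_apply A).comp h2

private lemma dx969_int_cont' (a α : Fin d → ℝ) (A : Fin d) :
    Continuous (fun τ : ℝ => (NormedSpace.exp (-(τ • S.adm a))).mulVec α A) :=
  (dx969_int_cont S α A).comp (Continuous.prodMk_right a)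

private lemma dx969_om_cont (α : Fin d → ℝ) : Continuous fun a => om S a α := by
  refine continuous_pi fun A => ?_
  exact intervalIntegral.continuous_parametric_intervalIntegral_of_continuous'
    (f := fun a τ => (NormedSpace.exp (-(τ • S.adm a))).mulVec α A) (dx969_int_cont S α A) 0 1

private lemma dx969_om_lin (a : Fin d → ℝ) : IsLinearMap ℝ (om S a) where
  map_add α β := by
    funext A
    simp only [om, Pi.add_apply, Matrix.mulVec_add]
    exact intervalIntegral.integral_add ((dx969_int_cont' S a α A).intervalIntegrable 0 1)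
      ((dx969_int_cont' S a β A).intervalIntegrable 0 1)
  map_smul r α := by
    funext A
    simp only [om, Pi.smul_apply, Matrix.mulVec_smul]
    exact intervalIntegral.integral_smul r _

private lemma dx969_om_zero (α : Fin d → ℝ) : om S 0 α = α := by
  funext A
  simp [om, dx969_adm_zero]

private lemma dx969_adm_om (a α : Fin d → ℝ) (A C : Fin d) :
    S.adm (om S a α) A C = ∫ s in (0 : ℝ)..1,
      S.adm ((NormedSpace.exp (-(s • S.adm a))).mulVec α) A C := by
  simp only [Setup.adm, Matrix.of_apply]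
  rw [intervalIntegral.integral_finsetSum]
  · refine Finset.sum_congr rfl fun B _ => ?_
    rw [intervalIntegral.integral_const_mul]
    rfl
  · intro B _
    exact ((dx969_int_cont' S a α B).const_mul _).intervalIntegrable 0 1

private lemma dx969_entry' (a α : Fin d → ℝ) (A C : Fin d) :
    HasDerivAt (fun t : ℝ => (NormedSpace.exp (S.adm (a + t • α))) A C)
      ((NormedSpace.exp (S.adm a) * S.adm (om S a α)) A C) 0 := by
  have h1 := dx969_entry (S.adm a) (S.adm α) A C
  simp only [dx969_adm_add]
  refine h1.congr_deriv ?_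
  simp only [dx969_conj]
  rw [Matrix.mul_apply]
  simp only [dx969_adm_om, Matrix.mul_apply]
  rw [intervalIntegral.integral_finsetSum]
  · refine Finset.sum_congr rfl fun B _ => ?_
    rw [intervalIntegral.integral_const_mul]
  · intro B _
    refine (Continuous.const_mul ?_ _ |>.intervalIntegrable 0 1)
    simp only [Setup.adm, Matrix.of_apply]
    exact continuous_finsetSum _ fun D _ => (dx969_int_cont' S a α D).const_mul _

/-- **A5a** derivative of `exp (ad a)` -/
theorem dexp_stmt (S : Setup d F) : DexpStmt S := by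
  refine ⟨fun a α x => ?_, ?_, dx969_om_cont S, dx969_om_lin S, dx969_om_zero S, fun a => ?_⟩
  · have h1 : HasDerivAt (fun t : ℝ => fun p : Fin 9 × Fin d =>
        ∑ B, (NormedSpace.exp (S.adm (a + t • α))) p.2 B * x (p.1, B))
        (fun p : Fin 9 × Fin d =>
          ∑ B, (NormedSpace.exp (S.adm a) * S.adm (om S a α)) p.2 B * x (p.1, B)) 0 :=
      hasDerivAt_pi.2 fun p => HasDerivAt.fun_sum fun B _ =>
        (dx969_entry' S a α p.2 B).mul_const _
    have h2 := (PiLp.continuousLinearEquiv 2 ℝ
      (fun _ : Fin 9 × Fin d => ℝ)).symm.hasFDerivAt.comp_hasDerivAt 0 h1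
    rw [← U.gx983_ro_mul]
    exact h2
  · have h1 : ContDiff ℝ ∞ (fun p : (Fin d → ℝ) × Cfg d => fun q : Fin 9 × Fin d =>
        ∑ B, (NormedSpace.exp (S.adm p.1)) q.2 B * p.2 (q.1, B)) := by
      refine contDiff_pi.2 fun q => ContDiff.sum fun B _ => ?_
      refine ContDiff.mul ((dx969_adm_contDiff S q.2 B).comp contDiff_fst) ?_
      exact ((EuclideanSpace.proj (q.1, B) : Cfg d →L[ℝ] ℝ).contDiff).comp contDiff_snd
    exact (PiLp.continuousLinearEquiv 2 ℝ
      (fun _ : Fin 9 × Fin d => ℝ)).symm.contDiff.comp h1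
  · have h := U.gx983_orth S a 1
    rw [one_smul] at h
    exact mul_eq_one_comm.1 h

end Adm

end Vale.Agent.P353.Z.AN
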