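import Vale.Agent.P353.AN.A.StmtS

/-! # P353, all `N`, block A: restriction of invariant functions to the slice (A8) -/

open MeasureTheory Filter Topology
open scoped ContDiff

namespace Vale.Agent.P353.Z.AN

variable {d dh dm : ℕ} {F : Type*} [NormedAddCommGroup F] [InnerProductSpace ℂ F]

lemma gh_wt_last (w : Wsp dm) (b : Fin dm) : wt w (Fin.last 8) b = 0 := by
  unfold wt
  rw [Fin.lastCases_last]

lemma gh_wt_cast (w : Wsp dm) (j : Fin 8) (b : Fin dm) : wt w j.castSucc b = w (j, b) := by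
  unfold wt
  rw [Fin.lastCases_castSucc]

lemma gh_wt_add (w w' : Wsp dm) (i : Fin 9) (b : Fin dm) : wt (w + w') i b = wt w i b + wt w' i b := by
  refine Fin.lastCases ?_ (fun j => ?_) i
  · rw [gh_wt_last, gh_wt_last, gh_wt_last, add_zero]
  · rw [gh_wt_cast, gh_wt_cast, gh_wt_cast]
    rfl

lemma gh_wt_smul (c : ℝ) (w : Wsp dm) (i : Fin 9) (b : Fin dm) : wt (c • w) i b = c * wt w i b := by
  refine Fin.lastCases ?_ (fun j => ?_) i
  · rw [gh_wt_last, gh_wt_last, mul_zero]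
  · rw [gh_wt_cast, gh_wt_cast]
    rfl

/-- `emb` as a continuous linear map -/
noncomputable def ghE (φ : Spl dh dm d) : Cfg dh × Wsp dm →L[ℝ] Cfg d :=
  LinearMap.toContinuousLinearMap
    { toFun := fun p => emb φ p.1 p.2
      map_add' := by
        intro p q
        ext ⟨i, A⟩
        show Sum.elim (fun a => (p.1 + q.1) (i, a)) (fun b => wt (p.2 + q.2) i b) (φ.symm A) =
          Sum.elim (fun a => p.1 (i, a)) (fun b => wt p.2 i b) (φ.symm A) +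
          Sum.elim (fun a => q.1 (i, a)) (fun b => wt q.2 i b) (φ.symm A)
        rcases φ.symm A with a | b
        · rfl
        · exact gh_wt_add _ _ _ _
      map_smul' := by
        intro c p
        ext ⟨i, A⟩
        show Sum.elim (fun a => (c • p.1) (i, a)) (fun b => wt (c • p.2) i b) (φ.symm A) =
          c * Sum.elim (fun a => p.1 (i, a)) (fun b => wt p.2 i b) (φ.symm A)
        rcases φ.symm A with a | b
        · rfl
        · exact gh_wt_smul _ _ _ _ }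

lemma ghE_apply (φ : Spl dh dm d) (y : Cfg dh) (w : Wsp dm) : ghE φ (y, w) = emb φ y w := rfl

lemma gh_emb_inl (φ : Spl dh dm d) (y : Cfg dh) (w : Wsp dm) (i : Fin 9) (a : Fin dh) :
    emb φ y w (i, φ (Sum.inl a)) = y (i, a) := by
  simp [emb]

lemma gh_emb_inr (φ : Spl dh dm d) (y : Cfg dh) (w : Wsp dm) (i : Fin 9) (b : Fin dm) :
    emb φ y w (i, φ (Sum.inr b)) = wt w i b := by
  simp [emb, wt]

lemma gh_single_y (φ : Spl dh dm d) (i : Fin 9) (a : Fin dh) :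
    emb φ (EuclideanSpace.single (i, a) 1) 0 = EuclideanSpace.single (i, φ (Sum.inl a)) 1 := by
  ext ⟨k, A⟩
  obtain ⟨s, rfl⟩ := φ.surjective A
  rcases s with b | b
  · rw [gh_emb_inl]
    simp [Prod.ext_iff]
  · rw [gh_emb_inr]
    have h : wt (0 : Wsp dm) k b = 0 := by
      refine Fin.lastCases (gh_wt_last _ _) (fun j => ?_) k
      rw [gh_wt_cast]
      rfl
    rw [h]
    simp

lemma gh_single_w (φ : Spl dh dm d) (j : Fin 8) (b : Fin dm) :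
    emb φ 0 (EuclideanSpace.single (j, b) 1) = EuclideanSpace.single (j.castSucc, φ (Sum.inr b)) 1 := by
  ext ⟨k, A⟩
  obtain ⟨s, rfl⟩ := φ.surjective A
  rcases s with a | a
  · rw [gh_emb_inl]
    simp
  · rw [gh_emb_inr]
    refine Fin.lastCases ?_ (fun j' => ?_) k
    · have h : (Fin.last 8 : Fin 9) ≠ j.castSucc := (Fin.castSucc_lt_last j).ne'
      rw [gh_wt_last, PiLp.single_apply, if_neg]
      intro h'
      exact h (congrArg Prod.fst h')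
    · rw [gh_wt_cast]
      simp [Prod.ext_iff]

lemma gh_det_contDiff (S : Setup d F) (φ : Spl dh dm d) :
    ContDiff ℝ ∞ (fun y : Cfg dh => (S.Dy φ 8 y).det) := by
  simp only [Matrix.det_apply]
  refine ContDiff.sum fun σ _ => ?_
  refine ContDiff.const_smul _ ?_
  refine contDiff_prod fun i _ => ?_
  show ContDiff ℝ ∞ fun y : Cfg dh => ∑ A, S.f (φ (Sum.inr (σ i))) (φ (Sum.inl A)) (φ (Sum.inr i)) * y (8, A)
  refine ContDiff.sum fun A _ => ?_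
  refine contDiff_const.mul ?_
  exact (EuclideanSpace.proj (𝕜 := ℝ) ((8 : Fin 9), A)).contDiff

lemma gh_sqrt_contDiffAt (S : Setup d F) (φ : Spl dh dm d) (y : Cfg dh) (h : (S.Dy φ 8 y).det ≠ 0) :
    ContDiffAt ℝ ∞ (fun y : Cfg dh => Real.sqrt (S.Jd φ y)) y := by
  have h1 : ContDiffAt ℝ ∞ (fun y : Cfg dh => |(S.Dy φ 8 y).det|) y :=
    ContDiffAt.comp (g := fun t : ℝ => |t|) y (contDiffAt_abs h) (gh_det_contDiff S φ).contDiffAt
  exact h1.sqrt (abs_ne_zero.2 h)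

lemma gh_sm (S : Setup d F) (φ : Spl dh dm d) (u : Cfg d → F) (hu : ContDiff ℝ ∞ u) :
    Sm S φ (S.res φ u) := by
  intro p hp
  have h1 : ContDiffAt ℝ ∞ (fun p : Cfg dh × Wsp dm => Real.sqrt (S.Jd φ p.1)) p :=
    (gh_sqrt_contDiffAt S φ p.1 hp).comp p contDiffAt_fst
  have h2 : ContDiffAt ℝ ∞ (fun p : Cfg dh × Wsp dm => u (emb φ p.1 p.2)) p :=
    (hu.comp (ghE φ).contDiff).contDiffAt
  have h3 : ContDiffAt ℝ ∞ (fun p : Cfg dh × Wsp dm => ((Real.sqrt (S.Jd φ p.1) : ℝ) : ℂ) • u (emb φ p.1 p.2)) p :=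
    (Complex.ofRealCLM.contDiff.contDiffAt.comp p h1).smul h2
  exact h3.contDiffWithinAt

/-- the rotated direction `ξ_{iB} = ∑_A f_{cAB} y_{iA}` in `h` -/
noncomputable def ghX (S : Setup d F) (φ : Spl dh dm d) (c : Fin dh) (y : Cfg dh) : Cfg dh :=
  WithLp.toLp 2 fun p => ∑ A, S.f (φ (Sum.inl c)) (φ (Sum.inl A)) (φ (Sum.inl p.2)) * y (p.1, A)

/-- `ad e_c` on `m` -/
noncomputable def ghM (S : Setup d F) (φ : Spl dh dm d) (c : Fin dh) : Matrix (Fin dm) (Fin dm) ℝ :=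
  Matrix.of fun P E => S.f (φ (Sum.inr P)) (φ (Sum.inl c)) (φ (Sum.inr E))

lemma gh_sum_split (φ : Spl dh dm d) {M : Type*} [AddCommMonoid M] (g : Fin d → M) :
    ∑ A, g A = ∑ a, g (φ (Sum.inl a)) + ∑ b, g (φ (Sum.inr b)) := by
  rw [← φ.sum_comp, Fintype.sum_sum_type]

lemma gh_comm (S : Setup d F) (φ : Spl dh dm d) (hS : S.IsSub φ) (c : Fin dh) (y : Cfg dh) :
    S.Dy φ 8 (ghX S φ c y) = ghM S φ c * S.Dy φ 8 y - S.Dy φ 8 y * ghM S φ c := by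
  ext P Q
  have key : ∀ A : Fin dh, ∑ B : Fin dh, S.f (φ (Sum.inl c)) (φ (Sum.inl A)) (φ (Sum.inl B)) *
      S.f (φ (Sum.inr P)) (φ (Sum.inl B)) (φ (Sum.inr Q)) =
      ∑ E : Fin dm, (S.f (φ (Sum.inr P)) (φ (Sum.inl c)) (φ (Sum.inr E)) *
        S.f (φ (Sum.inr E)) (φ (Sum.inl A)) (φ (Sum.inr Q)) -
        S.f (φ (Sum.inr P)) (φ (Sum.inl A)) (φ (Sum.inr E)) *
        S.f (φ (Sum.inr E)) (φ (Sum.inl c)) (φ (Sum.inr Q))) := by
    intro A
    have h := S.f_jac (φ (Sum.inl c)) (φ (Sum.inl A)) (φ (Sum.inr P)) (φ (Sum.inr Q))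
    rw [gh_sum_split φ] at h
    have h1 : ∀ E : Fin dh, S.f (φ (Sum.inl A)) (φ (Sum.inr P)) (φ (Sum.inl E)) = 0 := by
      intro E
      rw [← S.f_cyc (φ (Sum.inl E)) (φ (Sum.inl A)) (φ (Sum.inr P))]
      exact hS _ _ _
    have h2 : ∀ E : Fin dh, S.f (φ (Sum.inr P)) (φ (Sum.inl c)) (φ (Sum.inl E)) = 0 := by
      intro E
      rw [S.f_cyc (φ (Sum.inr P)) (φ (Sum.inl c)) (φ (Sum.inl E))]
      exact hS _ _ _
    have h3 : ∀ E : Fin dm, S.f (φ (Sum.inl c)) (φ (Sum.inl A)) (φ (Sum.inr E)) = 0 := fun E => hS _ _ _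
    simp only [h1, h2, h3, zero_mul, add_zero, zero_add] at h
    have e1 : ∀ B : Fin dh, S.f (φ (Sum.inl c)) (φ (Sum.inl A)) (φ (Sum.inl B)) *
        S.f (φ (Sum.inl B)) (φ (Sum.inr P)) (φ (Sum.inr Q)) =
        -(S.f (φ (Sum.inl c)) (φ (Sum.inl A)) (φ (Sum.inl B)) *
        S.f (φ (Sum.inr P)) (φ (Sum.inl B)) (φ (Sum.inr Q))) := by
      intro B
      rw [S.f_swap (φ (Sum.inl B)) (φ (Sum.inr P))]
      ring
    have e2 : ∀ E : Fin dm, S.f (φ (Sum.inl A)) (φ (Sum.inr P)) (φ (Sum.inr E)) *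
        S.f (φ (Sum.inr E)) (φ (Sum.inl c)) (φ (Sum.inr Q)) +
        S.f (φ (Sum.inr P)) (φ (Sum.inl c)) (φ (Sum.inr E)) *
        S.f (φ (Sum.inr E)) (φ (Sum.inl A)) (φ (Sum.inr Q)) =
        S.f (φ (Sum.inr P)) (φ (Sum.inl c)) (φ (Sum.inr E)) *
        S.f (φ (Sum.inr E)) (φ (Sum.inl A)) (φ (Sum.inr Q)) -
        S.f (φ (Sum.inr P)) (φ (Sum.inl A)) (φ (Sum.inr E)) *
        S.f (φ (Sum.inr E)) (φ (Sum.inl c)) (φ (Sum.inr Q)) := by
      intro E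
      rw [S.f_swap (φ (Sum.inl A)) (φ (Sum.inr P))]
      ring
    simp only [e1, e2, Finset.sum_neg_distrib] at h
    linarith
  have l1 : S.Dy φ 8 (ghX S φ c y) P Q = ∑ A : Fin dh, y (8, A) *
      ∑ B : Fin dh, S.f (φ (Sum.inl c)) (φ (Sum.inl A)) (φ (Sum.inl B)) *
      S.f (φ (Sum.inr P)) (φ (Sum.inl B)) (φ (Sum.inr Q)) := by
    show ∑ B : Fin dh, S.f (φ (Sum.inr P)) (φ (Sum.inl B)) (φ (Sum.inr Q)) *
      (∑ A : Fin dh, S.f (φ (Sum.inl c)) (φ (Sum.inl A)) (φ (Sum.inl B)) * y (8, A)) = _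
    simp only [Finset.mul_sum]
    rw [Finset.sum_comm]
    refine Finset.sum_congr rfl fun A _ => Finset.sum_congr rfl fun B _ => ?_
    ring
  have r1 : (ghM S φ c * S.Dy φ 8 y) P Q = ∑ E : Fin dm, ∑ A : Fin dh,
      S.f (φ (Sum.inr P)) (φ (Sum.inl c)) (φ (Sum.inr E)) *
      (S.f (φ (Sum.inr E)) (φ (Sum.inl A)) (φ (Sum.inr Q)) * y (8, A)) := by
    rw [Matrix.mul_apply]
    refine Finset.sum_congr rfl fun E _ => ?_
    show S.f (φ (Sum.inr P)) (φ (Sum.inl c)) (φ (Sum.inr E)) *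
      (∑ A : Fin dh, S.f (φ (Sum.inr E)) (φ (Sum.inl A)) (φ (Sum.inr Q)) * y (8, A)) = _
    rw [Finset.mul_sum]
  have r2 : (S.Dy φ 8 y * ghM S φ c) P Q = ∑ E : Fin dm, ∑ A : Fin dh,
      (S.f (φ (Sum.inr P)) (φ (Sum.inl A)) (φ (Sum.inr E)) * y (8, A)) *
      S.f (φ (Sum.inr E)) (φ (Sum.inl c)) (φ (Sum.inr Q)) := by
    rw [Matrix.mul_apply]
    refine Finset.sum_congr rfl fun E _ => ?_
    show (∑ A : Fin dh, S.f (φ (Sum.inr P)) (φ (Sum.inl A)) (φ (Sum.inr E)) * y (8, A)) *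
      S.f (φ (Sum.inr E)) (φ (Sum.inl c)) (φ (Sum.inr Q)) = _
    rw [Finset.sum_mul]
  rw [Matrix.sub_apply, l1, r1, r2, ← Finset.sum_sub_distrib]
  simp only [key, ← Finset.sum_sub_distrib, Finset.mul_sum]
  rw [Finset.sum_comm]
  refine Finset.sum_congr rfl fun E _ => Finset.sum_congr rfl fun A _ => ?_
  ring

lemma gh_trace (S : Setup d F) (φ : Spl dh dm d) (hS : S.IsSub φ) (c : Fin dh) (y : Cfg dh)
    (h : (S.Dy φ 8 y).det ≠ 0) : ((S.Dy φ 8 y)⁻¹ * S.Dy φ 8 (ghX S φ c y)).trace = 0 := by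
  rw [gh_comm S φ hS, Matrix.mul_sub, Matrix.trace_sub, ← Matrix.mul_assoc, ← Matrix.mul_assoc,
    Matrix.nonsing_inv_mul _ (isUnit_iff_ne_zero.2 h), Matrix.one_mul, Matrix.trace_mul_comm,
    ← Matrix.mul_assoc, Matrix.mul_nonsing_inv _ (isUnit_iff_ne_zero.2 h), Matrix.one_mul, sub_self]

lemma gh_line (S : Setup d F) (φ : Spl dh dm d) (c : Fin dh) (y : Cfg dh)
    (h : (S.Dy φ 8 y).det ≠ 0) (t : ℝ) : (S.Dy φ 8 (y + t • ghX S φ c y)).det =
    (S.Dy φ 8 y).det * (1 + t • ((S.Dy φ 8 y)⁻¹ * S.Dy φ 8 (ghX S φ c y))).det := by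
  rw [← Matrix.det_mul]
  congr 1
  rw [Matrix.mul_add, Matrix.mul_one, Matrix.mul_smul, ← Matrix.mul_assoc,
    Matrix.mul_nonsing_inv _ (isUnit_iff_ne_zero.2 h), Matrix.one_mul]
  ext P Q
  show ∑ A, S.f (φ (Sum.inr P)) (φ (Sum.inl A)) (φ (Sum.inr Q)) * (y (8, A) + t * ghX S φ c y (8, A)) =
    (∑ A, S.f (φ (Sum.inr P)) (φ (Sum.inl A)) (φ (Sum.inr Q)) * y (8, A)) +
    t * (∑ A, S.f (φ (Sum.inr P)) (φ (Sum.inl A)) (φ (Sum.inr Q)) * ghX S φ c y (8, A))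
  rw [Finset.mul_sum, ← Finset.sum_add_distrib]
  refine Finset.sum_congr rfl fun A _ => ?_
  ring

lemma gh_dir (S : Setup d F) (φ : Spl dh dm d) (hS : S.IsSub φ) (c : Fin dh) (y : Cfg dh)
    (h : (S.Dy φ 8 y).det ≠ 0) :
    fderiv ℝ (fun y : Cfg dh => Real.sqrt (S.Jd φ y)) y (ghX S φ c y) = 0 := by
  have hd : HasFDerivAt (fun y : Cfg dh => Real.sqrt (S.Jd φ y))
      (fderiv ℝ (fun y : Cfg dh => Real.sqrt (S.Jd φ y)) y) y :=
    ((gh_sqrt_contDiffAt S φ y h).differentiableAt (by simp)).hasFDerivAt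
  have hl : HasDerivAt (fun t : ℝ => y + t • ghX S φ c y) (ghX S φ c y) 0 := by
    simpa using ((hasDerivAt_id (0 : ℝ)).smul_const (ghX S φ c y)).const_add y
  have h1 : HasDerivAt (fun t : ℝ => Real.sqrt (S.Jd φ (y + t • ghX S φ c y)))
      (fderiv ℝ (fun y : Cfg dh => Real.sqrt (S.Jd φ y)) y (ghX S φ c y)) 0 := by
    have hd' : HasFDerivAt (fun y : Cfg dh => Real.sqrt (S.Jd φ y))
      (fderiv ℝ (fun y : Cfg dh => Real.sqrt (S.Jd φ y)) y) (y + (0 : ℝ) • ghX S φ c y) := by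
      simpa using hd
    exact hd'.comp_hasDerivAt (0 : ℝ) hl
  have h2 : HasDerivAt (fun t : ℝ => Real.sqrt (S.Jd φ (y + t • ghX S φ c y))) 0 0 := by
    have e : (fun t : ℝ => Real.sqrt (S.Jd φ (y + t • ghX S φ c y))) = fun t : ℝ =>
        Real.sqrt |(S.Dy φ 8 y).det * (1 + t • ((S.Dy φ 8 y)⁻¹ * S.Dy φ 8 (ghX S φ c y))).det| := by
      funext t
      rw [← gh_line S φ c y h t]
      rfl
    rw [e]
    obtain ⟨p, hp⟩ : ∃ p : Polynomial ℝ, ∀ t : ℝ,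
        (1 + t • ((S.Dy φ 8 y)⁻¹ * S.Dy φ 8 (ghX S φ c y))).det = 1 + p.eval t * t ^ 2 :=
      ⟨_, fun t => by rw [Matrix.det_one_add_smul, gh_trace S φ hS c y h, zero_mul, add_zero]⟩
    simp only [hp]
    have h3 : HasDerivAt (fun t : ℝ => (S.Dy φ 8 y).det * (1 + p.eval t * t ^ 2)) 0 0 := by
      have := (((p.hasDerivAt (0 : ℝ)).mul ((hasDerivAt_id (0 : ℝ)).pow 2)).const_add 1).const_mul
        (S.Dy φ 8 y).det
      refine this.congr_deriv ?_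
      simp
    have h0 : (S.Dy φ 8 y).det * (1 + p.eval (0 : ℝ) * (0 : ℝ) ^ 2) ≠ 0 := by simpa using h
    have h4 := (hasDerivAt_abs h0).comp (0 : ℝ) h3
    have h5 := h4.sqrt (abs_ne_zero.2 h0)
    simpa using h5
  exact h1.unique h2

lemma gh_dirsum (S : Setup d F) (φ : Spl dh dm d) (hS : S.IsSub φ) (c : Fin dh) (y : Cfg dh)
    (h : (S.Dy φ 8 y).det ≠ 0) :
    ∑ i, ∑ A, ∑ B, (S.f (φ (Sum.inl c)) (φ (Sum.inl A)) (φ (Sum.inl B)) * y (i, A)) *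
      fderiv ℝ (fun y : Cfg dh => Real.sqrt (S.Jd φ y)) y (EuclideanSpace.single (i, B) 1) = 0 := by
  have hx : ghX S φ c y = ∑ p : Fin 9 × Fin dh, (ghX S φ c y) p •
      (EuclideanSpace.single p (1 : ℝ) : Cfg dh) := by
    ext q
    simp only [WithLp.ofLp_sum, WithLp.ofLp_smul, Finset.sum_apply, Pi.smul_apply,
        PiLp.single_apply, smul_eq_mul, mul_ite, mul_one, mul_zero]
    rw [Finset.sum_ite_eq]
    simp
  have h1 := gh_dir S φ hS c y h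
  rw [hx, map_sum] at h1
  simp only [map_smul, smul_eq_mul] at h1
  rw [Fintype.sum_prod_type] at h1
  rw [← h1]
  refine Finset.sum_congr rfl fun i _ => ?_
  rw [Finset.sum_comm]
  refine Finset.sum_congr rfl fun B _ => ?_
  show _ = (∑ A, S.f (φ (Sum.inl c)) (φ (Sum.inl A)) (φ (Sum.inl B)) * y (i, A)) * _
  rw [Finset.sum_mul]

lemma gh_py (S : Setup d F) (φ : Spl dh dm d) (u : Cfg d → F) (hu : ContDiff ℝ ∞ u) (y : Cfg dh)
    (w : Wsp dm) (h : (S.Dy φ 8 y).det ≠ 0) (i : Fin 9) (B : Fin dh) :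
    py i B (S.res φ u) y w = ((Real.sqrt (S.Jd φ y) : ℝ) : ℂ) • pd i (φ (Sum.inl B)) u (emb φ y w) +
      ((fderiv ℝ (fun y : Cfg dh => Real.sqrt (S.Jd φ y)) y (EuclideanSpace.single (i, B) 1) : ℝ) : ℂ) •
        u (emb φ y w) := by
  have hd : HasFDerivAt (fun y : Cfg dh => Real.sqrt (S.Jd φ y))
      (fderiv ℝ (fun y : Cfg dh => Real.sqrt (S.Jd φ y)) y) y :=
    ((gh_sqrt_contDiffAt S φ y h).differentiableAt (by simp)).hasFDerivAt
  have hc : HasFDerivAt (fun y : Cfg dh => ((Real.sqrt (S.Jd φ y) : ℝ) : ℂ))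
      (Complex.ofRealCLM.comp (fderiv ℝ (fun y : Cfg dh => Real.sqrt (S.Jd φ y)) y)) y :=
    Complex.ofRealCLM.hasFDerivAt.comp y hd
  have h1 : HasFDerivAt u (fderiv ℝ u (emb φ y w)) (ghE φ (y, w)) :=
    (hu.differentiable (by simp)).differentiableAt.hasFDerivAt
  have hU : HasFDerivAt (fun y' => u (emb φ y' w)) ((fderiv ℝ u (emb φ y w)).comp
      ((ghE φ).comp (ContinuousLinearMap.inl ℝ (Cfg dh) (Wsp dm)))) y :=
    h1.comp y ((ghE φ).hasFDerivAt.comp y (hasFDerivAt_prodMk_left y w))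
  have h2 := hc.smul hU
  show fderiv ℝ (fun y' => ((Real.sqrt (S.Jd φ y') : ℝ) : ℂ) • u (emb φ y' w)) y
    (EuclideanSpace.single (i, B) 1) = _
  rw [HasFDerivAt.fderiv (f := fun y' => ((Real.sqrt (S.Jd φ y') : ℝ) : ℂ) • u (emb φ y' w)) h2]
  simp only [add_apply, smul_apply,
    ContinuousLinearMap.comp_apply, ContinuousLinearMap.smulRight_apply,
    ContinuousLinearMap.inl_apply, ghE_apply, gh_single_y, Complex.ofRealCLM_apply]
  rfl

lemma gh_pw (S : Setup d F) (φ : Spl dh dm d) (u : Cfg d → F) (hu : ContDiff ℝ ∞ u) (y : Cfg dh)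
    (w : Wsp dm) (j : Fin 8) (B : Fin dm) :
    pw j B (S.res φ u) y w =
      ((Real.sqrt (S.Jd φ y) : ℝ) : ℂ) • pd j.castSucc (φ (Sum.inr B)) u (emb φ y w) := by
  have h1 : HasFDerivAt u (fderiv ℝ u (emb φ y w)) (ghE φ (y, w)) :=
    (hu.differentiable (by simp)).differentiableAt.hasFDerivAt
  have hU : HasFDerivAt (fun w' => u (emb φ y w')) ((fderiv ℝ u (emb φ y w)).comp
      ((ghE φ).comp (ContinuousLinearMap.inr ℝ (Cfg dh) (Wsp dm)))) w :=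
    h1.comp w ((ghE φ).hasFDerivAt.comp w (hasFDerivAt_prodMk_right y w))
  have h2 := hU.const_smul ((Real.sqrt (S.Jd φ y) : ℝ) : ℂ)
  show fderiv ℝ (fun w' => ((Real.sqrt (S.Jd φ y) : ℝ) : ℂ) • u (emb φ y w')) w
    (EuclideanSpace.single (j, B) 1) = _
  rw [HasFDerivAt.fderiv (f := fun w' => ((Real.sqrt (S.Jd φ y) : ℝ) : ℂ) • u (emb φ y w')) h2]
  simp only [smul_apply,
    ContinuousLinearMap.comp_apply,
    ContinuousLinearMap.inr_apply, ghE_apply, gh_single_w]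
  rfl

lemma gh_G (S : Setup d F) (φ : Spl dh dm d) (hS : S.IsSub φ) (u : Cfg d → F) (c : Fin dh)
    (y : Cfg dh) (w : Wsp dm) :
    S.G (φ (Sum.inl c)) u (emb φ y w) =
      (-Complex.I) • (∑ i, ∑ A, ∑ B, ((S.f (φ (Sum.inl c)) (φ (Sum.inl A)) (φ (Sum.inl B)) *
        y (i, A) : ℝ) : ℂ) • pd i (φ (Sum.inl B)) u (emb φ y w)) +
      (-Complex.I) • (∑ j : Fin 8, ∑ A, ∑ B, ((S.f (φ (Sum.inl c)) (φ (Sum.inr A)) (φ (Sum.inr B)) *
        w (j, A) : ℝ) : ℂ) • pd j.castSucc (φ (Sum.inr B)) u (emb φ y w)) +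
      S.cS (φ (Sum.inl c)) (u (emb φ y w)) := by
  have h1 : ∀ (a : Fin dh) (b : Fin dm), S.f (φ (Sum.inl c)) (φ (Sum.inl a)) (φ (Sum.inr b)) = 0 :=
    fun a b => hS _ _ _
  have h2 : ∀ (a : Fin dm) (b : Fin dh), S.f (φ (Sum.inl c)) (φ (Sum.inr a)) (φ (Sum.inl b)) = 0 := by
    intro a b
    rw [← S.f_cyc (φ (Sum.inl b)) (φ (Sum.inl c)) (φ (Sum.inr a))]
    exact hS _ _ _
  unfold Setup.G
  congr 1
  rw [← smul_add]
  congr 1
  have e1 : ∀ i : Fin 9, ∑ A, ∑ B, ((S.f (φ (Sum.inl c)) A B : ℂ) * (emb φ y w (i, A) : ℂ)) •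
      pd i B u (emb φ y w) =
      (∑ A, ∑ B, ((S.f (φ (Sum.inl c)) (φ (Sum.inl A)) (φ (Sum.inl B)) *
        y (i, A) : ℝ) : ℂ) • pd i (φ (Sum.inl B)) u (emb φ y w)) +
      ∑ A, ∑ B, ((S.f (φ (Sum.inl c)) (φ (Sum.inr A)) (φ (Sum.inr B)) *
        wt w i A : ℝ) : ℂ) • pd i (φ (Sum.inr B)) u (emb φ y w) := by
    intro i
    rw [gh_sum_split φ]
    congr 1
    · refine Finset.sum_congr rfl fun A _ => ?_
      rw [gh_sum_split φ]
      simp only [h1, gh_emb_inl, Complex.ofReal_zero, zero_mul, zero_smul, Finset.sum_const_zero,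
        add_zero, Complex.ofReal_mul]
    · refine Finset.sum_congr rfl fun A _ => ?_
      rw [gh_sum_split φ]
      simp only [h2, gh_emb_inr, Complex.ofReal_zero, zero_mul, zero_smul, Finset.sum_const_zero,
        zero_add, Complex.ofReal_mul]
  simp only [e1, Finset.sum_add_distrib]
  congr 1
  rw [Fin.sum_univ_castSucc]
  simp only [gh_wt_last, gh_wt_cast, mul_zero, Complex.ofReal_zero, zero_smul,
    Finset.sum_const_zero, add_zero]

/-- **A8** -/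
theorem gh_stmt (S : Setup d F) : GhStmt S := by
  intro dh dm φ hS u hu
  refine ⟨gh_sm S φ u hu, fun hG C y w h => ?_⟩
  have h0 := gh_G S φ hS u C y w
  rw [hG] at h0
  unfold Gh
  have e1 : ∑ i, ∑ A, ∑ B, ((S.f (φ (Sum.inl C)) (φ (Sum.inl A)) (φ (Sum.inl B)) * y (i, A) : ℝ) : ℂ) •
      py i B (S.res φ u) y w = ((Real.sqrt (S.Jd φ y) : ℝ) : ℂ) •
      ∑ i, ∑ A, ∑ B, ((S.f (φ (Sum.inl C)) (φ (Sum.inl A)) (φ (Sum.inl B)) *
        y (i, A) : ℝ) : ℂ) • pd i (φ (Sum.inl B)) u (emb φ y w) := by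
    have e2 : ∑ i, ∑ A, ∑ B, ((S.f (φ (Sum.inl C)) (φ (Sum.inl A)) (φ (Sum.inl B)) * y (i, A) : ℝ) : ℂ) •
        py i B (S.res φ u) y w = ∑ i, ∑ A, ∑ B, (((Real.sqrt (S.Jd φ y) : ℝ) : ℂ) •
        (((S.f (φ (Sum.inl C)) (φ (Sum.inl A)) (φ (Sum.inl B)) *
          y (i, A) : ℝ) : ℂ) • pd i (φ (Sum.inl B)) u (emb φ y w)) +
        ((((S.f (φ (Sum.inl C)) (φ (Sum.inl A)) (φ (Sum.inl B)) * y (i, A)) *
          fderiv ℝ (fun y : Cfg dh => Real.sqrt (S.Jd φ y)) y (EuclideanSpace.single (i, B) 1) : ℝ) : ℂ) •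
          u (emb φ y w))) := by
      refine Finset.sum_congr rfl fun i _ => Finset.sum_congr rfl fun A _ =>
        Finset.sum_congr rfl fun B _ => ?_
      rw [gh_py S φ u hu y w h i B, smul_add, smul_smul, smul_smul, smul_smul, mul_comm,
        ← Complex.ofReal_mul]
      simp only [Complex.ofReal_mul]
    rw [e2]
    simp only [Finset.sum_add_distrib, ← Finset.smul_sum, ← Finset.sum_smul, ← Complex.ofReal_sum]
    rw [gh_dirsum S φ hS C y h]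
    simp
  have e3 : ∑ j, ∑ A, ∑ B, ((S.f (φ (Sum.inl C)) (φ (Sum.inr A)) (φ (Sum.inr B)) * w (j, A) : ℝ) : ℂ) •
      pw j B (S.res φ u) y w = ((Real.sqrt (S.Jd φ y) : ℝ) : ℂ) •
      ∑ j : Fin 8, ∑ A, ∑ B, ((S.f (φ (Sum.inl C)) (φ (Sum.inr A)) (φ (Sum.inr B)) *
        w (j, A) : ℝ) : ℂ) • pd j.castSucc (φ (Sum.inr B)) u (emb φ y w) := by
    simp only [Finset.smul_sum]
    refine Finset.sum_congr rfl fun j _ => Finset.sum_congr rfl fun A _ =>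
        Finset.sum_congr rfl fun B _ => ?_
    rw [gh_pw S φ u hu y w j B, smul_comm]
  rw [e1, e3]
  have e4 : S.res φ u y w = ((Real.sqrt (S.Jd φ y) : ℝ) : ℂ) • u (emb φ y w) := rfl
  rw [e4, map_smul, smul_comm (-Complex.I), smul_comm (-Complex.I), ← smul_add, ← smul_add, ← h0,
    smul_zero]

end Vale.Agent.P353.Z.AN
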