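import Vale.Agent.P353.AN.A.StmtT

/-! # P353, all `N`, block A5d: the tube coordinates are injective and open near the base point -/

open MeasureTheory Filter Topology
open scoped ContDiff

namespace Vale.Agent.P353.Z.AN

variable {d dh dm : ℕ} {F : Type*} [NormedAddCommGroup F] [InnerProductSpace ℂ F]

theorem ij_exm_zero (φ : Spl dh dm d) : exm φ (0 : EuclideanSpace ℝ (Fin dm)) = 0 := by
  funext A
  rcases h : φ.symm A with a | b <;> simp [exm, h]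

theorem ij_adm_zero (S : Setup d F) : S.adm 0 = 0 := by
  ext A C
  simp [Setup.adm]

theorem ij_ro_one (x : Cfg d) : ro 1 x = x := by
  ext p
  simp [ro, Matrix.one_apply]

theorem ij_tub_zero (S : Setup d F) (φ : Spl dh dm d) (p : Cfg dh × Wsp dm) :
    tub S φ 0 p = emb φ p.1 p.2 := by
  rw [tub, ij_exm_zero, ij_adm_zero, NormedSpace.exp_zero, ij_ro_one]

theorem inj_stmt (S : Setup d F) (h : DetStmt S) (hc : CooStmt) : InjStmt S := by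
  intro dh dm φ y₀ hS
  obtain ⟨hsm, j, hj, hj0, hdet⟩ := h dh dm φ hS.sub
  obtain ⟨e, he, -⟩ := hc d dh dm φ
  have hz : ∀ b, (zm φ (e.symm b), (zy φ (e.symm b), zw φ (e.symm b))) = b := fun b => by
    rw [← he, e.apply_symm_apply]
  have htub : ∀ a p, tub S φ a p = tz S φ (e.symm (a, p)) := by
    intro a p
    have h1 := hz (a, p)
    obtain ⟨p1, p2⟩ := p
    simp only [Prod.mk.injEq] at h1
    rw [tz, h1.1, h1.2.1, h1.2.2]
  have hd : (fderiv ℝ (tz S φ) (e.symm (0, (y₀, 0)))).det ≠ 0 := by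
    intro h0
    have h1 := hdet (e.symm (0, (y₀, 0)))
    have h2 := hz (0, (y₀, 0))
    simp only [Prod.mk.injEq] at h2
    rw [h0, abs_zero, h2.1, h2.2.1, hj0, abs_one, mul_one] at h1
    exact hS.inv (abs_eq_zero.1 h1.symm)
  have hf' : HasFDerivAt (tz S φ) (((fderiv ℝ (tz S φ)
      (e.symm (0, (y₀, 0)))).toContinuousLinearEquivOfDetNeZero hd : Cfg d ≃L[ℝ] Cfg d) :
        Cfg d →L[ℝ] Cfg d) (e.symm (0, (y₀, 0))) := by
    rw [ContinuousLinearMap.coe_toContinuousLinearEquivOfDetNeZero]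
    exact ((hsm.differentiable (by simp)) _).hasFDerivAt
  have hsm' : ContDiffAt ℝ ∞ (tz S φ) (e.symm (0, (y₀, 0))) := hsm.contDiffAt
  obtain ⟨G, hG, hz₀⟩ : ∃ G : OpenPartialHomeomorph (Cfg d) (Cfg d), (∀ z, G z = tz S φ z) ∧
      e.symm (0, (y₀, 0)) ∈ G.source :=
    ⟨hsm'.toOpenPartialHomeomorph (tz S φ) hf' (by simp), fun z => rfl,
      hsm'.mem_toOpenPartialHomeomorph_source hf' (by simp)⟩
  have hU : e.symm ⁻¹' G.source ∈ 𝓝 ((0, (y₀, 0)) : EuclideanSpace ℝ (Fin dm) × (Cfg dh × Wsp dm)) :=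
    e.symm.continuous.continuousAt.preimage_mem_nhds (G.open_source.mem_nhds hz₀)
  obtain ⟨r, hr, hball⟩ := Metric.mem_nhds_iff.1 hU
  refine ⟨r, r, hr, hr, fun ε ρ hε hεr hρ hρr => ?_⟩
  have hB : IsOpen {b : EuclideanSpace ℝ (Fin dm) × (Cfg dh × Wsp dm) |
      ‖b.1‖ < ρ ∧ b.2 ∈ Nb y₀ dm 1 ε} := by
    have h1 : IsOpen {b : EuclideanSpace ℝ (Fin dm) × (Cfg dh × Wsp dm) | ‖b.1‖ < ρ} :=
      isOpen_lt (by fun_prop) (by fun_prop)
    have h2 : IsOpen {b : EuclideanSpace ℝ (Fin dm) × (Cfg dh × Wsp dm) |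
        ‖b.2.1 - (1 : ℝ) • y₀‖ < ε * 1} :=
      isOpen_lt (by fun_prop) (by fun_prop)
    have h3 : IsOpen {b : EuclideanSpace ℝ (Fin dm) × (Cfg dh × Wsp dm) | ‖b.2.2‖ < ε * 1} :=
      isOpen_lt (by fun_prop) (by fun_prop)
    exact h1.inter (h2.inter h3)
  have hBs : ∀ b ∈ {b : EuclideanSpace ℝ (Fin dm) × (Cfg dh × Wsp dm) |
      ‖b.1‖ < ρ ∧ b.2 ∈ Nb y₀ dm 1 ε}, e.symm b ∈ G.source := by
    rintro ⟨a, y, w⟩ ⟨h1, h2, h3⟩
    refine hball ?_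
    simp only at h1 h2 h3
    rw [one_smul, mul_one] at h2
    rw [mul_one] at h3
    rw [Metric.mem_ball, Prod.dist_eq, Prod.dist_eq, max_lt_iff, max_lt_iff]
    refine ⟨?_, ?_, ?_⟩
    · simpa [dist_eq_norm] using h1.trans_le hρr
    · simpa [dist_eq_norm] using h2.trans_le hεr
    · simpa [dist_eq_norm] using h3.trans_le hεr
  have hT : Tube S φ y₀ 1 ε ρ = G '' (e.symm '' {b : EuclideanSpace ℝ (Fin dm) × (Cfg dh × Wsp dm) |
      ‖b.1‖ < ρ ∧ b.2 ∈ Nb y₀ dm 1 ε}) := by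
    ext x
    constructor
    · rintro ⟨a, ha, p, hp, rfl⟩
      exact ⟨_, ⟨(a, p), ⟨ha, hp⟩, rfl⟩, by rw [hG, htub]⟩
    · rintro ⟨_, ⟨⟨a, p⟩, ⟨ha, hp⟩, rfl⟩, rfl⟩
      exact ⟨a, ha, p, hp, by rw [hG, htub]⟩
  have hTo : IsOpen (Tube S φ y₀ 1 ε ρ) := by
    rw [hT]
    refine G.isOpen_image_of_subset_source (e.symm.toHomeomorph.isOpenMap _ hB) ?_
    rintro _ ⟨b, hb, rfl⟩
    exact hBs b hb
  have hmem : emb φ y₀ 0 ∈ Tube S φ y₀ 1 ε ρ := by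
    refine ⟨0, by simpa using hρ, (y₀, 0), ⟨by simpa using hε, by simpa using hε⟩, ?_⟩
    rw [ij_tub_zero]
  obtain ⟨δ, hδ, hδb⟩ := Metric.isOpen_iff.1 hTo _ hmem
  refine ⟨δ, hδ, hTo, hδb, ?_⟩
  intro a a' p p' ha ha' hp hp' heq
  rw [htub, htub] at heq
  have h1 := G.injOn (hBs (a, p) ⟨ha, hp⟩) (hBs (a', p') ⟨ha', hp'⟩) (by rw [hG, hG]; exact heq)
  have h2 := e.symm.injective h1
  exact ⟨congrArg Prod.fst h2, congrArg Prod.snd h2⟩

end Vale.Agent.P353.Z.AN
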