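import Vale.Agent.P353.AN.A.Stmt
import Vale.Agent.P353.Z.U.GrpExp
import Vale.Agent.P353.Z.U.A2

/-! # P353, all `N`, block A: norms over the tube in slice coordinates -/

open MeasureTheory Filter Topology
open scoped ContDiff

namespace Vale.Agent.P353.Z.AN

variable {d dh dm : ℕ} {F : Type*} [NormedAddCommGroup F] [InnerProductSpace ℂ F]

theorem nrm_continuous_emb (φ : Spl dh dm d) :
    Continuous fun p : Cfg dh × Wsp dm => emb φ p.1 p.2 := by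
  unfold emb
  refine (PiLp.continuous_toLp 2 _).comp (continuous_pi fun q => ?_)
  rcases h : φ.symm q.2 with A | B
  · simp only [Sum.elim_inl]
    fun_prop
  · simp only [Sum.elim_inr]
    rcases q with ⟨i, C⟩
    refine Fin.lastCases ?_ (fun j => ?_) i
    · simp only [Fin.lastCases_last]
      exact continuous_const
    · simp only [Fin.lastCases_castSucc]
      fun_prop

theorem nrm_continuous_det (S : Setup d F) (φ : Spl dh dm d) :
    Continuous fun y : Cfg dh => (S.Dy φ 8 y).det := by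
  refine Continuous.matrix_det ?_
  refine continuous_matrix fun B C => ?_
  show Continuous fun y : Cfg dh => ∑ A, S.f (φ (Sum.inr B)) (φ (Sum.inl A)) (φ (Sum.inr C)) * y (8, A)
  fun_prop

theorem nrm_det_smul (S : Setup d F) (φ : Spl dh dm d) (R : ℝ) (y : Cfg dh) :
    (S.Dy φ 8 (R • y)).det = R ^ dm * (S.Dy φ 8 y).det := by
  have h : S.Dy φ 8 (R • y) = R • S.Dy φ 8 y := by
    ext B C
    show ∑ A, S.f (φ (Sum.inr B)) (φ (Sum.inl A)) (φ (Sum.inr C)) * (R • y) (8, A) =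
      R * ∑ A, S.f (φ (Sum.inr B)) (φ (Sum.inl A)) (φ (Sum.inr C)) * y (8, A)
    rw [Finset.mul_sum]
    refine Finset.sum_congr rfl fun A _ => ?_
    rw [PiLp.smul_apply, smul_eq_mul]
    ring
  rw [h, Matrix.det_smul, Fintype.card_fin]

theorem nrm_det_ne (S : Setup d F) (φ : Spl dh dm d) (y₀ : Cfg dh) (h0 : (S.Dy φ 8 y₀).det ≠ 0) :
    ∃ ε₁ : ℝ, 0 < ε₁ ∧ ∀ (R : ℝ) (y : Cfg dh), 0 < R → ‖y - R • y₀‖ < ε₁ * R →
      (S.Dy φ 8 y).det ≠ 0 := by
  have h1 := (nrm_continuous_det S φ).continuousAt.eventually_ne h0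
  obtain ⟨ε₁, hε, hball⟩ := Metric.eventually_nhds_iff.1 h1
  refine ⟨ε₁, hε, fun R y hR hy => ?_⟩
  have h2 : y = R • (R⁻¹ • y) := by rw [smul_smul, mul_inv_cancel₀ hR.ne', one_smul]
  rw [h2, nrm_det_smul]
  refine mul_ne_zero (pow_ne_zero _ hR.ne') (hball ?_)
  rw [dist_eq_norm]
  have h3 : R⁻¹ • y - y₀ = R⁻¹ • (y - R • y₀) := by
    rw [smul_sub, smul_smul, inv_mul_cancel₀ hR.ne', one_smul]
  rw [h3, norm_smul, Real.norm_eq_abs, abs_of_pos (inv_pos.2 hR)]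
  calc R⁻¹ * ‖y - R • y₀‖ < R⁻¹ * (ε₁ * R) := mul_lt_mul_of_pos_left hy (inv_pos.2 hR)
    _ = ε₁ := by field_simp

theorem nrm_res_sq (S : Setup d F) (φ : Spl dh dm d) (u : Cfg d → F) (y : Cfg dh) (w : Wsp dm) :
    ‖S.res φ u y w‖ ^ 2 = ‖u (emb φ y w)‖ ^ 2 * S.Jd φ y := by
  have hJ : 0 ≤ S.Jd φ y := abs_nonneg _
  unfold Setup.res
  rw [norm_smul, mul_pow, Complex.norm_real, Real.norm_eq_abs, sq_abs, Real.sq_sqrt hJ, mul_comm]

theorem nrm_gauge_Q (S : Setup d F) {u : Cfg d → F} (hu : Setup.Tst u)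
    (hG : ∀ C x, S.G C u x = 0) (β : Fin 16) : ∀ C x, S.G C (S.Q β u) x = 0 := by
  intro C x
  have h1 := U.a3 S 0 C β u hu.1 x
  have h2 : ∀ v : Cfg d → F, S.Qm 0 β v = S.Q β v := by
    intro v
    funext z
    unfold Setup.Qm
    simp
  rw [h2, h2] at h1
  rw [h1]
  have h3 : S.G C u = fun _ => 0 := funext fun z => hG C z
  rw [h3]
  unfold Setup.Q pd
  simp

theorem nrm_int (S : Setup d F) (φ : Spl dh dm d) (y₀ : Cfg dh) (R ε ρ c : ℝ) (hc : 0 < c)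
    (hint : ∀ f : Cfg d → ENNReal, Measurable f →
      (∀ a p, ‖a‖ < ρ → p ∈ Nb y₀ dm R ε → f (tub S φ a p) = f (emb φ p.1 p.2)) →
        ∫⁻ x in Tube S φ y₀ R ε ρ, f x =
          ENNReal.ofReal c * ∫⁻ p in Nb y₀ dm R ε, f (emb φ p.1 p.2) *
            ENNReal.ofReal (S.Jd φ p.1) ∂(volume.prod volume))
    {u : Cfg d → F} (hu : Setup.Tst u) (hG : ∀ C x, S.G C u x = 0) :
    ∫ x in Tube S φ y₀ R ε ρ, ‖u x‖ ^ 2 =
      c * ∫ p in Nb y₀ dm R ε, ‖S.res φ u p.1 p.2‖ ^ 2 ∂(volume.prod volume) := by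
  have hcu : Continuous u := hu.1.continuous
  have hmu : Measurable fun x => ENNReal.ofReal (‖u x‖ ^ 2) :=
    (ENNReal.continuous_ofReal.comp (hcu.norm.pow 2)).measurable
  have h1 := hint (fun x => ENNReal.ofReal (‖u x‖ ^ 2)) hmu (by
    intro a p _ _
    have h := U.gx983_norm S hu hG (exm φ a) 1 (emb φ p.1 p.2)
    rw [one_smul] at h
    show ENNReal.ofReal (‖u (ro (NormedSpace.exp (S.adm (exm φ a))) (emb φ p.1 p.2))‖ ^ 2) = _
    rw [h])
  rw [integral_eq_lintegral_of_nonneg_ae (Eventually.of_forall fun x => sq_nonneg _)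
      (hcu.norm.pow 2).aestronglyMeasurable, h1,
    ENNReal.toReal_mul, ENNReal.toReal_ofReal hc.le]
  congr 1
  have hce : Continuous fun p : Cfg dh × Wsp dm => ‖u (emb φ p.1 p.2)‖ ^ 2 * S.Jd φ p.1 := by
    have e1 := nrm_continuous_emb φ
    have e2 : Continuous fun p : Cfg dh × Wsp dm => S.Jd φ p.1 := by
      unfold Setup.Jd
      exact ((nrm_continuous_det S φ).comp continuous_fst).abs
    exact ((hcu.comp e1).norm.pow 2).mul e2
  simp only [nrm_res_sq]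
  have hnn : ∀ p : Cfg dh × Wsp dm, 0 ≤ ‖u (emb φ p.1 p.2)‖ ^ 2 * S.Jd φ p.1 := fun p =>
    mul_nonneg (sq_nonneg _) (abs_nonneg _)
  rw [integral_eq_lintegral_of_nonneg_ae (Eventually.of_forall hnn) hce.aestronglyMeasurable]
  congr 1
  refine lintegral_congr fun p => ?_
  rw [ENNReal.ofReal_mul (sq_nonneg _)]

/-- **A6** -/
theorem norm_stmt (S : Setup d F) (h1 : TubeStmt S) (h2 : DecStmt S) : NormStmt S := by
  intro dh dm φ y₀ hstd
  obtain ⟨ε₀, ρ₀, hε₀, hρ₀, hT⟩ := h1 dh dm φ y₀ hstd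
  obtain ⟨ε₁, hε₁, hdet⟩ := nrm_det_ne S φ y₀ hstd.inv
  refine ⟨min ε₀ ε₁, ρ₀, lt_min hε₀ hε₁, hρ₀, ?_⟩
  intro ε ρ hε hεle hρ hρle
  obtain ⟨c, δ, hc, hδ, hR⟩ := hT ε ρ hε (hεle.trans (min_le_left _ _)) hρ hρle
  refine ⟨c, δ, hc, hδ, ?_⟩
  intro R hR0
  obtain ⟨-, hball, -, hint⟩ := hR R hR0
  refine ⟨hball, ?_⟩
  intro u hu hG
  refine ⟨nrm_int S φ y₀ R ε ρ c hc hint hu hG, ?_⟩
  intro β
  rw [nrm_int S φ y₀ R ε ρ c hc hint (Setup.Tst.Q S hu β) (nrm_gauge_Q S hu hG β)]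
  congr 1
  have hmeas : MeasurableSet (Nb y₀ dm R ε) := by
    have e1 : IsOpen {p : Cfg dh × Wsp dm | ‖p.1 - R • y₀‖ < ε * R} :=
      isOpen_lt (continuous_fst.sub continuous_const).norm continuous_const
    have e2 : IsOpen {p : Cfg dh × Wsp dm | ‖p.2‖ < ε * R} :=
      isOpen_lt continuous_snd.norm continuous_const
    exact (e1.inter e2).measurableSet
  refine setIntegral_congr_fun hmeas fun p hp => ?_
  have hd : (S.Dy φ 8 p.1).det ≠ 0 := hdet R p.1 hR0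
    (hp.1.trans_le (mul_le_mul_of_nonneg_right (hεle.trans (min_le_right _ _)) hR0.le))
  show ‖S.res φ (S.Q β u) p.1 p.2‖ ^ 2 = _
  rw [h2 dh dm φ hstd.sub u hu.1 hG β p.1 p.2 hd]

end Vale.Agent.P353.Z.AN
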