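import Vale.Agent.P353.AN.A.Stmt

/-! # P353, all `N`, block A: covariance under rotations (`RotStmt`) -/

open MeasureTheory Filter Topology
open scoped ContDiff

namespace Vale.Agent.P353.Z.AN

section sums

variable {n : ℕ} {K : Type*} [CommRing K] {M : Type*} [AddCommGroup M] [Module K M]

theorem rt_one (o : Fin n → Fin n → K) (ho : ∀ k l, ∑ E, o E k * o E l = if k = l then 1 else 0)
    (k : Fin n) (q : Fin n → M) : ∑ A, o A k • ∑ l, o A l • q l = q k := by
  simp only [Finset.smul_sum, smul_smul]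
  rw [Finset.sum_comm]
  simp only [← Finset.sum_smul, ho, ite_smul, one_smul, zero_smul, Finset.sum_ite_eq,
    Finset.mem_univ, if_true]

theorem rt_con (o : Fin n → Fin n → K) (ho : ∀ k l, ∑ E, o E k * o E l = if k = l then 1 else 0)
    (p : Fin n → K) (q : Fin n → M) :
    ∑ A, (∑ k, o A k * p k) • (∑ l, o A l • q l) = ∑ k, p k • q k := by
  have h1 : ∀ A, (∑ k, o A k * p k) • (∑ l, o A l • q l) =
      ∑ k, p k • (o A k • ∑ l, o A l • q l) := by
    intro A
    rw [Finset.sum_smul]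
    refine Finset.sum_congr rfl fun k _ => ?_
    rw [smul_smul, mul_comm]
  simp only [h1]
  rw [Finset.sum_comm]
  refine Finset.sum_congr rfl fun k _ => ?_
  rw [← Finset.smul_sum, rt_one o ho]

theorem rt_two (o : Fin n → Fin n → K) (ho : ∀ k l, ∑ E, o E k * o E l = if k = l then 1 else 0)
    (k l : Fin n) (U : Fin n → Fin n → M) :
    ∑ B, ∑ C, (o B k * o C l) • (∑ b, o B b • ∑ c, o C c • U b c) = U k l := by
  have h1 : ∀ B, ∑ C, (o B k * o C l) • (∑ b, o B b • ∑ c, o C c • U b c) =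
      o B k • ∑ b, o B b • U b l := by
    intro B
    have h2 : ∀ C, (o B k * o C l) • (∑ b, o B b • ∑ c, o C c • U b c) =
        o B k • ∑ b, o B b • (o C l • ∑ c, o C c • U b c) := by
      intro C
      simp only [Finset.smul_sum, smul_smul]
      refine Finset.sum_congr rfl fun b _ => Finset.sum_congr rfl fun c _ => ?_
      congr 1
      ring
    simp only [h2]
    rw [← Finset.smul_sum, Finset.sum_comm]
    simp only [← Finset.smul_sum]
    congr 1
    refine Finset.sum_congr rfl fun b _ => ?_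
    rw [rt_one o ho]
  simp only [h1]
  rw [rt_one o ho]

/-- contraction of the rotated structure constants -/
theorem rt_f (o : Fin n → Fin n → K) (ho : ∀ k l, ∑ E, o E k * o E l = if k = l then 1 else 0)
    (f : Fin n → Fin n → Fin n → K) (U : Fin n → Fin n → M) (A : Fin n) :
    ∑ B, ∑ C, (∑ a, ∑ b, ∑ c, o A a * o B b * o C c * f a b c) •
      (∑ b, o B b • ∑ c, o C c • U b c) = ∑ a, o A a • ∑ b, ∑ c, f a b c • U b c := by
  have h1 : ∀ B C, (∑ a, ∑ b, ∑ c, o A a * o B b * o C c * f a b c) •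
      (∑ b, o B b • ∑ c, o C c • U b c) =
      ∑ a, ∑ b, ∑ c, (o A a * f a b c) •
        ((o B b * o C c) • (∑ b, o B b • ∑ c, o C c • U b c)) := by
    intro B C
    simp only [Finset.sum_smul]
    refine Finset.sum_congr rfl fun a _ => Finset.sum_congr rfl fun b _ =>
      Finset.sum_congr rfl fun c _ => ?_
    rw [smul_smul]
    congr 1
    ring
  simp only [h1]
  have h2 : ∀ g : Fin n → Fin n → Fin n → Fin n → Fin n → M,
      ∑ B, ∑ C, ∑ a, ∑ b, ∑ c, g B C a b c = ∑ a, ∑ b, ∑ c, ∑ B, ∑ C, g B C a b c := by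
    intro g
    have e1 : ∀ B, ∑ C, ∑ a, ∑ b, ∑ c, g B C a b c = ∑ a, ∑ b, ∑ c, ∑ C, g B C a b c := by
      intro B
      rw [Finset.sum_comm]
      refine Finset.sum_congr rfl fun a _ => ?_
      rw [Finset.sum_comm]
      refine Finset.sum_congr rfl fun b _ => ?_
      rw [Finset.sum_comm]
    simp only [e1]
    rw [Finset.sum_comm]
    refine Finset.sum_congr rfl fun a _ => ?_
    rw [Finset.sum_comm]
    refine Finset.sum_congr rfl fun b _ => ?_
    rw [Finset.sum_comm]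
  rw [h2]
  refine Finset.sum_congr rfl fun a _ => ?_
  rw [Finset.smul_sum]
  refine Finset.sum_congr rfl fun b _ => ?_
  rw [Finset.smul_sum]
  refine Finset.sum_congr rfl fun c _ => ?_
  simp only [← Finset.smul_sum]
  rw [rt_two o ho, smul_smul]

/-- triple contraction -/
theorem rt_con3 {m : ℕ} (o : Fin n → Fin n → K)
    (ho : ∀ k l, ∑ E, o E k * o E l = if k = l then 1 else 0)
    (r : Fin m → Fin m → K) (hr : ∀ k l, ∑ E, r E k * r E l = if k = l then 1 else 0)
    (P : Fin n → Fin m → Fin m → K) (Q : Fin n → Fin m → Fin m → M) :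
    ∑ A, ∑ i, ∑ j, (∑ a, o A a * ∑ k, r i k * ∑ l, r j l * P a k l) •
      (∑ a, o A a • ∑ k, r i k • ∑ l, r j l • Q a k l) = ∑ a, ∑ k, ∑ l, P a k l • Q a k l := by
  have h1 : ∑ A, ∑ i, ∑ j, (∑ a, o A a * ∑ k, r i k * ∑ l, r j l * P a k l) •
      (∑ a, o A a • ∑ k, r i k • ∑ l, r j l • Q a k l) =
      ∑ i, ∑ j, ∑ A, (∑ a, o A a * ∑ k, r i k * ∑ l, r j l * P a k l) •
      (∑ a, o A a • ∑ k, r i k • ∑ l, r j l • Q a k l) := by
    rw [Finset.sum_comm]
    refine Finset.sum_congr rfl fun i _ => ?_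
    rw [Finset.sum_comm]
  rw [h1]
  simp only [rt_con o ho]
  have h2 : ∀ g : Fin m → Fin m → Fin n → M, ∑ i, ∑ j, ∑ a, g i j a = ∑ a, ∑ j, ∑ i, g i j a := by
    intro g
    rw [Finset.sum_comm]
    have e1 : ∀ j, ∑ i, ∑ a, g i j a = ∑ a, ∑ i, g i j a := fun j => Finset.sum_comm
    simp only [e1]
    rw [Finset.sum_comm]
  rw [h2]
  refine Finset.sum_congr rfl fun a _ => ?_
  simp only [rt_con r hr]
  rw [Finset.sum_comm]
  refine Finset.sum_congr rfl fun k _ => ?_
  rw [rt_con r hr]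

end sums

variable {d dh dm : ℕ} {F : Type*} [NormedAddCommGroup F] [InnerProductSpace ℂ F]

theorem rt_orth {n : ℕ} {O : Matrix (Fin n) (Fin n) ℝ} (hO : O * O.transpose = 1) (k l : Fin n) :
    ∑ E, O E k * O E l = if k = l then 1 else 0 := by
  have hO' : O.transpose * O = 1 := mul_eq_one_comm.1 hO
  have := congrFun (congrFun hO' k) l
  rw [Matrix.mul_apply, Matrix.one_apply] at this
  simpa [Matrix.transpose_apply] using this

theorem rt_orthc {n : ℕ} {O : Matrix (Fin n) (Fin n) ℝ} (hO : O * O.transpose = 1) (k l : Fin n) :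
    ∑ E, (O E k : ℂ) * (O E l : ℂ) = if k = l then 1 else 0 := by
  have h := congrArg (fun t : ℝ => (t : ℂ)) (rt_orth hO k l)
  push_cast at h
  rw [h]
  split_ifs <;> simp

theorem rt_apply (R : Matrix (Fin 9) (Fin 9) ℝ) (O : Matrix (Fin d) (Fin d) ℝ) (x : Cfg d)
    (p : Fin 9 × Fin d) : rox R O x p = ∑ j, ∑ B, R p.1 j * O p.2 B * x (j, B) := rfl

/-- `x'_i^A = ∑_B O_{AB} ∑_j R_{ij} x_j^B` -/
theorem rt_apply' (R : Matrix (Fin 9) (Fin 9) ℝ) (O : Matrix (Fin d) (Fin d) ℝ) (x : Cfg d)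
    (i : Fin 9) (A : Fin d) : rox R O x (i, A) = ∑ B, O A B * ∑ j, R i j * x (j, B) := by
  rw [rt_apply, Finset.sum_comm]
  refine Finset.sum_congr rfl fun B _ => ?_
  rw [Finset.mul_sum]
  refine Finset.sum_congr rfl fun j _ => ?_
  ring

theorem rt_FF (S : Setup d F) {R : Matrix (Fin 9) (Fin 9) ℝ} (hR : R * R.transpose = 1)
    {O : Matrix (Fin d) (Fin d) ℝ} (hO : O * O.transpose = 1) (A : Fin d) (i j : Fin 9) (x : Cfg d) :
    (S.rot R hR O hO).FF A i j (rox R O x) =
      ∑ a, O A a * ∑ k, R i k * ∑ l, R j l * S.FF a k l x := by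
  have h0 : (S.rot R hR O hO).FF A i j (rox R O x) = S.κ * ∑ B, ∑ C,
      (∑ a, ∑ b, ∑ c, O A a * O B b * O C c * S.f a b c) *
        (∑ b, O B b * ∑ c, O C c * ((∑ k, R i k * x (k, b)) * ∑ l, R j l * x (l, c))) := by
    unfold Setup.FF
    congr 1
    refine Finset.sum_congr rfl fun B _ => Finset.sum_congr rfl fun C _ => ?_
    rw [rt_apply', rt_apply', mul_assoc]
    congr 1
    rw [Finset.sum_mul]
    refine Finset.sum_congr rfl fun b _ => ?_
    rw [mul_assoc, Finset.mul_sum]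
    congr 1
    refine Finset.sum_congr rfl fun c _ => ?_
    ring
  rw [h0]
  have h1 := rt_f (K := ℝ) (M := ℝ) (fun A B => O A B) (rt_orth hO) S.f
    (fun b c => (∑ k, R i k * x (k, b)) * ∑ l, R j l * x (l, c)) A
  simp only [smul_eq_mul] at h1
  rw [h1, Finset.mul_sum]
  refine Finset.sum_congr rfl fun a _ => ?_
  rw [← mul_assoc, mul_comm S.κ, mul_assoc]
  congr 1
  unfold Setup.FF
  have h2 : ∀ k l, R i k * (R j l * (S.κ * ∑ B, ∑ C, S.f a B C * x (k, B) * x (l, C))) =
      S.κ * ∑ B, ∑ C, S.f a B C * ((R i k * x (k, B)) * (R j l * x (l, C))) := by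
    intro k l
    simp only [Finset.mul_sum]
    refine Finset.sum_congr rfl fun b _ => Finset.sum_congr rfl fun c _ => ?_
    ring
  have h3 : ∀ k, R i k * ∑ l, R j l * (S.κ * ∑ B, ∑ C, S.f a B C * x (k, B) * x (l, C)) =
      ∑ l, S.κ * ∑ B, ∑ C, S.f a B C * ((R i k * x (k, B)) * (R j l * x (l, C))) := by
    intro k
    rw [Finset.mul_sum]
    exact Finset.sum_congr rfl fun l _ => h2 k l
  simp only [h3, ← Finset.mul_sum]
  congr 1
  have h4 : ∀ b c, (∑ k, R i k * x (k, b)) * ∑ l, R j l * x (l, c) =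
      ∑ k, ∑ l, (R i k * x (k, b)) * (R j l * x (l, c)) := fun b c => Finset.sum_mul_sum _ _ _ _
  simp only [h4, Finset.mul_sum]
  have h5 : ∀ g : Fin d → Fin d → Fin 9 → Fin 9 → ℝ,
      ∑ b, ∑ c, ∑ k, ∑ l, g b c k l = ∑ k, ∑ l, ∑ b, ∑ c, g b c k l := by
    intro g
    have e1 : ∀ b, ∑ c, ∑ k, ∑ l, g b c k l = ∑ k, ∑ l, ∑ c, g b c k l := by
      intro b
      rw [Finset.sum_comm]
      refine Finset.sum_congr rfl fun k _ => ?_
      rw [Finset.sum_comm]
    simp only [e1]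
    rw [Finset.sum_comm]
    refine Finset.sum_congr rfl fun k _ => ?_
    rw [Finset.sum_comm]
  rw [h5]

theorem rt_V (S : Setup d F) {R : Matrix (Fin 9) (Fin 9) ℝ} (hR : R * R.transpose = 1)
    {O : Matrix (Fin d) (Fin d) ℝ} (hO : O * O.transpose = 1) (x : Cfg d) :
    (S.rot R hR O hO).V (rox R O x) = S.V x := by
  unfold Setup.V
  congr 1
  have h := rt_con3 (K := ℝ) (M := ℝ) (fun A B => O A B) (rt_orth hO) (fun i j => R i j)
    (rt_orth hR) (fun a k l => S.FF a k l x) (fun a k l => S.FF a k l x)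
  simp only [smul_eq_mul] at h
  simp only [rt_FF, sq]
  exact h

/-- `(N' θ'^A)` -/
theorem rt_vec (S : Setup d F) {R : Matrix (Fin 9) (Fin 9) ℝ} (hR : R * R.transpose = 1)
    {O : Matrix (Fin d) (Fin d) ℝ} (hO : O * O.transpose = 1) (N : Matrix (Fin 16) (Fin 16) ℂ)
    (A : Fin d) (β : Fin 16) :
    (S.rot R hR O hO).vec N A β = ∑ B, (O A B : ℂ) • S.vec N B β := by
  have h0 : (S.rot R hR O hO).vec N A β = ∑ γ, N β γ • ∑ B, (O A B : ℂ) • S.th γ B := rfl
  rw [h0]
  simp only [CS.vec, Finset.smul_sum]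
  rw [Finset.sum_comm]
  refine Finset.sum_congr rfl fun B _ => Finset.sum_congr rfl fun γ _ => ?_
  rw [smul_comm]

theorem rt_g2 (S : Setup d F) {R : Matrix (Fin 9) (Fin 9) ℝ} (hR : R * R.transpose = 1)
    {O : Matrix (Fin d) (Fin d) ℝ} (hO : O * O.transpose = 1) (i j : Fin 9) :
    (S.rot R hR O hO).g2 i j = ∑ k, (R i k : ℂ) • ∑ l, (R j l : ℂ) • S.g2 k l := by
  have h0 : (S.rot R hR O hO).g2 i j = (1 / 2 : ℂ) • ((∑ k, (R i k : ℂ) • S.g k) *
    (∑ l, (R j l : ℂ) • S.g l) - (∑ l, (R j l : ℂ) • S.g l) * (∑ k, (R i k : ℂ) • S.g k)) := rfl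
  rw [h0, Finset.sum_mul_sum, Finset.sum_mul_sum, Finset.sum_comm (s := Finset.univ) (t := Finset.univ)
        (f := fun l k => ((R j l : ℂ) • S.g l) * ((R i k : ℂ) • S.g k)), ← Finset.sum_sub_distrib,
        Finset.smul_sum]
  refine Finset.sum_congr rfl fun k _ => ?_
  rw [← Finset.sum_sub_distrib, Finset.smul_sum, Finset.smul_sum]
  refine Finset.sum_congr rfl fun l _ => ?_
  unfold CS.g2
  rw [smul_mul_smul_comm, smul_mul_smul_comm, mul_comm (R j l : ℂ), ← smul_sub, smul_smul, smul_smul,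
    smul_smul]
  congr 1
  ring

theorem rt_vec2 (S : Setup d F) {R : Matrix (Fin 9) (Fin 9) ℝ} (hR : R * R.transpose = 1)
    {O : Matrix (Fin d) (Fin d) ℝ} (hO : O * O.transpose = 1) (i j : Fin 9) (A : Fin d) (β : Fin 16) :
    (S.rot R hR O hO).vec ((S.rot R hR O hO).g2 i j) A β =
      ∑ a, (O A a : ℂ) • ∑ k, (R i k : ℂ) • ∑ l, (R j l : ℂ) • S.vec (S.g2 k l) a β := by
  rw [rt_vec, rt_g2]
  refine Finset.sum_congr rfl fun a _ => ?_
  rw [CS.vec_sum]
  congr 1
  refine Finset.sum_congr rfl fun k _ => ?_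
  rw [CS.vec_smul, CS.vec_sum]
  congr 1
  refine Finset.sum_congr rfl fun l _ => ?_
  rw [CS.vec_smul]

theorem rt_W (S : Setup d F) {R : Matrix (Fin 9) (Fin 9) ℝ} (hR : R * R.transpose = 1)
    {O : Matrix (Fin d) (Fin d) ℝ} (hO : O * O.transpose = 1) (β : Fin 16) (x : Cfg d) :
    (S.rot R hR O hO).W β (rox R O x) = S.W β x := by
  unfold Setup.W
  congr 1
  have h := rt_con3 (K := ℂ) (M := F →L[ℂ] F) (fun A B => (O A B : ℂ)) (rt_orthc hO)
    (fun i j => (R i j : ℂ)) (rt_orthc hR) (fun a k l => ((S.FF a k l x : ℝ) : ℂ))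
    (fun a k l => S.vec (S.g2 k l) a β)
  rw [← h]
  refine Finset.sum_congr rfl fun A _ => Finset.sum_congr rfl fun i _ =>
    Finset.sum_congr rfl fun j _ => ?_
  rw [rt_vec2, rt_FF]
  push_cast
  rfl

theorem rt_bil (S : Setup d F) {R : Matrix (Fin 9) (Fin 9) ℝ} (hR : R * R.transpose = 1)
    {O : Matrix (Fin d) (Fin d) ℝ} (hO : O * O.transpose = 1) (D E : Fin d) :
    (S.rot R hR O hO).bil 1 D E = ∑ a, (O D a : ℂ) • ∑ b, (O E b : ℂ) • S.bil 1 a b := by
  have h0 : (S.rot R hR O hO).bil 1 D E =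
      ∑ α, (∑ a, (O D a : ℂ) • S.th α a) * (S.rot R hR O hO).vec 1 E α := rfl
  rw [h0]
  simp only [rt_vec, Finset.sum_mul_sum, smul_mul_smul_comm]
  rw [Finset.sum_comm]
  refine Finset.sum_congr rfl fun a _ => ?_
  rw [Finset.sum_comm, Finset.smul_sum]
  refine Finset.sum_congr rfl fun b _ => ?_
  rw [← Finset.smul_sum, smul_smul]
  rfl

theorem rt_cS (S : Setup d F) {R : Matrix (Fin 9) (Fin 9) ℝ} (hR : R * R.transpose = 1)
    {O : Matrix (Fin d) (Fin d) ℝ} (hO : O * O.transpose = 1) (C : Fin d) :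
    (S.rot R hR O hO).cS C = ∑ a, (O C a : ℂ) • S.cS a := by
  have h0 : (S.rot R hR O hO).cS C = (-Complex.I / 2) • ∑ D, ∑ E,
      ((∑ a, ∑ b, ∑ c, O C a * O D b * O E c * S.f a b c : ℝ) : ℂ) •
        (S.rot R hR O hO).bil 1 D E := rfl
  rw [h0]
  have h := rt_f (K := ℂ) (M := F →L[ℂ] F) (fun A B => (O A B : ℂ)) (rt_orthc hO)
    (fun a b c => (S.f a b c : ℂ)) (fun a b => S.bil 1 a b) C
  push_cast
  simp only [rt_bil]
  rw [h, Finset.smul_sum]
  refine Finset.sum_congr rfl fun a _ => ?_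
  unfold Setup.cS
  rw [smul_comm]

/-- `rox` as a linear map -/
noncomputable def rtL (R : Matrix (Fin 9) (Fin 9) ℝ) (O : Matrix (Fin d) (Fin d) ℝ) :
    Cfg d →ₗ[ℝ] Cfg d where
  toFun := rox R O
  map_add' := by
    intro x y
    ext p
    simp only [rt_apply, PiLp.add_apply, mul_add, Finset.sum_add_distrib]
  map_smul' := by
    intro c x
    ext p
    simp only [rt_apply, PiLp.smul_apply, smul_eq_mul, RingHom.id_apply, Finset.mul_sum]
    refine Finset.sum_congr rfl fun j _ => Finset.sum_congr rfl fun B _ => ?_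
    ring

theorem rt_norm {R : Matrix (Fin 9) (Fin 9) ℝ} (hR : R * R.transpose = 1)
    {O : Matrix (Fin d) (Fin d) ℝ} (hO : O * O.transpose = 1) (x : Cfg d) : ‖rox R O x‖ = ‖x‖ := by
  have h1 : ‖rox R O x‖ ^ 2 = ‖x‖ ^ 2 := by
    rw [EuclideanSpace.norm_sq_eq, EuclideanSpace.norm_sq_eq, Fintype.sum_prod_type,
      Fintype.sum_prod_type]
    simp only [Real.norm_eq_abs, sq_abs]
    simp only [sq, rt_apply']
    have h := fun i : Fin 9 => rt_con (K := ℝ) (M := ℝ) (fun A B => O A B) (rt_orth hO)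
      (fun B => ∑ j, R i j * x (j, B)) (fun B => ∑ j, R i j * x (j, B))
    simp only [smul_eq_mul] at h
    simp only [h]
    rw [Finset.sum_comm, Finset.sum_comm (s := Finset.univ) (t := Finset.univ)
      (f := fun (i : Fin 9) (A : Fin d) => x (i, A) * x (i, A))]
    refine Finset.sum_congr rfl fun A _ => ?_
    have h' := rt_con (K := ℝ) (M := ℝ) (fun i j => R i j) (rt_orth hR)
      (fun j => x (j, A)) (fun j => x (j, A))
    simpa only [smul_eq_mul] using h'
  exact (sq_eq_sq₀ (norm_nonneg _) (norm_nonneg _)).1 h1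

theorem rt_inv {R : Matrix (Fin 9) (Fin 9) ℝ} (hR : R * R.transpose = 1)
    {O : Matrix (Fin d) (Fin d) ℝ} (hO : O * O.transpose = 1) (x : Cfg d) :
    rox R.transpose O.transpose (rox R O x) = x := by
  ext ⟨i, A⟩
  rw [rt_apply]
  simp only [Matrix.transpose_apply]
  have h1 : ∀ j B, R j i * O B A * rox R O x (j, B) =
      R j i * (O B A * ∑ C, O B C * ∑ k, R j k * x (k, C)) := by
    intro j B
    rw [rt_apply', mul_assoc]
  simp only [h1, ← Finset.mul_sum]
  have h2 : ∀ j, ∑ B, O B A * ∑ C, O B C * ∑ k, R j k * x (k, C) = ∑ k, R j k * x (k, A) := by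
    intro j
    have := rt_one (K := ℝ) (M := ℝ) (fun A B => O A B) (rt_orth hO) A
      (fun C => ∑ k, R j k * x (k, C))
    simpa only [smul_eq_mul] using this
  simp only [h2]
  have := rt_one (K := ℝ) (M := ℝ) (fun i j => R i j) (rt_orth hR) i (fun k => x (k, A))
  simpa only [smul_eq_mul] using this

/-- `rox` as a linear isometric equivalence -/
noncomputable def rtE (R : Matrix (Fin 9) (Fin 9) ℝ) (hR : R * R.transpose = 1)
    (O : Matrix (Fin d) (Fin d) ℝ) (hO : O * O.transpose = 1) : Cfg d ≃ₗᵢ[ℝ] Cfg d :=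
  LinearIsometry.toLinearIsometryEquiv (F := Cfg d) ⟨rtL R O, rt_norm hR hO⟩ rfl

theorem rt_mp {R : Matrix (Fin 9) (Fin 9) ℝ} (hR : R * R.transpose = 1)
    {O : Matrix (Fin d) (Fin d) ℝ} (hO : O * O.transpose = 1) :
    MeasurePreserving (rox R O : Cfg d → Cfg d) volume volume := by
  have h := (rtE R hR O hO).measurePreserving
  exact h

theorem rt_pd (R : Matrix (Fin 9) (Fin 9) ℝ)
    (O : Matrix (Fin d) (Fin d) ℝ) (v : Cfg d → F) (hv : Differentiable ℝ v)
    (i : Fin 9) (A : Fin d) (x : Cfg d) :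
    pd i A (fun z => v (rox R O z)) x =
      ∑ j, (R j i : ℂ) • ∑ B, (O B A : ℂ) • pd j B v (rox R O x) := by
  have h1 : HasFDerivAt (rox R O : Cfg d → Cfg d) (LinearMap.toContinuousLinearMap (rtL R O)) x :=
    (LinearMap.toContinuousLinearMap (rtL R O)).hasFDerivAt
  have h2 := (hv (rox R O x)).hasFDerivAt.comp x h1
  have h3 : fderiv ℝ (fun z => v (rox R O z)) x = _ := h2.fderiv
  unfold pd
  rw [h3]
  have h4 : rox R O (EuclideanSpace.single (i, A) 1) =
      ∑ j, R j i • ∑ B, O B A • (EuclideanSpace.single (j, B) 1 : Cfg d) := by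
    ext ⟨k, C⟩
    rw [rt_apply]
    simp only [WithLp.ofLp_sum, WithLp.ofLp_smul, Finset.sum_apply, Pi.smul_apply, smul_eq_mul,
      PiLp.single_apply, Prod.mk.injEq, mul_ite, mul_one, mul_zero]
    have e1 : ∀ j B, (if j = i ∧ B = A then R k j * O C B else 0) =
        if j = i then (if B = A then R k j * O C B else 0) else 0 := by
      intro j B
      by_cases h : j = i <;> simp [h]
    have e2 : ∀ j B, (if k = j ∧ C = B then O B A else 0) =
        if k = j then (if C = B then O B A else 0) else 0 := by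
      intro j B
      by_cases h : k = j <;> simp [h]
    simp only [e1, e2]
    have e3 : ∀ j, (∑ B, if j = i then (if B = A then R k j * O C B else 0) else 0) =
        if j = i then R k j * O C A else 0 := by
      intro j
      by_cases h : j = i <;> simp [h]
    have e4 : ∀ j, (∑ B, if k = j then (if C = B then O B A else 0) else 0) =
        if k = j then O C A else 0 := by
      intro j
      by_cases h : k = j <;> simp [h]
    simp only [e3, e4, mul_ite, mul_zero, Finset.sum_ite_eq, Finset.sum_ite_eq', Finset.mem_univ,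
      if_true]
  have h5 : (fderiv ℝ v (rox R O x)) (rox R O (EuclideanSpace.single (i, A) 1)) =
      ∑ j, (R j i : ℂ) • ∑ B, (O B A : ℂ) •
        (fderiv ℝ v (rox R O x)) (EuclideanSpace.single (j, B) 1) := by
    rw [h4, map_sum]
    refine Finset.sum_congr rfl fun j _ => ?_
    rw [map_smul, map_sum]
    rw [← Complex.coe_smul]
    congr 1
    refine Finset.sum_congr rfl fun B _ => ?_
    rw [map_smul, ← Complex.coe_smul]
  exact h5

theorem rt_vec1 (S : Setup d F) {R : Matrix (Fin 9) (Fin 9) ℝ} (hR : R * R.transpose = 1)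
    {O : Matrix (Fin d) (Fin d) ℝ} (hO : O * O.transpose = 1) (i : Fin 9) (A : Fin d) (β : Fin 16) :
    (S.rot R hR O hO).vec ((S.rot R hR O hO).g i) A β =
      ∑ a, (O A a : ℂ) • ∑ j, (R i j : ℂ) • S.vec (S.g j) a β := by
  rw [rt_vec]
  refine Finset.sum_congr rfl fun a _ => ?_
  have h0 : (S.rot R hR O hO).g i = ∑ j, (R i j : ℂ) • S.g j := rfl
  rw [h0, CS.vec_sum]
  congr 1
  refine Finset.sum_congr rfl fun j _ => ?_
  rw [CS.vec_smul]

theorem rt_Q (S : Setup d F) {R : Matrix (Fin 9) (Fin 9) ℝ} (hR : R * R.transpose = 1)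
    {O : Matrix (Fin d) (Fin d) ℝ} (hO : O * O.transpose = 1) (v : Cfg d → F)
    (hv : Differentiable ℝ v) (β : Fin 16) (x : Cfg d) :
    (S.rot R hR O hO).Q β v (rox R O x) = S.Q β (fun z => v (rox R O z)) x := by
  unfold Setup.Q
  rw [rt_W]
  congr 2
  have h1 : ∀ i A, ((S.rot R hR O hO).vec ((S.rot R hR O hO).g i) A β) (pd i A v (rox R O x)) =
      ∑ a, ∑ j, ((O A a : ℂ) * (R i j : ℂ)) • (S.vec (S.g j) a β) (pd i A v (rox R O x)) := by
    intro i A
    rw [rt_vec1]
    simp only [_root_.sum_apply, _root_.smul_apply, Finset.smul_sum, smul_smul]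
  have h2 : ∀ j a, (S.vec (S.g j) a β) (pd j a (fun z => v (rox R O z)) x) =
      ∑ i, ∑ A, ((O A a : ℂ) * (R i j : ℂ)) • (S.vec (S.g j) a β) (pd i A v (rox R O x)) := by
    intro j a
    rw [rt_pd R O v hv]
    simp only [map_sum, map_smul, Finset.smul_sum, smul_smul]
    refine Finset.sum_congr rfl fun i _ => Finset.sum_congr rfl fun A _ => ?_
    rw [mul_comm]
  simp only [h1, h2]
  have h3 : ∀ g : Fin 9 → Fin d → Fin d → Fin 9 → F,
      ∑ i, ∑ A, ∑ a, ∑ j, g i A a j = ∑ j, ∑ a, ∑ i, ∑ A, g i A a j := by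
    intro g
    have e1 : ∀ i, ∑ A, ∑ a, ∑ j, g i A a j = ∑ j, ∑ a, ∑ A, g i A a j := by
      intro i
      have e2 : ∀ A, ∑ a, ∑ j, g i A a j = ∑ j, ∑ a, g i A a j := fun A => Finset.sum_comm
      simp only [e2]
      rw [Finset.sum_comm]
      refine Finset.sum_congr rfl fun j _ => ?_
      rw [Finset.sum_comm]
    simp only [e1]
    rw [Finset.sum_comm]
    refine Finset.sum_congr rfl fun j _ => ?_
    rw [Finset.sum_comm]
  rw [h3]

theorem rt_G (S : Setup d F) {R : Matrix (Fin 9) (Fin 9) ℝ} (hR : R * R.transpose = 1)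
    {O : Matrix (Fin d) (Fin d) ℝ} (hO : O * O.transpose = 1) (v : Cfg d → F)
    (hv : Differentiable ℝ v) (C : Fin d) (x : Cfg d) :
    (S.rot R hR O hO).G C v (rox R O x) = ∑ C', (O C C' : ℂ) • S.G C' (fun z => v (rox R O z)) x := by
  set q : Fin 9 → Fin d → F := fun i b => ∑ B, (O B b : ℂ) • pd i B v (rox R O x) with hq
  set y : Fin 9 → Fin d → ℂ := fun i a => ∑ k, (R i k : ℂ) * (x (k, a) : ℂ) with hy
  set U : Fin d → Fin d → F := fun a b => ∑ i, y i a • q i b with hU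
  have h1 : ∀ i B, ∑ b, (O B b : ℂ) • q i b = pd i B v (rox R O x) := by
    intro i B
    refine rt_one (K := ℂ) (M := F) (fun b B => (O B b : ℂ)) ?_ B (fun B => pd i B v (rox R O x))
    intro k l
    have hO' : O.transpose * O.transpose.transpose = 1 := by
      rw [Matrix.transpose_transpose]
      exact mul_eq_one_comm.1 hO
    have := rt_orthc hO' k l
    simpa only [Matrix.transpose_apply] using this
  have h2 : ∀ i A, (rox R O x (i, A) : ℂ) = ∑ a, (O A a : ℂ) * y i a := by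
    intro i A
    rw [rt_apply']
    push_cast
    rfl
  have h3 : ∀ A B, ∑ i, (rox R O x (i, A) : ℂ) • pd i B v (rox R O x) =
      ∑ a, (O A a : ℂ) • ∑ b, (O B b : ℂ) • U a b := by
    intro A B
    have e1 : ∀ i, (rox R O x (i, A) : ℂ) • pd i B v (rox R O x) =
        ∑ a, ∑ b, (O A a : ℂ) • (O B b : ℂ) • (y i a • q i b) := by
      intro i
      rw [h2, Finset.sum_smul]
      refine Finset.sum_congr rfl fun a _ => ?_
      rw [← h1 i B, Finset.smul_sum]
      refine Finset.sum_congr rfl fun b _ => ?_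
      simp only [smul_smul]
      congr 1
      ring
    simp only [e1]
    rw [Finset.sum_comm]
    refine Finset.sum_congr rfl fun a _ => ?_
    rw [Finset.sum_comm, Finset.smul_sum]
    refine Finset.sum_congr rfl fun b _ => ?_
    simp only [hU, Finset.smul_sum]
  have h4 : ∀ a b, ∑ k, (x (k, a) : ℂ) • pd k b (fun z => v (rox R O z)) x = U a b := by
    intro a b
    simp only [rt_pd R O v hv, hU, hy, Finset.smul_sum, Finset.sum_smul]
    rw [Finset.sum_comm]
    refine Finset.sum_congr rfl fun i _ => Finset.sum_congr rfl fun k _ => ?_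
    rw [hq]
    simp only [Finset.smul_sum, smul_smul]
    refine Finset.sum_congr rfl fun B _ => ?_
    congr 1
    ring
  have h5 : ∑ i, ∑ A, ∑ B, (((S.rot R hR O hO).f C A B : ℂ) * (rox R O x (i, A) : ℂ)) •
      pd i B v (rox R O x) = ∑ C', (O C C' : ℂ) • ∑ a, ∑ b, (S.f C' a b : ℂ) • U a b := by
    have h := rt_f (K := ℂ) (M := F) (fun A B => (O A B : ℂ)) (rt_orthc hO)
      (fun a b c => (S.f a b c : ℂ)) U C
    rw [← h, Finset.sum_comm]
    refine Finset.sum_congr rfl fun A _ => ?_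
    rw [Finset.sum_comm]
    refine Finset.sum_congr rfl fun B _ => ?_
    rw [← h3, Finset.smul_sum]
    refine Finset.sum_congr rfl fun i _ => ?_
    rw [smul_smul]
    congr 2
    have e0 : (S.rot R hR O hO).f C A B =
      ∑ a, ∑ b, ∑ c, O C a * O A b * O B c * S.f a b c := rfl
    rw [e0]
    push_cast
    rfl
  have h6 : ∀ C', ∑ i, ∑ A, ∑ B, ((S.f C' A B : ℂ) * (x (i, A) : ℂ)) •
      pd i B (fun z => v (rox R O z)) x = ∑ a, ∑ b, (S.f C' a b : ℂ) • U a b := by
    intro C'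
    rw [Finset.sum_comm]
    refine Finset.sum_congr rfl fun A _ => ?_
    rw [Finset.sum_comm]
    refine Finset.sum_congr rfl fun B _ => ?_
    rw [← h4, Finset.smul_sum]
    refine Finset.sum_congr rfl fun i _ => ?_
    rw [smul_smul]
  unfold Setup.G
  rw [h5, rt_cS]
  simp only [h6, smul_add, Finset.sum_add_distrib, _root_.sum_apply, _root_.smul_apply]
  congr 1
  rw [Finset.smul_sum]
  refine Finset.sum_congr rfl fun C' _ => ?_
  rw [smul_comm]

theorem rot_stmt (S : Setup d F) : RotStmt S := fun _ hR _ hO =>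
  ⟨rt_norm hR hO, rt_mp hR hO, rt_inv hR hO, rt_V S hR hO, rt_W S hR hO,
    fun v hv β x => rt_Q S hR hO v hv β x, fun v hv C x => rt_G S hR hO v hv C x⟩

end Vale.Agent.P353.Z.AN
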