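import Vale.Agent.P353.AN.A.Stmt

/-! # P353, all `N`, block A2: every commuting tuple can be rotated into standard position -/

open MeasureTheory Filter Topology
open scoped ContDiff

namespace Vale.Agent.P353.Z.AN
namespace StdA

variable {d dh dm : ℕ} {F : Type*} [NormedAddCommGroup F] [InnerProductSpace ℂ F]

/-- colour space -/
abbrev Ec (d : ℕ) : Type := EuclideanSpace ℝ (Fin d)

lemma inner_Ec (u v : Ec d) : inner ℝ u v = ∑ C, u C * v C := by
  rw [PiLp.inner_apply]
  exact Finset.sum_congr rfl fun C _ => by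
    rw [RCLike.inner_apply, conj_trivial, mul_comm]

/-- trilinear form of the structure constants -/
noncomputable def tri (S : Setup d F) (u v w : Ec d) : ℝ := ∑ A, ∑ B, ∑ C, S.f A B C * u A * v B * w C

/-- `ad u` -/
noncomputable def ad (S : Setup d F) (u : Ec d) : Ec d →ₗ[ℝ] Ec d where
  toFun v := WithLp.toLp 2 fun C => ∑ A, ∑ B, S.f A B C * u A * v B
  map_add' v w := by
    ext C
    simp [mul_add, Finset.sum_add_distrib]
  map_smul' c v := by
    ext C
    simp only [PiLp.smul_apply, smul_eq_mul, RingHom.id_apply, Finset.mul_sum]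
    exact Finset.sum_congr rfl fun A _ => Finset.sum_congr rfl fun B _ => by ring

lemma ad_apply (S : Setup d F) (u v : Ec d) (C : Fin d) :
    ad S u v C = ∑ A, ∑ B, S.f A B C * u A * v B := rfl

lemma inner_ad (S : Setup d F) (u v w : Ec d) : inner ℝ (ad S u v) w = tri S u v w := by
  rw [inner_Ec, tri]
  simp only [ad_apply, Finset.sum_mul]
  rw [Finset.sum_comm]
  refine Finset.sum_congr rfl fun A _ => ?_
  rw [Finset.sum_comm]

lemma tri_swap (S : Setup d F) (u v w : Ec d) : tri S u v w = - tri S v u w := by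
  rw [tri, tri, Finset.sum_comm, ← Finset.sum_neg_distrib]
  refine Finset.sum_congr rfl fun B _ => ?_
  rw [← Finset.sum_neg_distrib]
  refine Finset.sum_congr rfl fun A _ => ?_
  rw [← Finset.sum_neg_distrib]
  refine Finset.sum_congr rfl fun C _ => ?_
  rw [S.f_swap A B C]
  ring

lemma tri_cyc (S : Setup d F) (u v w : Ec d) : tri S u v w = tri S v w u := by
  rw [tri, tri, Finset.sum_comm]
  refine Finset.sum_congr rfl fun B _ => ?_
  rw [Finset.sum_comm]
  refine Finset.sum_congr rfl fun C _ => Finset.sum_congr rfl fun A _ => ?_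
  rw [S.f_cyc A B C]
  ring

lemma inner_ad_skew (S : Setup d F) (u v w : Ec d) :
    inner ℝ (ad S u v) w = - inner ℝ v (ad S u w) := by
  rw [inner_ad, real_inner_comm, inner_ad, tri_swap S u v w, tri_cyc S v u w]

lemma ad_swap (S : Setup d F) (u v : Ec d) : ad S u v = - ad S v u := by
  refine ext_inner_right ℝ fun w => ?_
  rw [inner_neg_left, inner_ad, inner_ad, tri_swap]

lemma tri_add_left (S : Setup d F) (u u' v w : Ec d) : tri S (u + u') v w = tri S u v w + tri S u' v w := by
  simp only [tri, ← Finset.sum_add_distrib]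
  refine Finset.sum_congr rfl fun A _ => Finset.sum_congr rfl fun B _ => Finset.sum_congr rfl fun C _ => ?_
  rw [PiLp.add_apply]
  ring

lemma tri_smul_left (S : Setup d F) (c : ℝ) (u v w : Ec d) : tri S (c • u) v w = c * tri S u v w := by
  simp only [tri, Finset.mul_sum]
  refine Finset.sum_congr rfl fun A _ => Finset.sum_congr rfl fun B _ => Finset.sum_congr rfl fun C _ => ?_
  rw [PiLp.smul_apply, smul_eq_mul]
  ring

lemma ad_add (S : Setup d F) (u u' : Ec d) : ad S (u + u') = ad S u + ad S u' := by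
  refine LinearMap.ext fun v => ext_inner_right ℝ fun w => ?_
  rw [LinearMap.add_apply, inner_add_left, inner_ad, inner_ad, inner_ad, tri_add_left]

lemma ad_smul (S : Setup d F) (c : ℝ) (u : Ec d) : ad S (c • u) = c • ad S u := by
  refine LinearMap.ext fun v => ext_inner_right ℝ fun w => ?_
  rw [LinearMap.smul_apply, inner_smul_left, inner_ad, inner_ad, tri_smul_left]
  simp

/-- Jacobi -/
lemma ad_jac (S : Setup d F) (u v w : Ec d) :
    ad S (ad S u v) w + ad S (ad S v w) u + ad S (ad S w u) v = 0 := by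
  have key : ∀ (a b c : Ec d) (D : Fin d), ad S (ad S a b) c D =
      ∑ A, ∑ B, ∑ C, a A * b B * c C * ∑ E, S.f A B E * S.f E C D := by
    intro a b c D
    rw [ad_apply]
    have h1 : ∀ E C, S.f E C D * ad S a b E * c C =
        ∑ A, ∑ B, a A * b B * c C * (S.f A B E * S.f E C D) := by
      intro E C
      rw [ad_apply, Finset.mul_sum, Finset.sum_mul]
      refine Finset.sum_congr rfl fun A _ => ?_
      rw [Finset.mul_sum, Finset.sum_mul]
      exact Finset.sum_congr rfl fun B _ => by ring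
    simp only [h1, Finset.mul_sum]
    rw [Finset.sum_comm]
    simp only [Finset.sum_comm (s := (Finset.univ : Finset (Fin d))) (t := Finset.univ)
      (f := fun (E : Fin d) (A : Fin d) => ∑ B, a A * b B * c _ * (S.f A B E * S.f E _ D))]
    rw [Finset.sum_comm]
    refine Finset.sum_congr rfl fun A _ => ?_
    simp only [Finset.sum_comm (s := (Finset.univ : Finset (Fin d))) (t := Finset.univ)
      (f := fun (E : Fin d) (B : Fin d) => a A * b B * c _ * (S.f A B E * S.f E _ D))]
    rw [Finset.sum_comm]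
  ext D
  rw [PiLp.add_apply, PiLp.add_apply, key, key, key]
  have e2 : (∑ A, ∑ B, ∑ C, v A * w B * u C * ∑ E, S.f A B E * S.f E C D) =
      ∑ A, ∑ B, ∑ C, u A * v B * w C * ∑ E, S.f B C E * S.f E A D := by
    rw [Finset.sum_comm_cycle]
    refine Finset.sum_congr rfl fun A _ => Finset.sum_congr rfl fun B _ => Finset.sum_congr rfl fun C _ => ?_
    ring
  have e3 : (∑ A, ∑ B, ∑ C, w A * u B * v C * ∑ E, S.f A B E * S.f E C D) =
      ∑ A, ∑ B, ∑ C, u A * v B * w C * ∑ E, S.f C A E * S.f E B D := by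
    rw [Finset.sum_comm]
    refine Finset.sum_congr rfl fun A _ => ?_
    rw [Finset.sum_comm]
    refine Finset.sum_congr rfl fun B _ => Finset.sum_congr rfl fun C _ => ?_
    ring
  rw [e2, e3, ← Finset.sum_add_distrib, ← Finset.sum_add_distrib]
  refine Finset.sum_eq_zero fun A _ => ?_
  rw [← Finset.sum_add_distrib, ← Finset.sum_add_distrib]
  refine Finset.sum_eq_zero fun B _ => ?_
  rw [← Finset.sum_add_distrib, ← Finset.sum_add_distrib]
  refine Finset.sum_eq_zero fun C _ => ?_
  rw [← mul_add, ← mul_add, ← Finset.sum_add_distrib, ← Finset.sum_add_distrib, S.f_jac A B C D, mul_zero]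

lemma ad_comm (S : Setup d F) {u w : Ec d} (h : ad S u w = 0) (v : Ec d) :
    ad S u (ad S w v) = ad S w (ad S u v) := by
  have h1 := ad_jac S u w v
  have h0 : ad S (0 : Ec d) v = 0 := by
    have := ad_smul S 0 (0 : Ec d)
    rw [zero_smul, zero_smul] at this
    rw [this]; rfl
  rw [h, h0, ad_swap S (ad S w v) u, ad_swap S (ad S v u) w, ad_swap S v u, map_neg, neg_neg, zero_add] at h1
  exact (neg_add_eq_zero.1 h1)

/-- two commuting skew operators: the kernel of a generic combination is the joint kernel -/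
lemma exists_ker (A B : Ec d →ₗ[ℝ] Ec d) (hA : ∀ v w, inner ℝ (A v) w = - inner ℝ v (A w))
    (hB : ∀ v w, inner ℝ (B v) w = - inner ℝ v (B w)) (hAB : ∀ v, A (B v) = B (A v)) :
    ∃ t : ℝ, ∀ v, A v + t • B v = 0 → A v = 0 ∧ B v = 0 := by
  set K := LinearMap.ker A with hKdef
  have hinj : LinearMap.ker (A.domRestrict Kᗮ) = ⊥ := by
    rw [LinearMap.ker_eq_bot']
    rintro ⟨u, hu⟩ h0
    have h1 : u ∈ K := by
      rw [hKdef, LinearMap.mem_ker]
      exact h0
    have h2 : inner ℝ u u = 0 := hu u h1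
    exact Subtype.ext (inner_self_eq_zero.1 h2)
  obtain ⟨c, hc0, hc⟩ := LinearMap.exists_antilipschitzWith (A.domRestrict Kᗮ) hinj
  have hc' : ∀ u ∈ Kᗮ, ‖u‖ ≤ c * ‖A u‖ := by
    intro u hu
    have := hc.le_mul_dist (⟨u, hu⟩ : Kᗮ) 0
    rw [map_zero, dist_zero_right, dist_zero_right] at this
    exact this
  set Bc : Ec d →L[ℝ] Ec d := LinearMap.toContinuousLinearMap B with hBc
  have hBn : ∀ u, ‖B u‖ ≤ ‖Bc‖ * ‖u‖ := fun u => Bc.le_opNorm u
  have hpos : 0 < (c : ℝ) * ‖Bc‖ + 1 := by positivity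
  refine ⟨((c : ℝ) * ‖Bc‖ + 1)⁻¹, fun v hv => ?_⟩
  set t := ((c : ℝ) * ‖Bc‖ + 1)⁻¹ with ht
  have ht0 : 0 < t := inv_pos.2 hpos
  obtain ⟨k, hk, u, hu, rfl⟩ := K.exists_add_mem_mem_orthogonal v
  have hAk : A k = 0 := by rwa [hKdef, LinearMap.mem_ker] at hk
  have hBk : B k ∈ K := by
    rw [hKdef, LinearMap.mem_ker, hAB, hAk, map_zero]
  have hw : A u + t • B u ∈ Kᗮ := by
    intro k' hk'
    have hAk' : A k' = 0 := by rwa [hKdef, LinearMap.mem_ker] at hk'
    have hBk' : B k' ∈ K := by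
      rw [hKdef, LinearMap.mem_ker, hAB, hAk', map_zero]
    have h1 : inner ℝ (A k') u = - inner ℝ k' (A u) := hA k' u
    have h2 : inner ℝ (B k') u = - inner ℝ k' (B u) := hB k' u
    rw [hAk', inner_zero_left] at h1
    rw [hu _ hBk'] at h2
    rw [inner_add_right, inner_smul_right]
    linarith [mul_comm t (inner ℝ k' (B u)), show t * inner ℝ k' (B u) = 0 by
      rw [show inner ℝ k' (B u) = 0 by linarith, mul_zero]]
  have hsum : t • B k + (A u + t • B u) = 0 := by
    rw [map_add, map_add, hAk, zero_add, smul_add] at hv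
    rw [← hv]; abel
  have h3 : t • B k = 0 := by
    have h4 : t • B k = -(A u + t • B u) := eq_neg_of_add_eq_zero_left hsum
    have h5 : t • B k ∈ K := K.smul_mem t hBk
    have h6 : t • B k ∈ Kᗮ := by rw [h4]; exact Kᗮ.neg_mem hw
    exact inner_self_eq_zero.1 (h6 _ h5)
  have h7 : B k = 0 := (smul_eq_zero.1 h3).resolve_left ht0.ne'
  have h8 : A u + t • B u = 0 := by rwa [h3, zero_add] at hsum
  have h9 : u = 0 := by
    have h10 : A u = - (t • B u) := eq_neg_of_add_eq_zero_left h8
    have h11 : ‖u‖ ≤ c * (t * (‖Bc‖ * ‖u‖)) := by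
      refine (hc' u hu).trans ?_
      rw [h10, norm_neg, norm_smul, Real.norm_of_nonneg ht0.le]
      gcongr
      exact hBn u
    have h12 : (c : ℝ) * (t * (‖Bc‖ * ‖u‖)) = (((c : ℝ) * ‖Bc‖) * t) * ‖u‖ := by ring
    have h13 : ((c : ℝ) * ‖Bc‖) * t = 1 - t := by
      rw [ht]; field_simp; ring
    rw [h12, h13] at h11
    have : t * ‖u‖ ≤ 0 := by nlinarith
    have h14 : ‖u‖ ≤ 0 := by
      by_contra hcon
      nlinarith [mul_pos ht0 (not_le.1 hcon)]
    exact norm_le_zero_iff.1 h14
  subst h9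
  simp [hAk, h7]

/-- linear combination of the components -/
noncomputable def comb (Y : Fin 9 → Ec d) (e : Fin 9 → ℝ) : Ec d := ∑ j, e j • Y j

lemma ad_comb (S : Setup d F) (Y : Fin 9 → Ec d) (e : Fin 9 → ℝ) (v : Ec d) :
    ad S (comb Y e) v = ∑ j, e j • ad S (Y j) v := by
  have h : ∀ s : Finset (Fin 9), ad S (∑ j ∈ s, e j • Y j) v = ∑ j ∈ s, e j • ad S (Y j) v := by
    intro s
    induction s using Finset.induction_on with
    | empty =>
      have := ad_smul S 0 (0 : Ec d)
      rw [zero_smul, zero_smul] at this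
      rw [Finset.sum_empty, Finset.sum_empty, this]; rfl
    | insert a s ha ih =>
      rw [Finset.sum_insert ha, Finset.sum_insert ha, ad_add, LinearMap.add_apply, ih, ad_smul,
        LinearMap.smul_apply]
  exact h _

lemma exists_comb (S : Setup d F) (Y : Fin 9 → Ec d) (hY : ∀ i j, ad S (Y i) (Y j) = 0) (s : Finset (Fin 9)) :
    ∃ e : Fin 9 → ℝ, ∀ v, ad S (comb Y e) v = 0 → ∀ i ∈ s, ad S (Y i) v = 0 := by
  induction s using Finset.induction_on with
  | empty => exact ⟨0, fun v _ i hi => by simp at hi⟩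
  | insert a s ha ih =>
    obtain ⟨e, he⟩ := ih
    have hc : ∀ v, ad S (comb Y e) (ad S (Y a) v) = ad S (Y a) (ad S (comb Y e) v) := by
      intro v
      refine ad_comm S ?_ v
      rw [ad_comb]
      exact Finset.sum_eq_zero fun j _ => by rw [hY, smul_zero]
    obtain ⟨t, ht⟩ := exists_ker (ad S (comb Y e)) (ad S (Y a)) (inner_ad_skew S _) (inner_ad_skew S _) hc
    refine ⟨e + Pi.single a t, fun v hv => ?_⟩
    have h1 : ad S (comb Y (e + Pi.single a t)) v = ad S (comb Y e) v + t • ad S (Y a) v := by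
      rw [ad_comb, ad_comb]
      simp only [Pi.add_apply, add_smul, Finset.sum_add_distrib]
      congr 1
      rw [Finset.sum_eq_single a]
      · simp
      · intro b _ hb
        simp [hb]
      · simp
    rw [h1] at hv
    obtain ⟨h2, h3⟩ := ht v hv
    intro i hi
    rcases Finset.mem_insert.1 hi with rfl | hi
    · exact h3
    · exact he v h2 i hi

lemma exists_unit (S : Setup d F) (Y : Fin 9 → Ec d) (hY : ∀ i j, ad S (Y i) (Y j) = 0) :
    ∃ e : EuclideanSpace ℝ (Fin 9), ‖e‖ = 1 ∧ ∀ v, ad S (comb Y e) v = 0 → ∀ i, ad S (Y i) v = 0 := by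
  obtain ⟨e, he⟩ := exists_comb S Y hY Finset.univ
  have he' : ∀ v, ad S (comb Y e) v = 0 → ∀ i, ad S (Y i) v = 0 := fun v hv i => he v hv i (Finset.mem_univ i)
  by_cases h0 : e = 0
  · refine ⟨EuclideanSpace.single 0 1, by simp, fun v _ i => he' v ?_ i⟩
    rw [ad_comb, h0]
    simp
  · set E : EuclideanSpace ℝ (Fin 9) := WithLp.toLp 2 e with hE
    have hE0 : E ≠ 0 := by
      intro h
      apply h0
      funext i
      have := congrArg (fun z : EuclideanSpace ℝ (Fin 9) => z i) h
      simpa [hE] using this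
    have hn : ‖E‖ ≠ 0 := norm_ne_zero_iff.2 hE0
    refine ⟨‖E‖⁻¹ • E, by rw [norm_smul, norm_inv, norm_norm, inv_mul_cancel₀ hn], fun v hv i => he' v ?_ i⟩
    rw [ad_comb] at hv ⊢
    have h2 : ∑ j, (‖E‖⁻¹ • E) j • ad S (Y j) v = ‖E‖⁻¹ • ∑ j, e j • ad S (Y j) v := by
      rw [Finset.smul_sum]
      exact Finset.sum_congr rfl fun j _ => by rw [PiLp.smul_apply, smul_eq_mul, mul_smul]
    rw [h2] at hv
    exact (smul_eq_zero.1 hv).resolve_left (inv_ne_zero hn)

/-- orthogonal matrix with prescribed last row -/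
lemma exists_rot (e : EuclideanSpace ℝ (Fin 9)) (he : ‖e‖ = 1) :
    ∃ R : Matrix (Fin 9) (Fin 9) ℝ, R * R.transpose = 1 ∧ ∀ j, R 8 j = e j := by
  have h1 : Orthonormal ℝ (({8} : Set (Fin 9)).domRestrict (fun _ => e)) := by
    constructor
    · intro i; exact he
    · intro i j hij
      exact absurd (Subsingleton.elim i j) hij
  obtain ⟨b, hb⟩ := Orthonormal.exists_orthonormalBasis_extension_of_card_eq
    (by rw [finrank_euclideanSpace_fin, Fintype.card_fin]) h1
  refine ⟨Matrix.of fun i j => b i j, ?_, fun j => ?_⟩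
  · ext i k
    rw [Matrix.mul_apply]
    have h2 := (orthonormal_iff_ite.1 b.orthonormal) i k
    rw [PiLp.inner_apply] at h2
    rw [Matrix.one_apply, ← h2]
    refine Finset.sum_congr rfl fun j _ => ?_
    rw [RCLike.inner_apply, conj_trivial, Matrix.transpose_apply, Matrix.of_apply, Matrix.of_apply, mul_comm]
  · rw [Matrix.of_apply, hb 8 rfl]

lemma tri_sum_left (S : Setup d F) {ι : Type*} (s : Finset ι) (c : ι → ℝ) (u : ι → Ec d) (v w : Ec d) :
    tri S (∑ i ∈ s, c i • u i) v w = ∑ i ∈ s, c i * tri S (u i) v w := by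
  classical
  induction s using Finset.induction_on with
  | empty => simp [tri]
  | insert a s ha ih =>
    rw [Finset.sum_insert ha, Finset.sum_insert ha, tri_add_left, tri_smul_left, ih]

end StdA

open StdA in
/-- **A2** -/
theorem std {d : ℕ} {F : Type*} [NormedAddCommGroup F] [InnerProductSpace ℂ F] (S : Setup d F) : StdStmt S := by
  intro Y hV
  set Yv : Fin 9 → Ec d := fun i => WithLp.toLp 2 fun A => Y (i, A) with hYv
  have hYva : ∀ i A, Yv i A = Y (i, A) := fun i A => rfl
  -- the components commute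
  have hcomm : ∀ i j, ad S (Yv i) (Yv j) = 0 := by
    intro i j
    have h0 : ∑ A, ∑ i, ∑ j, (S.FF A i j Y) ^ 2 = 0 := by
      have : (1 / 4 : ℝ) * ∑ A, ∑ i, ∑ j, (S.FF A i j Y) ^ 2 = 0 := hV
      linarith
    have h1 := (Finset.sum_eq_zero_iff_of_nonneg (fun A _ =>
      Finset.sum_nonneg fun i _ => Finset.sum_nonneg fun j _ => sq_nonneg _)).1 h0
    ext C
    have h2 := (Finset.sum_eq_zero_iff_of_nonneg (fun i _ =>
      Finset.sum_nonneg fun j _ => sq_nonneg _)).1 (h1 C (Finset.mem_univ C))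
    have h3 := (Finset.sum_eq_zero_iff_of_nonneg (fun j _ => sq_nonneg _)).1 (h2 i (Finset.mem_univ i))
    have h4 : S.FF C i j Y = 0 := pow_eq_zero_iff (two_ne_zero) |>.1 (h3 j (Finset.mem_univ j))
    have h5 : ∑ A, ∑ B, S.f C A B * Y (i, A) * Y (j, B) = 0 :=
      (mul_eq_zero.1 h4).resolve_left S.κ_pos.ne'
    rw [ad_apply]
    simp only [hYva]
    rw [PiLp.zero_apply, ← h5]
    exact Finset.sum_congr rfl fun A _ => Finset.sum_congr rfl fun B _ => by rw [S.f_cyc C A B]
  obtain ⟨e, he1, he⟩ := exists_unit S Yv hcomm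
  obtain ⟨R, hR, hR8⟩ := exists_rot e he1
  -- centraliser
  set h : Submodule ℝ (Ec d) := ⨅ i, LinearMap.ker (ad S (Yv i)) with hh
  have hmem : ∀ v, v ∈ h ↔ ∀ i, ad S (Yv i) v = 0 := by
    intro v
    rw [hh, Submodule.mem_iInf]
    exact Iff.rfl
  have hYh : ∀ j, Yv j ∈ h := fun j => (hmem _).2 fun i => hcomm i j
  have hbr : ∀ u ∈ h, ∀ v ∈ h, ad S u v ∈ h := by
    intro u hu v hv
    rw [hmem] at hu hv ⊢
    intro i
    have h1 : ad S u (Yv i) = 0 := by rw [ad_swap, hu i, neg_zero]
    rw [← ad_comm S h1, hv i, map_zero]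
  set dh := Module.finrank ℝ h with hdh
  set dm := Module.finrank ℝ hᗮ with hdm
  have hd : dh + dm = d := by
    have := h.finrank_add_finrank_orthogonal
    rwa [finrank_euclideanSpace_fin] at this
  set bh : OrthonormalBasis (Fin dh) ℝ h := stdOrthonormalBasis ℝ h with hbh
  set bm : OrthonormalBasis (Fin dm) ℝ hᗮ := stdOrthonormalBasis ℝ hᗮ with hbm
  set v : Fin dh ⊕ Fin dm → Ec d := Sum.elim (fun a => (bh a : Ec d)) (fun b => (bm b : Ec d)) with hv
  have hvl : ∀ a, v (Sum.inl a) = (bh a : Ec d) := fun a => rfl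
  have hvr : ∀ b, v (Sum.inr b) = (bm b : Ec d) := fun b => rfl
  have hvh : ∀ a, v (Sum.inl a) ∈ h := fun a => (bh a).2
  have hvm : ∀ b, v (Sum.inr b) ∈ hᗮ := fun b => (bm b).2
  have hort : ∀ p q, inner ℝ (v p) (v q) = if p = q then (1 : ℝ) else 0 := by
    rintro (a | b) (a' | b')
    · rw [hvl, hvl]
      have := (orthonormal_iff_ite.1 bh.orthonormal) a a'
      rw [Submodule.coe_inner] at this
      rw [this]
      simp only [Sum.inl.injEq]
    · rw [hvm b' _ (hvh a)]
      simp
    · rw [real_inner_comm, hvm b _ (hvh a')]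
      simp
    · rw [hvr, hvr]
      have := (orthonormal_iff_ite.1 bm.orthonormal) b b'
      rw [Submodule.coe_inner] at this
      rw [this]
      simp only [Sum.inr.injEq]
  set φ : Spl dh dm d := finSumFinEquiv.trans (finCongr hd) with hφ
  set O : Matrix (Fin d) (Fin d) ℝ := Matrix.of fun A A' => v (φ.symm A) A' with hO
  have hOO : O * O.transpose = 1 := by
    ext A B
    rw [Matrix.mul_apply, Matrix.one_apply]
    have h1 := hort (φ.symm A) (φ.symm B)
    rw [inner_Ec] at h1
    simp only [EmbeddingLike.apply_eq_iff_eq] at h1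
    rw [← h1]
    rfl
  -- rotated components
  set Yr : Fin 9 → Ec d := fun i => ∑ j, R i j • Yv j with hYr
  have hYrh : ∀ i, Yr i ∈ h := fun i => h.sum_mem fun j _ => h.smul_mem _ (hYh j)
  have hYr8 : Yr 8 = comb Yv e := by
    rw [hYr, comb]
    exact Finset.sum_congr rfl fun j _ => by rw [hR8]
  have hrox : ∀ i A, rox R O Y (i, A) = inner ℝ (v (φ.symm A)) (Yr i) := by
    intro i A
    have h1 : rox R O Y (i, A) = ∑ j, ∑ B, R i j * O A B * Y (j, B) := rfl
    rw [h1, inner_Ec, Finset.sum_comm]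
    refine Finset.sum_congr rfl fun B _ => ?_
    have h2 : Yr i B = ∑ j, R i j * Y (j, B) := by
      rw [hYr]
      simp [hYva]
    rw [h2, Finset.mul_sum]
    refine Finset.sum_congr rfl fun j _ => ?_
    rw [hO, Matrix.of_apply]
    ring
  have hf : ∀ a b c, (S.rot R hR O hOO).f (φ a) (φ b) (φ c) = tri S (v a) (v b) (v c) := by
    intro a b c
    have h1 : (S.rot R hR O hOO).f (φ a) (φ b) (φ c) =
      ∑ A', ∑ B', ∑ C', O (φ a) A' * O (φ b) B' * O (φ c) C' * S.f A' B' C' := rfl
    rw [h1, tri]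
    refine Finset.sum_congr rfl fun A _ => Finset.sum_congr rfl fun B _ => Finset.sum_congr rfl fun C _ => ?_
    rw [hO]
    simp only [Matrix.of_apply, Equiv.symm_apply_apply]
    ring
  set y : Cfg dh := WithLp.toLp 2 fun p => inner ℝ (v (Sum.inl p.2)) (Yr p.1) with hy
  have hya : ∀ i a, y (i, a) = inner ℝ (v (Sum.inl a)) (Yr i) := fun i a => rfl
  have hexp : ∀ i, ∑ a, y (i, a) • v (Sum.inl a) = Yr i := by
    intro i
    have h1 := bh.sum_repr' (⟨Yr i, hYrh i⟩ : h)
    have h2 := congrArg (Subtype.val) h1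
    rw [Submodule.coe_sum] at h2
    refine Eq.trans ?_ h2
    refine Finset.sum_congr rfl fun a _ => ?_
    rw [hya, hvl, Submodule.coe_smul, Submodule.coe_inner]
  have htri0 : ∀ i, ∀ u ∈ h, ∀ w, tri S (Yr i) u w = 0 := by
    intro i u hu w
    rw [hYr]
    simp only
    rw [tri_sum_left]
    refine Finset.sum_eq_zero fun j _ => ?_
    rw [← inner_ad, (hmem u).1 hu j, inner_zero_left, mul_zero]
  refine ⟨R, hR, O, hOO, dh, dm, φ, y, ⟨?_, ?_, ?_⟩, ?_, ?_⟩
  · intro A B C
    rw [hf, ← inner_ad]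
    exact hvm C _ (hbr _ (hvh A) _ (hvh B))
  · intro i B C
    simp only [hf]
    have h1 := tri_sum_left S Finset.univ (fun a => y (i, a)) (fun a => v (Sum.inl a)) (v (Sum.inl B)) (v (Sum.inl C))
    rw [hexp, htri0 i _ (hvh B)] at h1
    rw [h1]
    exact Finset.sum_congr rfl fun a _ => by rw [mul_comm]
  · intro hdet
    obtain ⟨z, hz0, hz⟩ := Matrix.exists_vecMul_eq_zero_iff.2 hdet
    apply hz0
    have hDy : ∀ B C, (S.rot R hR O hOO).Dy φ 8 y B C = - inner ℝ (ad S (Yr 8) (v (Sum.inr B))) (v (Sum.inr C)) := by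
      intro B C
      have h1 : (S.rot R hR O hOO).Dy φ 8 y B C =
        ∑ A, (S.rot R hR O hOO).f (φ (Sum.inr B)) (φ (Sum.inl A)) (φ (Sum.inr C)) * y (8, A) := rfl
      rw [h1, inner_ad]
      simp only [hf]
      have h2 := tri_sum_left S Finset.univ (fun a => y (8, a)) (fun a => v (Sum.inl a)) (v (Sum.inr B)) (v (Sum.inr C))
      rw [hexp] at h2
      rw [h2, ← Finset.sum_neg_distrib]
      exact Finset.sum_congr rfl fun a _ => by rw [tri_swap S (v (Sum.inr B))]; ring
    set Z : Ec d := ∑ B, z B • v (Sum.inr B) with hZ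
    have hZm : Z ∈ hᗮ := hᗮ.sum_mem fun B _ => hᗮ.smul_mem _ (hvm B)
    have h3 : ∀ C, inner ℝ (ad S (Yr 8) Z) (v (Sum.inr C)) = 0 := by
      intro C
      have h4 := congrFun hz C
      rw [Matrix.vecMul, dotProduct, Pi.zero_apply] at h4
      simp only [hDy] at h4
      rw [hZ, map_sum, sum_inner]
      simp only [map_smul, inner_smul_left, conj_trivial]
      have : ∑ B, z B * -inner ℝ (ad S (Yr 8) (v (Sum.inr B))) (v (Sum.inr C)) =
        - ∑ B, z B * inner ℝ (ad S (Yr 8) (v (Sum.inr B))) (v (Sum.inr C)) := by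
        rw [← Finset.sum_neg_distrib]
        exact Finset.sum_congr rfl fun B _ => by ring
      rw [this] at h4
      linarith
    have h5 : ad S (Yr 8) Z ∈ hᗮ := by
      intro k hk
      have h6 := inner_ad_skew S (Yr 8) k Z
      rw [inner_ad, htri0 8 k hk] at h6
      linarith
    have h6 : ad S (Yr 8) Z = 0 := by
      have h7 := bm.sum_repr' (⟨ad S (Yr 8) Z, h5⟩ : hᗮ)
      have h8 := congrArg (Subtype.val) h7
      rw [Submodule.coe_sum] at h8
      refine Eq.trans h8.symm ?_
      refine Finset.sum_eq_zero fun a _ => ?_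
      rw [Submodule.coe_smul, Submodule.coe_inner, ← hvr, real_inner_comm, h3, zero_smul]
    rw [hYr8] at h6
    have h7 : Z ∈ h := (hmem Z).2 (he Z h6)
    have h8 : Z = 0 := inner_self_eq_zero.1 (hZm Z h7)
    funext B
    have h9 : inner ℝ (v (Sum.inr B)) Z = z B := by
      rw [hZ, inner_sum]
      simp only [inner_smul_right, hort]
      simp
    rw [← h9, h8, inner_zero_right, Pi.zero_apply]
  · ext p
    obtain ⟨i, A⟩ := p
    rw [hrox]
    obtain ⟨q, rfl⟩ := φ.surjective A
    rw [Equiv.symm_apply_apply]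
    rcases q with a | b
    · simp [emb, hya]
    · rw [real_inner_comm, hvm b _ (hYrh i)]
      simp only [emb, Equiv.symm_apply_apply, Sum.elim_inr]
      induction i using Fin.lastCases with
      | last => rw [Fin.lastCases_last]
      | cast j => rw [Fin.lastCases_castSucc]; rfl
  · intro h0 i B C
    have h1 : h = ⊤ := by
      have h2 : hᗮ = ⊥ := Submodule.finrank_eq_zero.1 (hdm ▸ h0)
      rwa [Submodule.orthogonal_eq_bot_iff] at h2
    have h2 : EuclideanSpace.single B (1 : ℝ) ∈ h := by rw [h1]; exact Submodule.mem_top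
    have h3 := (hmem _).1 h2 i
    have h4 := congrArg (fun z : Ec d => z C) h3
    simp only [ad_apply, PiLp.zero_apply] at h4
    rw [← h4]
    refine Finset.sum_congr rfl fun A _ => ?_
    rw [Finset.sum_eq_single B]
    · simp [hYva]
    · intro B' _ hB'
      simp [hB']
    · simp

theorem std_stmt {d : ℕ} {F : Type*} [NormedAddCommGroup F] [InnerProductSpace ℂ F]
    (S : Setup d F) : StdStmt S := std S

end Vale.Agent.P353.Z.AN
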