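import Vale.Agent.P353.AN.A.Defs

/-! # P353, all `N`, block A: linear slices — statements

A prover delivers `theorem <name> (S : Setup d F) … : XStmt S …` in `Vale/Agent/P353/AN/A/<File>.lean`, importing this file (and
landed files of `Z/U`), using other statements only as hypotheses. -/

open MeasureTheory Filter Topology
open scoped ContDiff

namespace Vale.Agent.P353.Z.AN

variable {d dh dm : ℕ} {F : Type*} [NormedAddCommGroup F] [InnerProductSpace ℂ F]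

/-- **A1** covariance under `S ↦ S.rot R O`, `x ↦ rox R O x` (a linear isometry, measure preserving). PROOF: `pd` of `v ∘ rox`
is `∑ R_{ij}O_{AB}·pd i A v`, orthogonality of `R`, `O`; `γ'^{ij} = ∑R_{ik}R_{jl}γ^{kl}`, `f'` is the rotated tensor. -/
def RotStmt (S : Setup d F) : Prop := ∀ (R : Matrix (Fin 9) (Fin 9) ℝ) (hR : R * R.transpose = 1)
    (O : Matrix (Fin d) (Fin d) ℝ) (hO : O * O.transpose = 1),
  (∀ x, ‖rox R O x‖ = ‖x‖) ∧ MeasurePreserving (rox R O : Cfg d → Cfg d) volume volume ∧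
  (∀ x, rox R.transpose O.transpose (rox R O x) = x) ∧
  (∀ x, (S.rot R hR O hO).V (rox R O x) = S.V x) ∧
  (∀ β x, (S.rot R hR O hO).W β (rox R O x) = S.W β x) ∧
  (∀ v : Cfg d → F, Differentiable ℝ v → ∀ β x,
    (S.rot R hR O hO).Q β v (rox R O x) = S.Q β (fun z => v (rox R O z)) x) ∧
  (∀ v : Cfg d → F, Differentiable ℝ v → ∀ C x,
    (S.rot R hR O hO).G C v (rox R O x) = ∑ C', (O C C' : ℂ) • S.G C' (fun z => v (rox R O z)) x)

/-- `y` is central in `h` (all components) -/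
def Cen (S : Setup d F) (φ : Spl dh dm d) (y : Cfg dh) : Prop :=
  ∀ i B C, ∑ A, S.f (φ (Sum.inl A)) (φ (Sum.inl B)) (φ (Sum.inl C)) * y (i, A) = 0

/-- `Y` is in standard position: subalgebra `h`, `Y = emb φ y 0` with `y` central in `h` and `ad Y_8` invertible on `m`
(so `h` is the centraliser of `Y_8`, and of `Y`) -/
structure Std (S : Setup d F) (φ : Spl dh dm d) (y : Cfg dh) : Prop where
  sub : S.IsSub φ
  cen : Cen S φ y
  inv : (S.Dy φ 8 y).det ≠ 0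

/-- **A2** every commuting tuple can be rotated into standard position; `dm = 0` iff it is central.
PROOF. `h = {v : ∑f_{ABC}Y_i^Av^B = 0 ∀ i,C}` is closed under the bracket (Jacobi) and contains the `Y_i` (`S.V Y = 0` gives
`F_{ij}(Y) = 0`); `m = h^⊥` is invariant under the antisymmetric commuting matrices `A_i = ad Y_i` (`[A_i,A_j] = ad[Y_i,Y_j] = 0`), and
`∩ker A_i|_m = 0`. There is a unit vector `e ∈ ℝ^9` with `A_e|_m` invertible (`A_e = ∑e_iA_i`): take `e` of maximal rank; if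
`K = ker A_e|_m ≠ 0`, some `A_i|_K ≠ 0`, `K` and `K^⊥` are invariant under all `A_j` (commuting, antisymmetric), and `A_e + tA_i` has
larger rank for small `t ≠ 0`. Take an orthonormal basis of `ℝ^d` adapted to `h ⊕ m` (rows of `O`), `R ∈ O(9)` with last row `e`.
The component of `[h,h]` in `m` vanishes, also `f'(inl,inl,inr) = 0`. -/
def StdStmt (S : Setup d F) : Prop := ∀ Y : Cfg d, S.V Y = 0 →
  ∃ (R : Matrix (Fin 9) (Fin 9) ℝ) (hR : R * R.transpose = 1)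
    (O : Matrix (Fin d) (Fin d) ℝ) (hO : O * O.transpose = 1) (dh dm : ℕ) (φ : Spl dh dm d) (y : Cfg dh),
    Std (S.rot R hR O hO) φ y ∧ rox R O Y = emb φ y 0 ∧
    (dm = 0 → ∀ i B C, ∑ A, S.f A B C * Y (i, A) = 0)

/-- **A3** exact decomposition of the supercharges on the slice, for gauge invariant functions.
PROOF. Write `x = emb φ y w`. (1) `W_β(x)`: split the colour sums by `φ`; `f(inl,inl,inr) = 0` (and its permutations).
(2) Gauss law `G_C u = 0` for `C = φ(inr c)` at `x`: `∑_E(D_8)_{cE}∂_8^E u = -∑_{j<8}∑_E(D_j)_{cE}∂_j^Eu - ∑f(inr c)(inr E)(inr G)w_{jE}∂_j^Gu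
- ∑f(inr c)(inr E)(inl A)w_{jE}∂_j^Au - i𝒮_Cu`; multiply with `D_8⁻¹` and insert into `-i∑(γ^8θ^B)_β∂_8^Bu`.
(3) `√J∂_i^A v = ∂_i^A(√Jv) - (∂_i^A√J)v`, `J` depends on `y_8` only, `∂√J = ½√J∂log J`. -/
def DecStmt (S : Setup d F) : Prop := ∀ (dh dm : ℕ) (φ : Spl dh dm d), S.IsSub φ →
  ∀ u : Cfg d → F, ContDiff ℝ ∞ u → (∀ C x, S.G C u x = 0) →
  ∀ (β : Fin 16) (y : Cfg dh) (w : Wsp dm), (S.Dy φ 8 y).det ≠ 0 →
    S.res φ (S.Q β u) y w = S.Qh φ β (S.res φ u) y w + S.Q1 φ β (S.res φ u) y w + S.Qr φ β (S.res φ u) y w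

/-- **A4** bounds near the reference point, uniform in the scale `R`. PROOF: homogeneity (`Dy` linear in `y`, `J` homogeneous of
degree `dm`) reduces to `R = 1`; continuity of the inverse and compactness. -/
def BdStmt (S : Setup d F) : Prop := ∀ (dh dm : ℕ) (φ : Spl dh dm d) (y₀ : Cfg dh), Std S φ y₀ →
  ∃ ε C : ℝ, 0 < ε ∧ 0 < C ∧ ∀ (R : ℝ) (y : Cfg dh), 0 < R → ‖y - R • y₀‖ ≤ ε * R →
    (S.Dy φ 8 y).det ≠ 0 ∧
    (∀ z : Fin dm → ℝ, R ^ 2 * ∑ B, z B ^ 2 ≤ C * ∑ B, (∑ E, S.Dy φ 8 y B E * z E) ^ 2) ∧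
    (∀ i (z : Fin dm → ℝ), ∑ B, (∑ E, S.Dy φ i y B E * z E) ^ 2 ≤ C * R ^ 2 * ∑ B, z B ^ 2) ∧
    (∀ B E, |(S.Dy φ 8 y)⁻¹ B E| ≤ C / R) ∧
    (∀ A, |fderiv ℝ (fun y' => Real.log (S.Jd φ y')) y (EuclideanSpace.single ((8 : Fin 9), A) 1)| ≤ C / R) ∧
    ∀ (w : Wsp dm), ‖w‖ ≤ ε * R → ∀ (v : Cfg dh → Wsp dm → F) (β : Fin 16),
      ‖S.Qr φ β v y w‖ ≤ C * (‖w‖ / R * ((∑ i, ∑ A, ‖py i A v y w‖) + ∑ j, ∑ B, ‖pw j B v y w‖) +
        (1 / R + ‖w‖ ^ 2) * ‖v y w‖)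

/-- an element of `m` as a colour vector -/
noncomputable def exm (φ : Spl dh dm d) (a : EuclideanSpace ℝ (Fin dm)) : Fin d → ℝ :=
  fun A => Sum.elim (fun _ => 0) (fun B => a B) (φ.symm A)

/-- tube coordinates `(a, y, w) ↦ exp(ad a) emb φ y w` -/
noncomputable def tub (S : Setup d F) (φ : Spl dh dm d) (a : EuclideanSpace ℝ (Fin dm)) (p : Cfg dh × Wsp dm) : Cfg d :=
  ro (NormedSpace.exp (S.adm (exm φ a))) (emb φ p.1 p.2)

/-- slice ball at scale `R` -/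
def Nb (y₀ : Cfg dh) (dm : ℕ) (R ε : ℝ) : Set (Cfg dh × Wsp dm) :=
  {p | ‖p.1 - R • y₀‖ < ε * R ∧ ‖p.2‖ < ε * R}

/-- tube at scale `R` -/
def Tube (S : Setup d F) (φ : Spl dh dm d) (y₀ : Cfg dh) (R ε ρ : ℝ) : Set (Cfg d) :=
  {x | ∃ a, ‖a‖ < ρ ∧ ∃ p ∈ Nb y₀ dm R ε, x = tub S φ a p}

/-- **A5** tube coordinates. For small `ε`, `ρ`: the tube is open, contains a ball of radius `δR` around `R·Y`, the coordinates are
injective, and for functions constant along the gauge directions the integral over the tube is `c ×` the integral over the slice with the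
density `J`; `c > 0` does not depend on `R` and `f`.
PROOF. Everything is homogeneous: `tub a (Rp) = R tub a p`; so `R = 1`. Derivative of `tub` at `(0,y₀,0)`: `(α,η,ω) ↦ [α,Y] + emb φ η ω`;
its component in the directions `(8, inr B)` is `∓D_8(y₀)α`, so it is bijective (`cen`, `inv`); inverse function theorem.
JACOBIAN: `∂_α exp(ad a) = exp(ad a)·ad(ω_a(α))`, `ω_a(α) = ∫_0^1 exp(-τ ad a)α dτ`; hence
`D tub(a,s)(α,σ) = exp(ad a)([ω_a(α),s] + σ)`, `exp(ad a)` orthogonal; the map `(α,σ) ↦ [ω_a(α),s] + σ` is block triangular w.r.t. slice ⊕ directions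
`(8, inr B)`, and the `(8,m)`-component of `[ω_a(α),s]` is `∓D_8(y)(ω_a(α))_m` because `[h,h] ⊂ h`. So
`|det D tub(a,y,w)| = J(y)·j(a)`, `j(a) = |det(P_mω_a|_m)|`, continuous, `j(0) = 1`, and `c = ∫_{|a|<ρ}j`. (It is enough to know that
`exp(-ad a)∂_α exp(ad a)` is `ad` of some vector depending linearly on `α` and continuously on `a`.) Change of variables
(`MeasureTheory.lintegral_image_eq_lintegral_abs_det_fderiv_mul`) and Fubini. -/
def TubeStmt (S : Setup d F) : Prop := ∀ (dh dm : ℕ) (φ : Spl dh dm d) (y₀ : Cfg dh), Std S φ y₀ →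
  ∃ ε₀ ρ₀ : ℝ, 0 < ε₀ ∧ 0 < ρ₀ ∧ ∀ ε ρ : ℝ, 0 < ε → ε ≤ ε₀ → 0 < ρ → ρ ≤ ρ₀ →
    ∃ c δ : ℝ, 0 < c ∧ 0 < δ ∧ ∀ R : ℝ, 0 < R →
      IsOpen (Tube S φ y₀ R ε ρ) ∧ Metric.ball (R • emb φ y₀ 0) (δ * R) ⊆ Tube S φ y₀ R ε ρ ∧
      (∀ a a' p p', ‖a‖ < ρ → ‖a'‖ < ρ → p ∈ Nb y₀ dm R ε → p' ∈ Nb y₀ dm R ε →
        tub S φ a p = tub S φ a' p' → a = a' ∧ p = p') ∧
      ∀ f : Cfg d → ENNReal, Measurable f →
        (∀ a p, ‖a‖ < ρ → p ∈ Nb y₀ dm R ε → f (tub S φ a p) = f (emb φ p.1 p.2)) →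
        ∫⁻ x in Tube S φ y₀ R ε ρ, f x =
          ENNReal.ofReal c * ∫⁻ p in Nb y₀ dm R ε, f (emb φ p.1 p.2) * ENNReal.ofReal (S.Jd φ p.1) ∂(volume.prod volume)

/-- **A6** norms of invariant functions and of their supercharges over the tube, in slice coordinates (with the same `c`).
PROOF: A5 with `f = ‖u‖²`, `‖Q_βu‖²`: `u` and `Q_βu` (by `A3Stmt`: `[G_C,Q_β] = 0`) are gauge invariant test functions, so their norms are
constant along `exp(ad a)` (`Z/U/GrpExp`: `gx983_norm`, `exp_mem`), and A3 for `res(Q_βu)`; `‖res u‖² = J‖u∘emb‖²`. -/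
def NormStmt (S : Setup d F) : Prop := ∀ (dh dm : ℕ) (φ : Spl dh dm d) (y₀ : Cfg dh), Std S φ y₀ →
  ∃ ε₀ ρ₀ : ℝ, 0 < ε₀ ∧ 0 < ρ₀ ∧ ∀ ε ρ : ℝ, 0 < ε → ε ≤ ε₀ → 0 < ρ → ρ ≤ ρ₀ →
    ∃ c δ : ℝ, 0 < c ∧ 0 < δ ∧ ∀ R : ℝ, 0 < R →
      Metric.ball (R • emb φ y₀ 0) (δ * R) ⊆ Tube S φ y₀ R ε ρ ∧
      ∀ u : Cfg d → F, Setup.Tst u → (∀ C x, S.G C u x = 0) →
        (∫ x in Tube S φ y₀ R ε ρ, ‖u x‖ ^ 2 =
          c * ∫ p in Nb y₀ dm R ε, ‖S.res φ u p.1 p.2‖ ^ 2 ∂(volume.prod volume)) ∧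
        ∀ β, ∫ x in Tube S φ y₀ R ε ρ, ‖S.Q β u x‖ ^ 2 =
          c * ∫ p in Nb y₀ dm R ε, ‖S.Qh φ β (S.res φ u) p.1 p.2 + S.Q1 φ β (S.res φ u) p.1 p.2 +
            S.Qr φ β (S.res φ u) p.1 p.2‖ ^ 2 ∂(volume.prod volume)

/-- the algebra has no centre -/
def Cless (S : Setup d F) : Prop := ∀ v : Fin d → ℝ, (∀ B C, ∑ A, S.f A B C * v A = 0) → v = 0

/-- **A7** finite cover: for `0 < ε ≤ L` the points with `εR ≤ |x| ≤ LR` and small potential lie in finitely many tubes (in rotated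
frames), at every scale `R`. The tube parameters may be prescribed as functions of the standard position (e.g. the `ε`, `ρ` of the crude bound).
PROOF: the compact set `{Y : V(Y) = 0, ε ≤ |Y| ≤ L}` is covered by the open sets `rox⁻¹(Tube(Y,1))` of A2, A5 (`Y` itself lies in the tube,
A5 ball); finite subcover; `V ≥ η` on the rest of the compact shell; homogeneity `V(Rx) = R⁴V(x)`. -/
def CovStmt (S : Setup d F) : Prop := Cless S →
  ∀ P : ∀ (R : Matrix (Fin 9) (Fin 9) ℝ) (O : Matrix (Fin d) (Fin d) ℝ) (dh dm : ℕ) (_ : Spl dh dm d) (_ : Cfg dh) (_ _ : ℝ), Prop,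
  (∀ (R : Matrix (Fin 9) (Fin 9) ℝ) (hR : R * R.transpose = 1) (O : Matrix (Fin d) (Fin d) ℝ) (hO : O * O.transpose = 1)
    (dh dm : ℕ) (φ : Spl dh dm d) (y : Cfg dh), Std (S.rot R hR O hO) φ y → 0 < dm → y ≠ 0 →
    ∃ r δ : ℝ, 0 < r ∧ 0 < δ ∧ P R O dh dm φ y r δ) →
  ∀ ε L : ℝ, 0 < ε → ε ≤ L → ∃ (n : ℕ) (η : ℝ), 0 < η ∧
    ∃ (Rr : Fin n → Matrix (Fin 9) (Fin 9) ℝ) (Oo : Fin n → Matrix (Fin d) (Fin d) ℝ) (dhs dms : Fin n → ℕ)
      (φs : ∀ k, Spl (dhs k) (dms k) d) (ys : ∀ k, Cfg (dhs k)) (rs δs : Fin n → ℝ),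
      (∀ k, ∃ (hR : Rr k * (Rr k).transpose = 1) (hO : Oo k * (Oo k).transpose = 1),
        Std (S.rot (Rr k) hR (Oo k) hO) (φs k) (ys k) ∧ 0 < dms k ∧ 0 < δs k ∧
        P (Rr k) (Oo k) (dhs k) (dms k) (φs k) (ys k) (rs k) (δs k)) ∧
      ∀ (s : ℝ) (x : Cfg d), 0 < s → ε * s ≤ ‖x‖ → ‖x‖ ≤ L * s → S.V x ≤ η * s ^ 4 →
        ∃ k, rox (Rr k) (Oo k) x ∈ Metric.ball (s • emb (φs k) (ys k) 0) (δs k * s)

end Vale.Agent.P353.Z.AN
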