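import Vale.Agent.P353.AN.A.Stmt

/-! # P353, all `N`, block A: operators on the slice (symmetry, cutoffs, invariance under `h`) -/

open MeasureTheory Filter Topology
open scoped ContDiff

namespace Vale.Agent.P353.Z.AN

variable {d dh dm : ℕ} {F : Type*} [NormedAddCommGroup F] [InnerProductSpace ℂ F]

/-- exact supercharge on the slice, `Q^h + Q^1 + Q^r` -/
noncomputable def Qs (S : Setup d F) (φ : Spl dh dm d) (β : Fin 16) (v : Cfg dh → Wsp dm → F) (y : Cfg dh)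
    (w : Wsp dm) : F := S.Qh φ β v y w + S.Q1 φ β v y w + S.Qr φ β v y w

/-- gauge generator of `h` on slice functions -/
noncomputable def Gh (S : Setup d F) (φ : Spl dh dm d) (C : Fin dh) (v : Cfg dh → Wsp dm → F) (y : Cfg dh)
    (w : Wsp dm) : F :=
  (-Complex.I) • (∑ i, ∑ A, ∑ B, ((S.f (φ (Sum.inl C)) (φ (Sum.inl A)) (φ (Sum.inl B)) * y (i, A) : ℝ) : ℂ) •
      py i B v y w) +
    (-Complex.I) • (∑ j, ∑ A, ∑ B, ((S.f (φ (Sum.inl C)) (φ (Sum.inr A)) (φ (Sum.inr B)) * w (j, A) : ℝ) : ℂ) •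
      pw j B v y w) + S.cS (φ (Sum.inl C)) (v y w)

/-- smooth slice functions on the open set `det D_8 ≠ 0` -/
def Sm (S : Setup d F) (φ : Spl dh dm d) (v : Cfg dh → Wsp dm → F) : Prop :=
  ContDiffOn ℝ ∞ (fun p : Cfg dh × Wsp dm => v p.1 p.2) {p | (S.Dy φ 8 p.1).det ≠ 0}

/-- slice test functions supported in `det D_8 ≠ 0` -/
def Ts (S : Setup d F) (φ : Spl dh dm d) (v : Cfg dh → Wsp dm → F) : Prop :=
  ContDiff ℝ ∞ (fun p : Cfg dh × Wsp dm => v p.1 p.2) ∧ HasCompactSupport (fun p : Cfg dh × Wsp dm => v p.1 p.2) ∧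
    tsupport (fun p : Cfg dh × Wsp dm => v p.1 p.2) ⊆ {p | (S.Dy φ 8 p.1).det ≠ 0}

/-- **A8** the restriction of an invariant smooth function is smooth and annihilated by `G_C^h`. PROOF: `J > 0` is smooth on the set
(`|det|`, `det ≠ 0`); `G_C u = 0` at `emb φ y w` for `C = φ(inl c)`: `f(inl,inl,inr) = 0` kills the mixed terms, `w_8 = 0`;
`J` is `h`-invariant: `∑f_{CAB}y_8^A∂_8^BD_8 = [ad e_C|_m, D_8]` (up to sign, Jacobi and `IsSub`), `tr(D_8⁻¹[X,D_8]) = 0`. -/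
def GhStmt (S : Setup d F) : Prop := ∀ (dh dm : ℕ) (φ : Spl dh dm d), S.IsSub φ →
  ∀ u : Cfg d → F, ContDiff ℝ ∞ u → Sm S φ (S.res φ u) ∧
    ((∀ C x, S.G C u x = 0) → ∀ (C : Fin dh) (y : Cfg dh) (w : Wsp dm), (S.Dy φ 8 y).det ≠ 0 →
      Gh S φ C (S.res φ u) y w = 0)

/-- **A9** the slice supercharge is symmetric on ALL slice test functions (no invariance needed).
PROOF: integrate by parts (`Vale/Agent/P353/Z/Tools`, `Loc`). `Q^h`, `Q^1`: constant resp. `w`-independent real coefficients, `θ` self-adjoint,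
`γ`, `γ^{ij}` real. `Q^r`: the coefficients of `∂_j^A` (`j < 8`) do not depend on `y_j^A`, `j < 8`, the coefficient `f(C)(E)(G)w_{jE}` of
`∂_{jG}` has no divergence (`f_{CGG} = 0`). Zero order part: `-D⁻¹_{BC}(γ^8θ^B)𝒮_C` has adjoint minus itself
`= -D⁻¹_{BC}[𝒮_C, γ^8θ^B] = -iD⁻¹_{BC}f_{CBE}γ^8θ^E` (`[𝒮_C,θ^A] = i f_{CAB}θ^B`, `Z/U/A2`): for `E ∈ h` it is
`+i∂_8^E log J γ^8θ^E`, cancelled by the last term of `Q^r`; for `E ∈ m` the functional `E ↦ ∑D⁻¹_{BC}f_{CBE}` is invariant under `ad y_8`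
(`D_8⁻¹` commutes with `D_8`; Jacobi) and `ad y_8` is invertible on `m`, so it vanishes. -/
def SymStmt (S : Setup d F) : Prop := ∀ (dh dm : ℕ) (φ : Spl dh dm d), S.IsSub φ →
  ∀ (ζ v : Cfg dh → Wsp dm → F), Ts S φ ζ → Sm S φ v → ∀ β,
    ∫ p, inner ℂ (Qs S φ β ζ p.1 p.2) (v p.1 p.2) ∂((volume : Measure (Cfg dh)).prod (volume : Measure (Wsp dm))) =
      ∫ p, inner ℂ (ζ p.1 p.2) (Qs S φ β v p.1 p.2) ∂((volume : Measure (Cfg dh)).prod (volume : Measure (Wsp dm)))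

/-- **A10** cutoffs: the commutator with a function is bounded by its gradient. PROOF: Leibniz rule, A4 bounds. -/
def CutStmt (S : Setup d F) : Prop := ∀ (dh dm : ℕ) (φ : Spl dh dm d) (y₀ : Cfg dh), Std S φ y₀ →
  ∃ ε C : ℝ, 0 < ε ∧ 0 < C ∧ ∀ (R : ℝ) (y : Cfg dh) (w : Wsp dm), 0 < R → ‖y - R • y₀‖ < ε * R → ‖w‖ < ε * R →
    ∀ (χ : Cfg dh × Wsp dm → ℝ) (v : Cfg dh → Wsp dm → F), ContDiff ℝ ∞ χ → Sm S φ v → ∀ β,
      ‖Qs S φ β (fun y' w' => ((χ (y', w') : ℝ) : ℂ) • v y' w') y w - ((χ (y, w) : ℝ) : ℂ) • Qs S φ β v y w‖ ≤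
        C * ‖fderiv ℝ χ (y, w)‖ * ‖v y w‖

end Vale.Agent.P353.Z.AN
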