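import Vale.Agent.P353.AN.A.Stmt

/-! # P353, all `N`, block A: tube coordinates — leaves of `TubeStmt` -/

open MeasureTheory Filter Topology
open scoped ContDiff

namespace Vale.Agent.P353.Z.AN

variable {d dh dm : ℕ} {F : Type*} [NormedAddCommGroup F] [InnerProductSpace ℂ F]

/-- coordinates `z_8^{inr B}` -/
noncomputable def zm (φ : Spl dh dm d) (z : Cfg d) : EuclideanSpace ℝ (Fin dm) :=
  WithLp.toLp 2 fun B => z (8, φ (Sum.inr B))

/-- coordinates `z_i^{inl A}` -/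
noncomputable def zy (φ : Spl dh dm d) (z : Cfg d) : Cfg dh :=
  WithLp.toLp 2 fun p => z (p.1, φ (Sum.inl p.2))

/-- coordinates `z_j^{inr B}`, `j < 8` -/
noncomputable def zw (φ : Spl dh dm d) (z : Cfg d) : Wsp dm :=
  WithLp.toLp 2 fun p => z (p.1.castSucc, φ (Sum.inr p.2))

/-- tube coordinates on `Cfg d` (`a = z_8|_m`) -/
noncomputable def tz (S : Setup d F) (φ : Spl dh dm d) (z : Cfg d) : Cfg d := tub S φ (zm φ z) (zy φ z, zw φ z)

/-- `ω_a(α) = ∫_0^1 exp(-τ ad a) α dτ` -/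
noncomputable def om (S : Setup d F) (a α : Fin d → ℝ) : Fin d → ℝ := fun A =>
  ∫ τ in (0 : ℝ)..1, (NormedSpace.exp (-(τ • S.adm a))).mulVec α A

/-- **A5a** derivative of `exp(ad a)`. PROOF. Duhamel: for matrices `exp(A+B) - exp A = ∫_0^1 exp(s(A+B))·B·exp((1-s)A) ds`
(derivative of `s ↦ exp(s(A+B))exp((1-s)A)`), so `d/dt exp(A+tB)|_0 = ∫_0^1 exp(sA)B exp((1-s)A)ds = exp A·∫_0^1 exp(-τA)B exp(τA)dτ`
(`τ = 1-s`; `exp` is analytic, or dominated convergence). `exp(-τ ad a)·ad α·exp(τ ad a) = ad(exp(-τ ad a)α)`: both sides satisfy the same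
linear ODE since `[ad a, ad v] = ad((ad a)v)` (Jacobi); `adm` is linear. Smoothness: `NormedSpace.exp` is analytic. -/
def DexpStmt (S : Setup d F) : Prop :=
  (∀ (a α : Fin d → ℝ) (x : Cfg d), HasDerivAt (fun t : ℝ => ro (NormedSpace.exp (S.adm (a + t • α))) x)
    (ro (NormedSpace.exp (S.adm a)) (ro (S.adm (om S a α)) x)) 0) ∧
  ContDiff ℝ ∞ (fun p : (Fin d → ℝ) × Cfg d => ro (NormedSpace.exp (S.adm p.1)) p.2) ∧
  (∀ α, Continuous fun a => om S a α) ∧ (∀ a, IsLinearMap ℝ (om S a)) ∧ (∀ α, om S 0 α = α) ∧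
  ∀ a, NormedSpace.exp (S.adm a) * (NormedSpace.exp (S.adm a)).transpose = 1

/-- **A5b** Jacobian of the tube coordinates. PROOF (from `DexpStmt`). `D tz(z)ζ = ro(exp(ad a))([ω_a(α), s] + σ)`, `α = exm (zm ζ)`, `a = exm (zm z)`,
`s = emb (zy z) (zw z)`, `σ = emb (zy ζ)(zw ζ)`. `exp(ad a)` is orthogonal, `|det ro(O)| = |det O|^9 = 1`. The map `ζ ↦ [ω_a(α), s] + σ` is the identity
on the slice directions and its `(8,m)`-block is `∓D_8(y)∘P_mω_a|_m` (`[h,h] ⊂ h` by `IsSub`, `s_8 ∈ h`), so `|det| = J(y)|j(a)|`,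
`j(a) = det(P_mω_a|_m)` (matrix `om S (exm a) (exm e_B)` at `φ(inr C)`). -/
def DetStmt (S : Setup d F) : Prop := ∀ (dh dm : ℕ) (φ : Spl dh dm d), S.IsSub φ →
  ContDiff ℝ ∞ (tz S φ) ∧ ∃ j : EuclideanSpace ℝ (Fin dm) → ℝ, Continuous j ∧ j 0 = 1 ∧
    ∀ z, |(fderiv ℝ (tz S φ) z).det| = S.Jd φ (zy φ z) * |j (zm φ z)|

/-- **A5c** the coordinates are a measure preserving linear isomorphism (a permutation of the coordinates) -/
def CooStmt : Prop := ∀ (d dh dm : ℕ) (φ : Spl dh dm d),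
  ∃ e : Cfg d ≃L[ℝ] EuclideanSpace ℝ (Fin dm) × (Cfg dh × Wsp dm), (∀ z, e z = (zm φ z, (zy φ z, zw φ z))) ∧
    MeasurePreserving e volume (volume.prod (volume.prod volume))

/-- **A5d** injectivity, openness, ball at scale 1. PROOF (from `DetStmt`): inverse function theorem at `z₀ = emb φ y₀ 0` (`zm = 0`,
`tz z₀ = z₀`, `|det D tz(z₀)| = J(y₀) ≠ 0`): a local homeomorphism; take the boxes inside its source. -/
def InjStmt (S : Setup d F) : Prop := ∀ (dh dm : ℕ) (φ : Spl dh dm d) (y₀ : Cfg dh), Std S φ y₀ →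
  ∃ ε₀ ρ₀ : ℝ, 0 < ε₀ ∧ 0 < ρ₀ ∧ ∀ ε ρ : ℝ, 0 < ε → ε ≤ ε₀ → 0 < ρ → ρ ≤ ρ₀ → ∃ δ : ℝ, 0 < δ ∧
    IsOpen (Tube S φ y₀ 1 ε ρ) ∧ Metric.ball (emb φ y₀ 0) δ ⊆ Tube S φ y₀ 1 ε ρ ∧
      (∀ a a' p p', ‖a‖ < ρ → ‖a'‖ < ρ → p ∈ Nb y₀ dm 1 ε → p' ∈ Nb y₀ dm 1 ε →
        tub S φ a p = tub S φ a' p' → a = a' ∧ p = p')

/-- **A5e** assembly. PROOF: `tub a (Rp) = R·tub a p` (so `R = 1` for the topological part); change of variables
`MeasureTheory.lintegral_image_eq_lintegral_abs_det_fderiv_mul` for `tz` on the preimage box (`CooStmt`), `J(y)|j(a)|` splits (Tonelli),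
`c = ∫_{|a|<ρ}|j(a)| da > 0` (finite: `j` continuous, bounded on the closed ball). Shrink `ε₀`, `ρ₀` as in A5d. -/
def TubeOfStmt (S : Setup d F) : Prop := DetStmt S → CooStmt → InjStmt S → TubeStmt S

end Vale.Agent.P353.Z.AN
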