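import Vale.Agent.P353.AN.A.SymCoef

/-! # P353, all `N`, block A, A9: symmetry of the slice supercharge -/

open MeasureTheory Filter Topology
open scoped ContDiff

namespace Vale.Agent.P353.Z.AN.Sy

variable {d dh dm : ℕ} {F : Type*} [NormedAddCommGroup F] [InnerProductSpace ℂ F]

lemma mulap (A B : F →L[ℂ] F) (x : F) : (A * B) x = A (B x) := rfl

omit [InnerProductSpace ℂ F] in
lemma swap3 {a b c : ℕ} (X : Fin a → Fin b → Fin c → F) :
    ∑ B, ∑ C, ∑ A, X B C A = ∑ A, ∑ B, ∑ C, X B C A := by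
  calc _ = ∑ B, ∑ A, ∑ C, X B C A := Finset.sum_congr rfl fun B _ => Finset.sum_comm
    _ = _ := Finset.sum_comm

section Exp

variable (S : Setup d F) (φ : Spl dh dm d)

/-- coefficients of the zero order parts -/
noncomputable def r1 (A : Fin dh) (i j : Fin 9) (p : Cfg dh × Wsp dm) : ℝ :=
  S.κ * ∑ B, ∑ C, S.f (φ (Sum.inl A)) (φ (Sum.inl B)) (φ (Sum.inl C)) * p.1 (i, B) * p.1 (j, C)

noncomputable def r2 (B : Fin dm) (i j : Fin 9) (p : Cfg dh × Wsp dm) : ℝ := S.FL φ B i j p.1 p.2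

noncomputable def r3 (A : Fin dh) (i j : Fin 9) (p : Cfg dh × Wsp dm) : ℝ :=
  S.κ * ∑ B, ∑ C, S.f (φ (Sum.inl A)) (φ (Sum.inr B)) (φ (Sum.inr C)) * wt p.2 i B * wt p.2 j C

noncomputable def r4 (A : Fin dm) (i j : Fin 9) (p : Cfg dh × Wsp dm) : ℝ :=
  S.κ * ∑ B, ∑ C, S.f (φ (Sum.inr A)) (φ (Sum.inr B)) (φ (Sum.inr C)) * wt p.2 i B * wt p.2 j C

noncomputable def c4 (B C : Fin dm) (j : Fin 8) (E : Fin dm) (p : Cfg dh × Wsp dm) : ℝ :=
  -((S.Dy φ 8 p.1)⁻¹ B C * S.Dy φ j.castSucc p.1 C E)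

noncomputable def c6 (B C : Fin dm) (j : Fin 8) (E : Fin dm) (A : Fin dh) (p : Cfg dh × Wsp dm) : ℝ :=
  -((S.Dy φ 8 p.1)⁻¹ B C * (S.f (φ (Sum.inr C)) (φ (Sum.inr E)) (φ (Sum.inl A)) * p.2 (j, E)))

noncomputable def c7 (B C : Fin dm) (j : Fin 8) (E G : Fin dm) (p : Cfg dh × Wsp dm) : ℝ :=
  -((S.Dy φ 8 p.1)⁻¹ B C * (S.f (φ (Sum.inr C)) (φ (Sum.inr E)) (φ (Sum.inr G)) * p.2 (j, E)))

noncomputable def c8 (B C : Fin dm) (p : Cfg dh × Wsp dm) : ℝ := -((S.Dy φ 8 p.1)⁻¹ B C)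

noncomputable def c9 (A : Fin dh) (p : Cfg dh × Wsp dm) : ℝ :=
  fderiv ℝ (fun y' => Real.log (S.Jd φ y')) p.1 (EuclideanSpace.single ((8 : Fin 9), A) 1)

lemma Qs_exp (β : Fin 16) (v : Cfg dh → Wsp dm → F) (p : Cfg dh × Wsp dm) : Qs S φ β v p.1 p.2 =
    (∑ i, ∑ A, (-Complex.I) • ((1 : ℝ) : ℂ) • S.vec (S.g i) (φ (Sum.inl A)) β (py i A v p.1 p.2)) +
    (∑ A, ∑ i, ∑ j, (1 / 2 : ℂ) • ((r1 S φ A i j p : ℝ) : ℂ) •
      S.vec (S.g2 i j) (φ (Sum.inl A)) β (v p.1 p.2)) +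
    (∑ j : Fin 8, ∑ B, (-Complex.I) • ((1 : ℝ) : ℂ) •
      S.vec (S.g j.castSucc) (φ (Sum.inr B)) β (pw j B v p.1 p.2)) +
    (∑ B, ∑ C, ∑ j : Fin 8, ∑ E, (-Complex.I) • ((c4 S φ B C j E p : ℝ) : ℂ) •
      S.vec (S.g 8) (φ (Sum.inr B)) β (pw j E v p.1 p.2)) +
    (∑ B, ∑ i, ∑ j, (1 / 2 : ℂ) • ((r2 S φ B i j p : ℝ) : ℂ) •
      S.vec (S.g2 i j) (φ (Sum.inr B)) β (v p.1 p.2)) +
    (∑ B, ∑ C, ∑ j : Fin 8, ∑ E, ∑ A, (-Complex.I) • ((c6 S φ B C j E A p : ℝ) : ℂ) •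
      S.vec (S.g 8) (φ (Sum.inr B)) β (py j.castSucc A v p.1 p.2)) +
    (∑ B, ∑ C, ∑ j : Fin 8, ∑ E, ∑ G, (-Complex.I) • ((c7 S φ B C j E G p : ℝ) : ℂ) •
      S.vec (S.g 8) (φ (Sum.inr B)) β (pw j G v p.1 p.2)) +
    (∑ B, ∑ C, (1 : ℂ) • ((c8 S φ B C p : ℝ) : ℂ) •
      (S.vec (S.g 8) (φ (Sum.inr B)) β * S.cS (φ (Sum.inr C))) (v p.1 p.2)) +
    (∑ A, ∑ i, ∑ j, (1 / 2 : ℂ) • ((r3 S φ A i j p : ℝ) : ℂ) •
      S.vec (S.g2 i j) (φ (Sum.inl A)) β (v p.1 p.2)) +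
    (∑ A, ∑ i, ∑ j, (1 / 2 : ℂ) • ((r4 S φ A i j p : ℝ) : ℂ) •
      S.vec (S.g2 i j) (φ (Sum.inr A)) β (v p.1 p.2)) +
    (∑ A, (Complex.I / 2) • ((c9 S φ A p : ℝ) : ℂ) • S.vec (S.g 8) (φ (Sum.inl A)) β (v p.1 p.2)) := by
  have e6 : Complex.I • (∑ B, S.vec (S.g 8) (φ (Sum.inr B)) β
      (∑ C, (((S.Dy φ 8 p.1)⁻¹ B C : ℝ) : ℂ) •
        ∑ j : Fin 8, ∑ E, ((S.Dy φ j.castSucc p.1 C E : ℝ) : ℂ) • pw j E v p.1 p.2)) =
      ∑ B, ∑ C, ∑ j : Fin 8, ∑ E, (-Complex.I) • ((c4 S φ B C j E p : ℝ) : ℂ) •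
      S.vec (S.g 8) (φ (Sum.inr B)) β (pw j E v p.1 p.2) := by
    simp only [Finset.smul_sum, map_sum, map_smul, smul_smul, c4]
    refine Finset.sum_congr rfl fun B _ => Finset.sum_congr rfl fun C _ =>
      Finset.sum_congr rfl fun j _ => Finset.sum_congr rfl fun E _ => ?_
    congr 1
    push_cast
    ring
  have e7 : Complex.I • (∑ B, S.vec (S.g 8) (φ (Sum.inr B)) β
      (∑ C, (((S.Dy φ 8 p.1)⁻¹ B C : ℝ) : ℂ) •
      ((∑ j : Fin 8, ∑ E, ∑ A, ((S.f (φ (Sum.inr C)) (φ (Sum.inr E)) (φ (Sum.inl A)) * p.2 (j, E) : ℝ) : ℂ) •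
          py j.castSucc A v p.1 p.2) +
        (∑ j : Fin 8, ∑ E, ∑ G, ((S.f (φ (Sum.inr C)) (φ (Sum.inr E)) (φ (Sum.inr G)) * p.2 (j, E) : ℝ) : ℂ) •
          pw j G v p.1 p.2) +
        Complex.I • S.cS (φ (Sum.inr C)) (v p.1 p.2)))) =
    (∑ B, ∑ C, ∑ j : Fin 8, ∑ E, ∑ A, (-Complex.I) • ((c6 S φ B C j E A p : ℝ) : ℂ) •
      S.vec (S.g 8) (φ (Sum.inr B)) β (py j.castSucc A v p.1 p.2)) +
    (∑ B, ∑ C, ∑ j : Fin 8, ∑ E, ∑ G, (-Complex.I) • ((c7 S φ B C j E G p : ℝ) : ℂ) •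
      S.vec (S.g 8) (φ (Sum.inr B)) β (pw j G v p.1 p.2)) +
    (∑ B, ∑ C, (1 : ℂ) • ((c8 S φ B C p : ℝ) : ℂ) •
      (S.vec (S.g 8) (φ (Sum.inr B)) β * S.cS (φ (Sum.inr C))) (v p.1 p.2)) := by
    simp only [Finset.smul_sum, map_sum, map_smul, map_add, smul_add, smul_smul, c6, c7, c8,
      Finset.sum_add_distrib]
    congr 1
    · congr 1
      · refine Finset.sum_congr rfl fun B _ => Finset.sum_congr rfl fun C _ =>
          Finset.sum_congr rfl fun j _ => Finset.sum_congr rfl fun E _ =>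
          Finset.sum_congr rfl fun A _ => ?_
        congr 1
        push_cast
        ring
      · refine Finset.sum_congr rfl fun B _ => Finset.sum_congr rfl fun C _ =>
          Finset.sum_congr rfl fun j _ => Finset.sum_congr rfl fun E _ =>
          Finset.sum_congr rfl fun A _ => ?_
        congr 1
        push_cast
        ring
    · refine Finset.sum_congr rfl fun B _ => Finset.sum_congr rfl fun C _ => ?_
      rw [mulap]
      congr 1
      push_cast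
      linear_combination ((((S.Dy φ 8 p.1)⁻¹ B C : ℝ)) : ℂ) * Complex.I_mul_I
  unfold Qs Setup.Qh Setup.Q1 Setup.Qr
  rw [e6, e7]
  simp only [Finset.smul_sum, Complex.ofReal_one, one_smul, r1, r2, r3, r4, c9]
  abel

/-! ### smoothness -/

/-- the open set -/
def Om : Set (Cfg dh × Wsp dm) := {p | (S.Dy φ 8 p.1).det ≠ 0}

lemma sm_r1 (A : Fin dh) (i j : Fin 9) : Continuous (r1 S φ A i j : Cfg dh × Wsp dm → ℝ) := by
  unfold r1
  refine ContDiff.continuous (𝕜 := ℝ) (n := ∞) ?_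
  exact contDiff_const.mul (ContDiff.sum fun B _ => ContDiff.sum fun C _ =>
    (contDiff_const.mul (contDiff_y _)).mul (contDiff_y _))

lemma sm_r2 (B : Fin dm) (i j : Fin 9) : Continuous (r2 S φ B i j : Cfg dh × Wsp dm → ℝ) := by
  unfold r2 Setup.FL
  refine ContDiff.continuous (𝕜 := ℝ) (n := ∞) ?_
  refine contDiff_const.mul (ContDiff.sub (ContDiff.sum fun C _ => ?_) (ContDiff.sum fun C _ => ?_))
  · exact ((contDiff_Dy S φ i B C).comp contDiff_fst).mul (contDiff_wt j C)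
  · exact ((contDiff_Dy S φ j B C).comp contDiff_fst).mul (contDiff_wt i C)

lemma sm_r3 (A : Fin dh) (i j : Fin 9) : Continuous (r3 S φ A i j : Cfg dh × Wsp dm → ℝ) := by
  unfold r3
  refine ContDiff.continuous (𝕜 := ℝ) (n := ∞) ?_
  exact contDiff_const.mul (ContDiff.sum fun B _ => ContDiff.sum fun C _ =>
    (contDiff_const.mul (contDiff_wt _ _)).mul (contDiff_wt _ _))

lemma sm_r4 (A : Fin dm) (i j : Fin 9) : Continuous (r4 S φ A i j : Cfg dh × Wsp dm → ℝ) := by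
  unfold r4
  refine ContDiff.continuous (𝕜 := ℝ) (n := ∞) ?_
  exact contDiff_const.mul (ContDiff.sum fun B _ => ContDiff.sum fun C _ =>
    (contDiff_const.mul (contDiff_wt _ _)).mul (contDiff_wt _ _))

lemma sm_c4 (B C : Fin dm) (j : Fin 8) (E : Fin dm) : ContDiffOn ℝ ∞ (c4 S φ B C j E) (Om S φ) :=
  ((contDiffOn_Di S φ B C).mul ((contDiff_Dy S φ j.castSucc C E).comp contDiff_fst).contDiffOn).neg

lemma sm_c6 (B C : Fin dm) (j : Fin 8) (E : Fin dm) (A : Fin dh) :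
    ContDiffOn ℝ ∞ (c6 S φ B C j E A) (Om S φ) :=
  ((contDiffOn_Di S φ B C).mul (contDiff_const.mul (contDiff_w (j, E))).contDiffOn).neg

lemma sm_c7 (B C : Fin dm) (j : Fin 8) (E G : Fin dm) :
    ContDiffOn ℝ ∞ (c7 S φ B C j E G : Cfg dh × Wsp dm → ℝ) (Om S φ) :=
  ((contDiffOn_Di S φ B C).mul (contDiff_const.mul (contDiff_w (j, E))).contDiffOn).neg

lemma sm_c8 (B C : Fin dm) : ContinuousOn (c8 S φ B C) (Om S φ) :=
  (contDiffOn_Di S φ B C).continuousOn.neg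

lemma sm_c9 (A : Fin dh) : ContinuousOn (c9 S φ A : Cfg dh × Wsp dm → ℝ) (Om S φ) := by
  have h1 : ContinuousOn (fun p : Cfg dh × Wsp dm =>
      ∑ B, ∑ C, (S.Dy φ 8 p.1)⁻¹ B C * S.f (φ (Sum.inr C)) (φ (Sum.inl A)) (φ (Sum.inr B))) (Om S φ) :=
    continuousOn_finsetSum _ fun B _ => continuousOn_finsetSum _ fun C _ =>
      (contDiffOn_Di S φ B C).continuousOn.mul continuousOn_const
  exact h1.congr fun p hp => logJ S φ hp A

lemma d_c4 (B C : Fin dm) (j : Fin 8) (E : Fin dm) (e : Wsp dm) {p : Cfg dh × Wsp dm}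
    (hp : p ∈ Om S φ) : fderiv ℝ (c4 S φ B C j E) p (0, e) = 0 := by
  refine fd0 ?_ fun t => ?_
  · exact ((sm_c4 S φ B C j E).contDiffAt ((isOpen_Om S φ).mem_nhds hp)).differentiableAt (by simp)
  · simp [c4]

lemma d_c6 (B C : Fin dm) (j : Fin 8) (E : Fin dm) (A : Fin dh) {p : Cfg dh × Wsp dm}
    (hp : p ∈ Om S φ) :
    fderiv ℝ (c6 S φ B C j E A) p (EuclideanSpace.single (j.castSucc, A) 1, 0) = 0 := by
  refine fd0 ?_ fun t => ?_
  · exact ((sm_c6 S φ B C j E A).contDiffAt ((isOpen_Om S φ).mem_nhds hp)).differentiableAt (by simp)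
  · have hj : j.castSucc ≠ (8 : Fin 9) := Fin.castSucc_ne_last j
    simp only [c6, Prod.fst_add, Prod.smul_fst, Prod.snd_add, Prod.smul_snd, smul_zero, add_zero]
    rw [Dy_add_single S φ hj]

lemma d_c7 (B C : Fin dm) (j : Fin 8) (E G : Fin dm) {p : Cfg dh × Wsp dm}
    (hp : p ∈ Om S φ) :
    fderiv ℝ (c7 S φ B C j E G : Cfg dh × Wsp dm → ℝ) p (0, EuclideanSpace.single (j, G) 1) = 0 := by
  refine fd0 ?_ fun t => ?_
  · exact ((sm_c7 S φ B C j E G).contDiffAt ((isOpen_Om S φ).mem_nhds hp)).differentiableAt (by simp)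
  · simp only [c7, Prod.fst_add, Prod.smul_fst, Prod.snd_add, Prod.smul_snd, smul_zero, add_zero]
    by_cases hE : E = G
    · subst hE
      have h1 : S.f (φ (Sum.inr C)) (φ (Sum.inr E)) (φ (Sum.inr E)) = 0 := by
        have h2 := S.f_swap (φ (Sum.inr E)) (φ (Sum.inr E)) (φ (Sum.inr C))
        rw [S.f_cyc]
        linarith
      rw [h1]
      ring
    · have h1 : (p.2 + t • (EuclideanSpace.single (j, G) (1 : ℝ) : Wsp dm)) (j, E) = p.2 (j, E) := by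
        simp [hE]
      rw [h1]

end Exp

lemma sym_one (S : Setup d F) (φ : Spl dh dm d) (h : S.IsSub φ) (ζ v : Cfg dh → Wsp dm → F)
    (hζ : Ts S φ ζ) (hv : Sm S φ v) (β : Fin 16) :
    ∫ p, inner ℂ (Qs S φ β ζ p.1 p.2) (v p.1 p.2) ∂((volume : Measure (Cfg dh)).prod (volume : Measure (Wsp dm))) =
      ∫ p, inner ℂ (ζ p.1 p.2) (Qs S φ β v p.1 p.2) ∂((volume : Measure (Cfg dh)).prod (volume : Measure (Wsp dm))) := by
  set μ := (volume : Measure (Cfg dh)).prod (volume : Measure (Wsp dm)) with hμ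
  have hP : Pr (Om S φ) (fun p : Cfg dh × Wsp dm => ζ p.1 p.2) (fun p : Cfg dh × Wsp dm => v p.1 p.2) :=
    ⟨isOpen_Om S φ, hζ.1, hζ.2.1, hζ.2.2, hv⟩
  have hzd : ∀ p, DifferentiableAt ℝ (fun p : Cfg dh × Wsp dm => ζ p.1 p.2) p :=
    fun p => hζ.1.differentiable (by simp) p
  have hvd : ∀ p ∈ Om S φ, DifferentiableAt ℝ (fun p : Cfg dh × Wsp dm => v p.1 p.2) p := fun p hp =>
    (hv.contDiffAt ((isOpen_Om S φ).mem_nhds hp)).differentiableAt (by simp)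
  have hg : ∀ i A b (x y : F), inner ℂ (S.vec (S.g i) A b x) y = inner ℂ x (S.vec (S.g i) A b y) :=
    fun i A b x y => S.vec_symm _ (S.g_im i) A b x y
  have hg2 : ∀ i j A b (x y : F), inner ℂ (S.vec (S.g2 i j) A b x) y = inner ℂ x (S.vec (S.g2 i j) A b y) :=
    fun i j A b x y => S.vec_symm _ (S.g2_im i j) A b x y
  have hhalf : (starRingEnd ℂ) (1 / 2 : ℂ) = 1 / 2 := by norm_num [Complex.ext_iff]
  have t1 := IsG.sum (μ := μ) Finset.univ fun i : Fin 9 => IsG.sum Finset.univ fun A : Fin dh =>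
    hP.first0 (μ := μ) (S.vec (S.g i) (φ (Sum.inl A)) β) (hg _ _ _) (c := fun _ => (1 : ℝ))
      contDiffOn_const (EuclideanSpace.single (i, A) 1, 0) (fun p => py_eq i A (hzd p))
      (fun p hp => py_eq i A (hvd p hp)) (fun p _ => by simp)
  have t2 := IsG.sum (μ := μ) Finset.univ fun A : Fin dh => IsG.sum Finset.univ fun i : Fin 9 =>
    IsG.sum Finset.univ fun j : Fin 9 =>
    hP.zeroS (μ := μ) (S.vec (S.g2 i j) (φ (Sum.inl A)) β) (hg2 _ _ _ _)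
      (sm_r1 S φ A i j).continuousOn hhalf
  have t3 := IsG.sum (μ := μ) Finset.univ fun j : Fin 8 => IsG.sum Finset.univ fun B : Fin dm =>
    hP.first0 (μ := μ) (S.vec (S.g j.castSucc) (φ (Sum.inr B)) β) (hg _ _ _) (c := fun _ => (1 : ℝ))
      contDiffOn_const (0, EuclideanSpace.single (j, B) 1) (fun p => pw_eq j B (hzd p))
      (fun p hp => pw_eq j B (hvd p hp)) (fun p _ => by simp)
  have t4 := IsG.sum (μ := μ) Finset.univ fun B : Fin dm => IsG.sum Finset.univ fun C : Fin dm =>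
    IsG.sum Finset.univ fun j : Fin 8 => IsG.sum Finset.univ fun E : Fin dm =>
    hP.first0 (μ := μ) (S.vec (S.g 8) (φ (Sum.inr B)) β) (hg _ _ _)
      (sm_c4 S φ B C j E) (0, EuclideanSpace.single (j, E) 1) (fun p => pw_eq j E (hzd p))
      (fun p hp => pw_eq j E (hvd p hp)) (fun p hp => d_c4 S φ B C j E _ hp)
  have t5 := IsG.sum (μ := μ) Finset.univ fun B : Fin dm => IsG.sum Finset.univ fun i : Fin 9 =>
    IsG.sum Finset.univ fun j : Fin 9 =>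
    hP.zeroS (μ := μ) (S.vec (S.g2 i j) (φ (Sum.inr B)) β) (hg2 _ _ _ _)
      (sm_r2 S φ B i j).continuousOn hhalf
  have t6 := IsG.sum (μ := μ) Finset.univ fun B : Fin dm => IsG.sum Finset.univ fun C : Fin dm =>
    IsG.sum Finset.univ fun j : Fin 8 => IsG.sum Finset.univ fun E : Fin dm =>
    IsG.sum Finset.univ fun A : Fin dh =>
    hP.first0 (μ := μ) (S.vec (S.g 8) (φ (Sum.inr B)) β) (hg _ _ _)
      (sm_c6 S φ B C j E A) (EuclideanSpace.single (j.castSucc, A) 1, 0)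
      (fun p => py_eq j.castSucc A (hzd p))
      (fun p hp => py_eq j.castSucc A (hvd p hp)) (fun p hp => d_c6 S φ B C j E A hp)
  have t7 := IsG.sum (μ := μ) Finset.univ fun B : Fin dm => IsG.sum Finset.univ fun C : Fin dm =>
    IsG.sum Finset.univ fun j : Fin 8 => IsG.sum Finset.univ fun E : Fin dm =>
    IsG.sum Finset.univ fun G : Fin dm =>
    hP.first0 (μ := μ) (S.vec (S.g 8) (φ (Sum.inr B)) β) (hg _ _ _)
      (sm_c7 S φ B C j E G) (0, EuclideanSpace.single (j, G) 1)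
      (fun p => pw_eq j G (hzd p))
      (fun p hp => pw_eq j G (hvd p hp)) (fun p hp => d_c7 S φ B C j E G hp)
  have t8 := IsG.sum (μ := μ) Finset.univ fun B : Fin dm => IsG.sum Finset.univ fun C : Fin dm =>
    hP.zero (μ := μ) (S.vec (S.g 8) (φ (Sum.inr B)) β * S.cS (φ (Sum.inr C)))
      (S.cS (φ (Sum.inr C)) * S.vec (S.g 8) (φ (Sum.inr B)) β)
      (fun a b => by
        rw [mulap, mulap, hg, S.cS_symm])
      (sm_c8 S φ B C) 1
  have t9 := IsG.sum (μ := μ) Finset.univ fun A : Fin dh => IsG.sum Finset.univ fun i : Fin 9 =>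
    IsG.sum Finset.univ fun j : Fin 9 =>
    hP.zeroS (μ := μ) (S.vec (S.g2 i j) (φ (Sum.inl A)) β) (hg2 _ _ _ _)
      (sm_r3 S φ A i j).continuousOn hhalf
  have t10 := IsG.sum (μ := μ) Finset.univ fun A : Fin dm => IsG.sum Finset.univ fun i : Fin 9 =>
    IsG.sum Finset.univ fun j : Fin 9 =>
    hP.zeroS (μ := μ) (S.vec (S.g2 i j) (φ (Sum.inr A)) β) (hg2 _ _ _ _)
      (sm_r4 S φ A i j).continuousOn hhalf
  have t11 := IsG.sum (μ := μ) Finset.univ fun A : Fin dh =>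
    hP.zero (μ := μ) (S.vec (S.g 8) (φ (Sum.inl A)) β) (S.vec (S.g 8) (φ (Sum.inl A)) β) (hg _ _ _)
      (sm_c9 S φ A) (Complex.I / 2)
  have T := (((((((((t1.add t2).add t3).add t4).add t5).add t6).add t7).add t8).add t9).add t10).add t11
  have hE := T.eq
  simp only [Finset.sum_const_zero, zero_add, add_zero] at hE
  have hk : ∀ p : Cfg dh × Wsp dm,
      (∑ B, ∑ C, inner ℂ (ζ p.1 p.2) (((c8 S φ B C p : ℝ) : ℂ) • ((starRingEnd ℂ) 1 •
        (S.cS (φ (Sum.inr C)) * S.vec (S.g 8) (φ (Sum.inr B)) β) (v p.1 p.2) - (1 : ℂ) •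
        (S.vec (S.g 8) (φ (Sum.inr B)) β * S.cS (φ (Sum.inr C))) (v p.1 p.2)))) +
      (∑ A, inner ℂ (ζ p.1 p.2) (((c9 S φ A p : ℝ) : ℂ) • ((starRingEnd ℂ) (Complex.I / 2) •
        S.vec (S.g 8) (φ (Sum.inl A)) β (v p.1 p.2) - (Complex.I / 2) •
        S.vec (S.g 8) (φ (Sum.inl A)) β (v p.1 p.2)))) = 0 := by
    intro p
    by_cases hp : p ∈ tsupport (fun p : Cfg dh × Wsp dm => ζ p.1 p.2)
    · have hpO : (S.Dy φ 8 p.1).det ≠ 0 := hζ.2.2 hp
      set V := v p.1 p.2 with hV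
      have e1 : ∀ B C, ((c8 S φ B C p : ℝ) : ℂ) • ((starRingEnd ℂ) 1 •
          (S.cS (φ (Sum.inr C)) * S.vec (S.g 8) (φ (Sum.inr B)) β) V - (1 : ℂ) •
          (S.vec (S.g 8) (φ (Sum.inr B)) β * S.cS (φ (Sum.inr C))) V) =
          (-Complex.I) • ((∑ A : Fin dh, (((S.Dy φ 8 p.1)⁻¹ B C *
            S.f (φ (Sum.inr C)) (φ (Sum.inr B)) (φ (Sum.inl A)) : ℝ) : ℂ) • S.vec (S.g 8) (φ (Sum.inl A)) β V) +
          ∑ G : Fin dm, (((S.Dy φ 8 p.1)⁻¹ B C *
            S.f (φ (Sum.inr C)) (φ (Sum.inr B)) (φ (Sum.inr G)) : ℝ) : ℂ) • S.vec (S.g 8) (φ (Sum.inr G)) β V) := by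
        intro B C
        have h1 := congrArg (fun T : F →L[ℂ] F => T V)
          (U.comm_cS S (φ (Sum.inr C)) (S.g 8) (φ (Sum.inr B)) β)
        simp only [_root_.sub_apply, _root_.smul_apply, _root_.sum_apply] at h1
        rw [map_one, one_smul, one_smul, h1, ← φ.sum_comp, Fintype.sum_sum_type]
        simp only [c8, smul_add, Finset.smul_sum, smul_smul]
        congr 1
        · refine Finset.sum_congr rfl fun A _ => ?_
          congr 1
          push_cast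
          ring
        · refine Finset.sum_congr rfl fun A _ => ?_
          congr 1
          push_cast
          ring
      have e2 : ∀ A, ((c9 S φ A p : ℝ) : ℂ) • ((starRingEnd ℂ) (Complex.I / 2) •
          S.vec (S.g 8) (φ (Sum.inl A)) β V - (Complex.I / 2) • S.vec (S.g 8) (φ (Sum.inl A)) β V) =
          (-Complex.I) • ((c9 S φ A p : ℝ) : ℂ) • S.vec (S.g 8) (φ (Sum.inl A)) β V := by
        intro A
        rw [← sub_smul, smul_smul, smul_smul]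
        congr 1
        have : (starRingEnd ℂ) (Complex.I / 2) = -Complex.I / 2 := by
          rw [map_div₀, Complex.conj_I, map_ofNat]
        rw [this]
        ring
      simp only [e1, e2]
      simp only [← inner_sum, ← inner_add_right]
      have e3 : (∑ B, ∑ C, (-Complex.I) • ((∑ A : Fin dh, (((S.Dy φ 8 p.1)⁻¹ B C *
            S.f (φ (Sum.inr C)) (φ (Sum.inr B)) (φ (Sum.inl A)) : ℝ) : ℂ) • S.vec (S.g 8) (φ (Sum.inl A)) β V) +
          ∑ G : Fin dm, (((S.Dy φ 8 p.1)⁻¹ B C *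
            S.f (φ (Sum.inr C)) (φ (Sum.inr B)) (φ (Sum.inr G)) : ℝ) : ℂ) • S.vec (S.g 8) (φ (Sum.inr G)) β V)) +
          (∑ A, (-Complex.I) • ((c9 S φ A p : ℝ) : ℂ) • S.vec (S.g 8) (φ (Sum.inl A)) β V) = 0 := by
        simp only [← Finset.smul_sum, Finset.sum_add_distrib]
        rw [← smul_add]
        have f1 : (∑ B, ∑ C, ∑ A : Fin dh, (((S.Dy φ 8 p.1)⁻¹ B C *
            S.f (φ (Sum.inr C)) (φ (Sum.inr B)) (φ (Sum.inl A)) : ℝ) : ℂ) • S.vec (S.g 8) (φ (Sum.inl A)) β V) =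
            ∑ A : Fin dh, (((∑ B, ∑ C, (S.Dy φ 8 p.1)⁻¹ B C *
            S.f (φ (Sum.inr C)) (φ (Sum.inr B)) (φ (Sum.inl A)) : ℝ)) : ℂ) • S.vec (S.g 8) (φ (Sum.inl A)) β V := by
          rw [swap3]
          refine Finset.sum_congr rfl fun A _ => ?_
          rw [Complex.ofReal_sum, Finset.sum_smul]
          refine Finset.sum_congr rfl fun B _ => ?_
          rw [Complex.ofReal_sum, Finset.sum_smul]
        have f2 : (∑ B, ∑ C, ∑ G : Fin dm, (((S.Dy φ 8 p.1)⁻¹ B C *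
            S.f (φ (Sum.inr C)) (φ (Sum.inr B)) (φ (Sum.inr G)) : ℝ) : ℂ) • S.vec (S.g 8) (φ (Sum.inr G)) β V) = 0 := by
          have f3 : (∑ B, ∑ C, ∑ G : Fin dm, (((S.Dy φ 8 p.1)⁻¹ B C *
            S.f (φ (Sum.inr C)) (φ (Sum.inr B)) (φ (Sum.inr G)) : ℝ) : ℂ) • S.vec (S.g 8) (φ (Sum.inr G)) β V) =
            ∑ G : Fin dm, (((∑ B, ∑ C, (S.Dy φ 8 p.1)⁻¹ B C *
            S.f (φ (Sum.inr C)) (φ (Sum.inr B)) (φ (Sum.inr G)) : ℝ)) : ℂ) • S.vec (S.g 8) (φ (Sum.inr G)) β V := by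
            rw [swap3]
            refine Finset.sum_congr rfl fun A _ => ?_
            rw [Complex.ofReal_sum, Finset.sum_smul]
            refine Finset.sum_congr rfl fun B _ => ?_
            rw [Complex.ofReal_sum, Finset.sum_smul]
          rw [f3]
          refine Finset.sum_eq_zero fun G _ => ?_
          rw [trm S φ h hpO G]
          simp
        rw [f1, f2, add_zero, ← Finset.sum_add_distrib]
        rw [Finset.sum_eq_zero, smul_zero]
        intro A _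
        rw [← add_smul, ← Complex.ofReal_add]
        have f4 : (∑ B, ∑ C, (S.Dy φ 8 p.1)⁻¹ B C *
            S.f (φ (Sum.inr C)) (φ (Sum.inr B)) (φ (Sum.inl A))) + c9 S φ A p = 0 := by
          unfold c9
          rw [logJ S φ hpO A, ← Finset.sum_add_distrib]
          refine Finset.sum_eq_zero fun B _ => ?_
          rw [← Finset.sum_add_distrib]
          refine Finset.sum_eq_zero fun C _ => ?_
          rw [S.f_swap' (φ (Sum.inr C)) (φ (Sum.inl A)) (φ (Sum.inr B))]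
          ring
        rw [f4]
        simp
      rw [e3, inner_zero_right]
    · have h0 : ζ p.1 p.2 = 0 := hP.z0' hp
      simp [h0]
  simp only [hk, integral_zero, add_zero] at hE
  simp only [Qs_exp, inner_add_left, inner_add_right, sum_inner, inner_sum]
  exact hE

/-- **A9** -/
theorem sym (S : Setup d F) : SymStmt S := fun _ _ φ h ζ v hζ hv β => sym_one S φ h ζ v hζ hv β

end Vale.Agent.P353.Z.AN.Sy
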