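import Vale.Agent.P353.AN.A.SymGen

/-! # P353, all `N`, block A, A9: coefficients of the slice supercharge -/

open MeasureTheory Filter Topology
open scoped ContDiff

namespace Vale.Agent.P353.Z.AN.Sy

variable {d dh dm : ℕ} {F : Type*} [NormedAddCommGroup F] [InnerProductSpace ℂ F]

/-! ### partial derivatives -/

lemma py_eq {v : Cfg dh → Wsp dm → F} {p : Cfg dh × Wsp dm} (i : Fin 9) (A : Fin dh)
    (h : DifferentiableAt ℝ (fun p : Cfg dh × Wsp dm => v p.1 p.2) p) :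
    py i A v p.1 p.2 = fderiv ℝ (fun p : Cfg dh × Wsp dm => v p.1 p.2) p
      (EuclideanSpace.single (i, A) 1, 0) := by
  unfold py pd
  have h1 : HasFDerivAt (fun y' : Cfg dh => (y', p.2)) (ContinuousLinearMap.inl ℝ (Cfg dh) (Wsp dm)) p.1 :=
    hasFDerivAt_prodMk_left p.1 p.2
  have h2 := HasFDerivAt.comp p.1 (f := fun y' : Cfg dh => (y', p.2)) (h.hasFDerivAt) h1
  have h3 : fderiv ℝ (fun y' => v y' p.2) p.1 = _ := h2.fderiv
  rw [h3]
  simp

lemma pw_eq {v : Cfg dh → Wsp dm → F} {p : Cfg dh × Wsp dm} (j : Fin 8) (B : Fin dm)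
    (h : DifferentiableAt ℝ (fun p : Cfg dh × Wsp dm => v p.1 p.2) p) :
    pw j B v p.1 p.2 = fderiv ℝ (fun p : Cfg dh × Wsp dm => v p.1 p.2) p
      (0, EuclideanSpace.single (j, B) 1) := by
  unfold pw
  have h1 : HasFDerivAt (fun w' : Wsp dm => (p.1, w')) (ContinuousLinearMap.inr ℝ (Cfg dh) (Wsp dm)) p.2 :=
    hasFDerivAt_prodMk_right p.1 p.2
  have h2 := HasFDerivAt.comp p.2 (f := fun w' : Wsp dm => (p.1, w')) (h.hasFDerivAt) h1
  have h3 : fderiv ℝ (v p.1) p.2 = _ := h2.fderiv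
  rw [h3]
  simp

lemma fd0 {E : Type*} [NormedAddCommGroup E] [NormedSpace ℝ E] {c : E → ℝ} {p e : E}
    (h : DifferentiableAt ℝ c p) (h0 : ∀ t : ℝ, c (p + t • e) = c p) : fderiv ℝ c p e = 0 := by
  have h1 := h.hasFDerivAt.hasLineDerivAt e
  have h2 : HasDerivAt (fun t : ℝ => c (p + t • e)) (fderiv ℝ c p e) 0 := h1
  have h3 : (fun t : ℝ => c (p + t • e)) = fun _ => c p := funext h0
  rw [h3] at h2
  exact h2.unique (hasDerivAt_const 0 (c p))

/-! ### smoothness of the coefficients -/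

lemma contDiff_det {E : Type*} [NormedAddCommGroup E] [NormedSpace ℝ E] {n : ℕ}
    {M : E → Matrix (Fin n) (Fin n) ℝ} (h : ∀ i j, ContDiff ℝ ∞ fun x => M x i j) :
    ContDiff ℝ ∞ fun x => (M x).det := by
  simp only [Matrix.det_apply]
  refine ContDiff.sum fun σ _ => ?_
  refine ContDiff.const_smul _ ?_
  exact contDiff_prod fun i _ => h _ _

lemma contDiffOn_inv {E : Type*} [NormedAddCommGroup E] [NormedSpace ℝ E] {n : ℕ}
    {M : E → Matrix (Fin n) (Fin n) ℝ} (h : ∀ i j, ContDiff ℝ ∞ fun x => M x i j) (B C : Fin n) :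
    ContDiffOn ℝ ∞ (fun x => (M x)⁻¹ B C) {x | (M x).det ≠ 0} := by
  have h1 : ∀ x, (M x)⁻¹ B C = ((M x).det)⁻¹ * (M x).adjugate B C := by
    intro x
    rw [Matrix.inv_def, Ring.inverse_eq_inv', Matrix.smul_apply, smul_eq_mul]
  simp only [h1]
  refine ContDiffOn.mul ?_ ?_
  · exact (contDiff_det h).contDiffOn.inv fun x hx => hx
  · refine ContDiff.contDiffOn ?_
    simp only [Matrix.adjugate_apply]
    refine contDiff_det fun i j => ?_
    by_cases hi : i = C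
    · subst hi
      simp only [Matrix.updateRow_self]
      exact contDiff_const
    · simp only [Matrix.updateRow_ne hi]
      exact h i j

section Coef

variable (S : Setup d F) (φ : Spl dh dm d)

lemma contDiff_Dy (i : Fin 9) (B C : Fin dm) : ContDiff ℝ ∞ fun y : Cfg dh => S.Dy φ i y B C := by
  unfold Setup.Dy Setup.Dm
  simp only [Matrix.of_apply]
  exact ContDiff.sum fun A _ => contDiff_const.mul (Setup.contDiff_coord _)

lemma contDiffOn_Di (B C : Fin dm) :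
    ContDiffOn ℝ ∞ (fun p : Cfg dh × Wsp dm => (S.Dy φ 8 p.1)⁻¹ B C) {p | (S.Dy φ 8 p.1).det ≠ 0} :=
  contDiffOn_inv (M := fun p : Cfg dh × Wsp dm => S.Dy φ 8 p.1)
    (fun i j => (contDiff_Dy S φ 8 i j).comp contDiff_fst) B C

lemma contDiff_w (q : Fin 8 × Fin dm) : ContDiff ℝ ∞ fun p : Cfg dh × Wsp dm => p.2 q :=
  ((EuclideanSpace.proj (𝕜 := ℝ) q).contDiff).comp contDiff_snd

lemma contDiff_y (q : Fin 9 × Fin dh) : ContDiff ℝ ∞ fun p : Cfg dh × Wsp dm => p.1 q :=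
  ((EuclideanSpace.proj (𝕜 := ℝ) q).contDiff).comp contDiff_fst

lemma contDiff_wt (i : Fin 9) (B : Fin dm) :
    ContDiff ℝ ∞ fun p : Cfg dh × Wsp dm => wt p.2 i B := by
  induction i using Fin.lastCases with
  | last => simp only [wt, Fin.lastCases_last]; exact contDiff_const
  | cast j => simp only [wt, Fin.lastCases_castSucc]; exact contDiff_w _

lemma isOpen_Om : IsOpen {p : Cfg dh × Wsp dm | (S.Dy φ 8 p.1).det ≠ 0} := by
  have h : Continuous fun p : Cfg dh × Wsp dm => (S.Dy φ 8 p.1).det :=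
    (contDiff_det (M := fun p : Cfg dh × Wsp dm => S.Dy φ 8 p.1)
      (fun i j => (contDiff_Dy S φ 8 i j).comp contDiff_fst)).continuous
  exact isOpen_ne_fun h continuous_const

lemma Dy_add_single {y : Cfg dh} {j : Fin 9} (hj : j ≠ 8) (A : Fin dh) (t : ℝ) :
    S.Dy φ 8 (y + t • EuclideanSpace.single (j, A) (1 : ℝ)) = S.Dy φ 8 y := by
  unfold Setup.Dy
  congr 1
  funext B
  simp [hj.symm]

/-- matrix of `∂_8^A D_8` -/
noncomputable def MA (A : Fin dh) : Matrix (Fin dm) (Fin dm) ℝ :=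
  Matrix.of fun B C => S.f (φ (Sum.inr B)) (φ (Sum.inl A)) (φ (Sum.inr C))

lemma Dy_add_single8 {y : Cfg dh} (A : Fin dh) (t : ℝ) :
    S.Dy φ 8 (y + t • EuclideanSpace.single ((8 : Fin 9), A) (1 : ℝ)) = S.Dy φ 8 y + t • MA S φ A := by
  ext B C
  simp only [Setup.Dy, Setup.Dm, MA, Matrix.of_apply, Matrix.add_apply, Matrix.smul_apply,
    PiLp.add_apply, PiLp.smul_apply, smul_eq_mul, mul_add, Finset.sum_add_distrib]
  congr 1
  rw [Finset.sum_eq_single A]
  · simp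
    ring
  · intro b _ hb
    simp [hb]
  · intro h
    exact absurd (Finset.mem_univ A) h

lemma det_line {n : ℕ} (D M : Matrix (Fin n) (Fin n) ℝ) (hD : D.det ≠ 0) :
    HasDerivAt (fun t : ℝ => (D + t • M).det) (D.det * (D⁻¹ * M).trace) 0 := by
  have hu : IsUnit D.det := isUnit_iff_ne_zero.2 hD
  set P := ((1 + (Polynomial.X : Polynomial ℝ) • (D⁻¹ * M).map Polynomial.C).det).divX.divX with hP
  have h1 : ∀ t : ℝ, (D + t • M).det = D.det * (1 + (D⁻¹ * M).trace * t + Polynomial.eval t P * t ^ 2) := by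
    intro t
    rw [← Matrix.det_one_add_smul, ← Matrix.det_mul, mul_add, mul_one, Matrix.mul_smul, ← Matrix.mul_assoc,
      Matrix.mul_nonsing_inv _ hu, Matrix.one_mul]
  rw [show (fun t : ℝ => (D + t • M).det) = _ from funext h1]
  have h2 : HasDerivAt (fun t : ℝ => Polynomial.eval t P) (Polynomial.eval 0 (Polynomial.derivative P)) 0 :=
    Polynomial.hasDerivAt P 0
  have h3 : HasDerivAt (fun t : ℝ => t) 1 0 := hasDerivAt_id 0
  have h4 := (((h3.const_mul ((D⁻¹ * M).trace)).const_add 1).add (h2.mul (h3.pow 2))).const_mul D.det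
  refine h4.congr_deriv ?_
  simp

lemma logJ {y : Cfg dh} (hy : (S.Dy φ 8 y).det ≠ 0) (A : Fin dh) :
    fderiv ℝ (fun y' => Real.log (S.Jd φ y')) y (EuclideanSpace.single ((8 : Fin 9), A) 1) =
      ∑ B, ∑ C, (S.Dy φ 8 y)⁻¹ B C * S.f (φ (Sum.inr C)) (φ (Sum.inl A)) (φ (Sum.inr B)) := by
  have hd : DifferentiableAt ℝ (fun y' : Cfg dh => (S.Dy φ 8 y').det) y :=
    (contDiff_det (M := fun y' : Cfg dh => S.Dy φ 8 y') (fun i j => contDiff_Dy S φ 8 i j)).differentiable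
      (by simp) y
  have h1 : (fun y' => Real.log (S.Jd φ y')) = fun y' => Real.log ((S.Dy φ 8 y').det) := by
    funext y'
    unfold Setup.Jd
    rw [Real.log_abs]
  rw [h1]
  have h2 := (hd.hasFDerivAt.log hy)
  rw [h2.fderiv]
  simp only [_root_.smul_apply, smul_eq_mul]
  have h3 : fderiv ℝ (fun y' : Cfg dh => (S.Dy φ 8 y').det) y (EuclideanSpace.single ((8 : Fin 9), A) 1) =
      (S.Dy φ 8 y).det * ((S.Dy φ 8 y)⁻¹ * MA S φ A).trace := by
    have h4 : HasDerivAt (fun t : ℝ => (S.Dy φ 8 (y + t • EuclideanSpace.single ((8 : Fin 9), A) 1)).det)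
      (fderiv ℝ (fun y' : Cfg dh => (S.Dy φ 8 y').det) y (EuclideanSpace.single ((8 : Fin 9), A) 1)) 0 :=
      hd.hasFDerivAt.hasLineDerivAt _
    simp only [Dy_add_single8] at h4
    exact h4.unique (det_line _ _ hy)
  rw [h3, ← mul_assoc, inv_mul_cancel₀ hy, one_mul]
  simp only [Matrix.trace, Matrix.diag_apply, Matrix.mul_apply, MA, Matrix.of_apply]

/-- `∑_{BC} D⁻¹_{BC} f_{CBG} = 0` for `G ∈ m` -/
lemma trm (h : S.IsSub φ) {y : Cfg dh} (hy : (S.Dy φ 8 y).det ≠ 0) (G : Fin dm) :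
    ∑ B, ∑ C, (S.Dy φ 8 y)⁻¹ B C * S.f (φ (Sum.inr C)) (φ (Sum.inr B)) (φ (Sum.inr G)) = 0 := by
  set D := S.Dy φ 8 y with hD
  have hu : IsUnit D.det := isUnit_iff_ne_zero.2 hy
  have hDe : ∀ B C, D B C = ∑ A, S.f (φ (Sum.inr B)) (φ (Sum.inl A)) (φ (Sum.inr C)) * y (8, A) := by
    intro B C
    rfl
  have hanti : D.transpose = -D := by
    ext B C
    rw [Matrix.transpose_apply, Matrix.neg_apply, hDe, hDe, ← Finset.sum_neg_distrib]
    refine Finset.sum_congr rfl fun A _ => ?_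
    rw [S.f_cyc (φ (Sum.inr C)), S.f_swap (φ (Sum.inl A))]
    ring
  let M : Fin dm → Matrix (Fin dm) (Fin dm) ℝ := fun E => Matrix.of fun G C =>
    S.f (φ (Sum.inr G)) (φ (Sum.inr C)) (φ (Sum.inr E))
  have hM0 : ∀ E, (M E).trace = 0 := by
    intro E
    refine Finset.sum_eq_zero fun G _ => ?_
    have := S.f_swap (φ (Sum.inr G)) (φ (Sum.inr G)) (φ (Sum.inr E))
    simp only [M, Matrix.diag_apply, Matrix.of_apply]
    linarith
  have key : ∀ B C E, ∑ G, S.f (φ (Sum.inr C)) (φ (Sum.inr B)) (φ (Sum.inr G)) * D G E =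
      -(D * M E) B C + (D * M E) C B := by
    intro B C E
    have hj : ∀ A, ∑ G, (S.f (φ (Sum.inr C)) (φ (Sum.inr B)) (φ (Sum.inr G)) *
          S.f (φ (Sum.inr G)) (φ (Sum.inl A)) (φ (Sum.inr E)) +
        S.f (φ (Sum.inr B)) (φ (Sum.inl A)) (φ (Sum.inr G)) *
          S.f (φ (Sum.inr G)) (φ (Sum.inr C)) (φ (Sum.inr E)) -
        S.f (φ (Sum.inr C)) (φ (Sum.inl A)) (φ (Sum.inr G)) *
          S.f (φ (Sum.inr G)) (φ (Sum.inr B)) (φ (Sum.inr E))) = 0 := by
      intro A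
      have h1 := S.f_jac (φ (Sum.inr C)) (φ (Sum.inr B)) (φ (Sum.inl A)) (φ (Sum.inr E))
      rw [← φ.sum_comp, Fintype.sum_sum_type] at h1
      have h2 : ∑ X : Fin dh, (S.f (φ (Sum.inr C)) (φ (Sum.inr B)) (φ (Sum.inl X)) *
            S.f (φ (Sum.inl X)) (φ (Sum.inl A)) (φ (Sum.inr E)) +
          S.f (φ (Sum.inr B)) (φ (Sum.inl A)) (φ (Sum.inl X)) *
            S.f (φ (Sum.inl X)) (φ (Sum.inr C)) (φ (Sum.inr E)) +
          S.f (φ (Sum.inl A)) (φ (Sum.inr C)) (φ (Sum.inl X)) *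
            S.f (φ (Sum.inl X)) (φ (Sum.inr B)) (φ (Sum.inr E))) = 0 := by
        refine Finset.sum_eq_zero fun X _ => ?_
        rw [h X A E, S.f_cyc (φ (Sum.inr B)) (φ (Sum.inl A)) (φ (Sum.inl X)), h A X B,
          S.f_cyc (φ (Sum.inl A)) (φ (Sum.inr C)) (φ (Sum.inl X)),
          S.f_cyc (φ (Sum.inr C)) (φ (Sum.inl X)) (φ (Sum.inl A)), h X A C]
        ring
      rw [h2, zero_add] at h1
      rw [← h1]
      refine Finset.sum_congr rfl fun X _ => ?_
      rw [S.f_swap (φ (Sum.inl A)) (φ (Sum.inr C))]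
      ring
    have h3 : ∑ A, y (8, A) * ∑ G, (S.f (φ (Sum.inr C)) (φ (Sum.inr B)) (φ (Sum.inr G)) *
          S.f (φ (Sum.inr G)) (φ (Sum.inl A)) (φ (Sum.inr E)) +
        S.f (φ (Sum.inr B)) (φ (Sum.inl A)) (φ (Sum.inr G)) *
          S.f (φ (Sum.inr G)) (φ (Sum.inr C)) (φ (Sum.inr E)) -
        S.f (φ (Sum.inr C)) (φ (Sum.inl A)) (φ (Sum.inr G)) *
          S.f (φ (Sum.inr G)) (φ (Sum.inr B)) (φ (Sum.inr E))) = 0 :=
      Finset.sum_eq_zero fun A _ => by rw [hj A, mul_zero]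
    simp only [Finset.mul_sum] at h3
    rw [Finset.sum_comm] at h3
    have h4 : ∀ G, ∑ A, y (8, A) * (S.f (φ (Sum.inr C)) (φ (Sum.inr B)) (φ (Sum.inr G)) *
          S.f (φ (Sum.inr G)) (φ (Sum.inl A)) (φ (Sum.inr E)) +
        S.f (φ (Sum.inr B)) (φ (Sum.inl A)) (φ (Sum.inr G)) *
          S.f (φ (Sum.inr G)) (φ (Sum.inr C)) (φ (Sum.inr E)) -
        S.f (φ (Sum.inr C)) (φ (Sum.inl A)) (φ (Sum.inr G)) *
          S.f (φ (Sum.inr G)) (φ (Sum.inr B)) (φ (Sum.inr E))) =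
        S.f (φ (Sum.inr C)) (φ (Sum.inr B)) (φ (Sum.inr G)) * D G E + D B G * M E G C - D C G * M E G B := by
      intro G
      rw [hDe, hDe, hDe, Finset.mul_sum, Finset.sum_mul, Finset.sum_mul, ← Finset.sum_add_distrib,
        ← Finset.sum_sub_distrib]
      refine Finset.sum_congr rfl fun A _ => ?_
      simp only [M, Matrix.of_apply]
      ring
    simp only [h4, Finset.sum_sub_distrib, Finset.sum_add_distrib] at h3
    rw [Matrix.mul_apply, Matrix.mul_apply]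
    linarith
  have hD2 : D⁻¹.transpose = -D⁻¹ := by
    rw [Matrix.transpose_nonsing_inv, hanti]
    refine Matrix.inv_eq_left_inv ?_
    rw [neg_mul_neg, Matrix.nonsing_inv_mul _ hu]
  let lam : Fin dm → ℝ := fun G =>
    ∑ B, ∑ C, D⁻¹ B C * S.f (φ (Sum.inr C)) (φ (Sum.inr B)) (φ (Sum.inr G))
  have hl : Matrix.vecMul lam D = 0 := by
    funext E
    have e1 : Matrix.vecMul lam D E = ∑ B, ∑ C, D⁻¹ B C *
        ∑ G, S.f (φ (Sum.inr C)) (φ (Sum.inr B)) (φ (Sum.inr G)) * D G E := by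
      simp only [Matrix.vecMul, dotProduct, lam, Finset.sum_mul, Finset.mul_sum]
      rw [Finset.sum_comm]
      refine Finset.sum_congr rfl fun B _ => ?_
      rw [Finset.sum_comm]
      exact Finset.sum_congr rfl fun C _ => Finset.sum_congr rfl fun G _ => by ring
    rw [e1]
    simp only [key, mul_add, Finset.sum_add_distrib, mul_neg, Finset.sum_neg_distrib]
    have e2 : ∑ B, ∑ C, D⁻¹ B C * (D * M E) C B = 0 := by
      have : (D⁻¹ * (D * M E)).trace = ∑ B, ∑ C, D⁻¹ B C * (D * M E) C B := by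
        simp only [Matrix.trace, Matrix.diag_apply]
        exact Finset.sum_congr rfl fun B _ => Matrix.mul_apply
      rw [← this, ← Matrix.mul_assoc, Matrix.nonsing_inv_mul _ hu, Matrix.one_mul, hM0]
    have e3 : ∑ B, ∑ C, D⁻¹ B C * (D * M E) B C = 0 := by
      have : (D⁻¹.transpose * (D * M E)).trace = ∑ B, ∑ C, D⁻¹ B C * (D * M E) B C := by
        simp only [Matrix.trace, Matrix.diag_apply, Matrix.mul_apply (M := D⁻¹.transpose),
          Matrix.transpose_apply]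
        exact Finset.sum_comm
      rw [← this, hD2, Matrix.neg_mul, ← Matrix.mul_assoc, Matrix.nonsing_inv_mul _ hu, Matrix.one_mul,
        Matrix.trace_neg, hM0, neg_zero]
    rw [e2, e3]
    simp
  have hl0 : lam = 0 := by
    have : Matrix.vecMul (Matrix.vecMul lam D) D⁻¹ = lam := by
      rw [Matrix.vecMul_vecMul, Matrix.mul_nonsing_inv _ hu, Matrix.vecMul_one]
    rw [← this, hl, Matrix.zero_vecMul]
  exact congrFun hl0 G

end Coef

end Vale.Agent.P353.Z.AN.Sy
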