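import Vale.Agent.P353.AN.A.StmtS
import Vale.Agent.P353.Z.U.A2

/-! # P353, all `N`, block A, A9: symmetry of first order operators, general part -/

open MeasureTheory Filter Topology
open scoped ContDiff

namespace Vale.Agent.P353.Z.AN.Sy

variable {F : Type*} [NormedAddCommGroup F] [InnerProductSpace ℂ F]

section Gen

variable {E : Type*} [NormedAddCommGroup E] [NormedSpace ℝ E]

/-- test pair: `z` test function supported in the open set `Ω`, `v` smooth on `Ω` -/
structure Pr (Ω : Set E) (z v : E → F) : Prop where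
  op : IsOpen Ω
  sm : ContDiff ℝ ∞ z
  cs : HasCompactSupport z
  sub : tsupport z ⊆ Ω
  sv : ContDiffOn ℝ ∞ v Ω

variable {Ω : Set E} {z v : E → F}

lemma Pr.z0 (_ : Pr Ω z v) {p : E} (hp : p ∉ tsupport z) : z =ᶠ[𝓝 p] fun _ => 0 := by
  have : (tsupport z)ᶜ ∈ 𝓝 p := (isClosed_tsupport z).isOpen_compl.mem_nhds hp
  filter_upwards [this] with q hq
  exact image_eq_zero_of_notMem_tsupport hq

lemma Pr.z0' (h : Pr Ω z v) {p : E} (hp : p ∉ tsupport z) : z p = 0 := (h.z0 hp).self_of_nhds

lemma Pr.dz0 (h : Pr Ω z v) {p : E} (hp : p ∉ tsupport z) (e : E) : fderiv ℝ z p e = 0 := by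
  rw [(h.z0 hp).fderiv_eq]
  simp

lemma Pr.cont {G : Type*} [NormedAddCommGroup G] (h : Pr Ω z v) {g : E → G} (hg : ContinuousOn g Ω)
    (h0 : ∀ p, p ∉ tsupport z → g p = 0) : Continuous g := by
  rw [continuous_iff_continuousAt]
  intro p
  by_cases hp : p ∈ tsupport z
  · exact hg.continuousAt (h.op.mem_nhds (h.sub hp))
  · have : (tsupport z)ᶜ ∈ 𝓝 p := (isClosed_tsupport z).isOpen_compl.mem_nhds hp
    have h1 : g =ᶠ[𝓝 p] fun _ => 0 := by
      filter_upwards [this] with q hq
      exact h0 q hq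
    exact h1.continuousAt

lemma Pr.hcs {G : Type*} [NormedAddCommGroup G] (h : Pr Ω z v) {g : E → G}
    (h0 : ∀ p, p ∉ tsupport z → g p = 0) : HasCompactSupport g :=
  HasCompactSupport.intro h.cs.isCompact h0

lemma Pr.smooth {G : Type*} [NormedAddCommGroup G] [NormedSpace ℝ G] (h : Pr Ω z v) {g : E → G}
    (hg : ContDiffOn ℝ ∞ g Ω) (h0 : ∀ p, p ∉ tsupport z → g p = 0) : ContDiff ℝ ∞ g := by
  rw [contDiff_iff_contDiffAt]
  intro p
  by_cases hp : p ∈ tsupport z
  · exact hg.contDiffAt (h.op.mem_nhds (h.sub hp))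
  · have : (tsupport z)ᶜ ∈ 𝓝 p := (isClosed_tsupport z).isOpen_compl.mem_nhds hp
    have h1 : g =ᶠ[𝓝 p] fun _ => 0 := by
      filter_upwards [this] with q hq
      exact h0 q hq
    exact contDiffAt_const.congr_of_eventuallyEq h1

set_option linter.unusedSectionVars false

variable [FiniteDimensional ℝ E] [MeasurableSpace E] [BorelSpace E] (μ : Measure E)
  [μ.IsAddHaarMeasure]

lemma Pr.int (h : Pr Ω z v) {g : E → ℂ} (hg : ContinuousOn g Ω)
    (h0 : ∀ p, p ∉ tsupport z → g p = 0) : Integrable g μ :=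
  (h.cont hg h0).integrable_of_hasCompactSupport (h.hcs h0)

lemma int_fderiv_zero (w : E → ℂ) (hw : ContDiff ℝ 1 w) (hc : HasCompactSupport w) (e : E) :
    ∫ x, fderiv ℝ w x e ∂μ = 0 := by
  have h := integral_smul_fderiv_eq_neg_fderiv_smul_of_integrable (μ := μ)
    (f := fun _ : E => (1 : ℝ)) (g := w) (v := e) (𝕜 := ℝ) ?_ ?_ ?_ ?_ ?_
  · simpa using h
  · simp
  · simp only [one_smul]
    exact ((hw.continuous_fderiv (by simp)).clm_apply continuous_const).integrable_of_hasCompactSupport
      (hc.fderiv_apply (𝕜 := ℝ) e)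
  · simp only [one_smul]
    exact hw.continuous.integrable_of_hasCompactSupport hc
  · intro x _; exact differentiableAt_const _
  · intro x _; exact (hw.differentiable (by simp)) x

/-- `∫ a = ∫ b + ∫ k`, everything integrable -/
structure IsG (a b k : E → ℂ) : Prop where
  ia : Integrable a μ
  ib : Integrable b μ
  ik : Integrable k μ
  eq : ∫ p, a p ∂μ = ∫ p, b p ∂μ + ∫ p, k p ∂μ

variable {μ}

lemma IsG.add {a b k a' b' k' : E → ℂ} (h : IsG μ a b k) (h' : IsG μ a' b' k') :
    IsG μ (fun p => a p + a' p) (fun p => b p + b' p) (fun p => k p + k' p) where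
  ia := h.ia.add h'.ia
  ib := h.ib.add h'.ib
  ik := h.ik.add h'.ik
  eq := by
    rw [integral_add h.ia h'.ia, integral_add h.ib h'.ib, integral_add h.ik h'.ik, h.eq, h'.eq]
    ring

lemma IsG.sum {ι : Type*} (s : Finset ι) {a b k : ι → E → ℂ} (h : ∀ i, IsG μ (a i) (b i) (k i)) :
    IsG μ (fun p => ∑ i ∈ s, a i p) (fun p => ∑ i ∈ s, b i p) (fun p => ∑ i ∈ s, k i p) where
  ia := integrable_finsetSum _ fun i _ => (h i).ia
  ib := integrable_finsetSum _ fun i _ => (h i).ib
  ik := integrable_finsetSum _ fun i _ => (h i).ik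
  eq := by
    rw [integral_finsetSum _ fun i _ => (h i).ia, integral_finsetSum _ fun i _ => (h i).ib,
      integral_finsetSum _ fun i _ => (h i).ik, ← Finset.sum_add_distrib]
    exact Finset.sum_congr rfl fun i _ => (h i).eq

lemma Pr.first (h : Pr Ω z v) (T : F →L[ℂ] F) (hT : ∀ a b : F, inner ℂ (T a) b = inner ℂ a (T b))
    {c : E → ℝ} (hc : ContDiffOn ℝ ∞ c Ω) (e : E) {zd vd : E → F} (hz : ∀ p, zd p = fderiv ℝ z p e)
    (hv : ∀ p ∈ Ω, vd p = fderiv ℝ v p e) :
    IsG μ (fun p => inner ℂ ((-Complex.I) • ((c p : ℝ) : ℂ) • T (zd p)) (v p))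
      (fun p => inner ℂ (z p) ((-Complex.I) • ((c p : ℝ) : ℂ) • T (vd p)))
      (fun p => inner ℂ (z p) ((-Complex.I) • ((fderiv ℝ c p e : ℝ) : ℂ) • T (v p))) := by
  have hO := h.op
  have hvd : ContinuousOn vd Ω := by
    have h1 : ContinuousOn (fun p => fderiv ℝ v p e) Ω :=
      (h.sv.continuousOn_fderiv_of_isOpen hO (by simp)).clm_apply continuousOn_const
    exact h1.congr fun p hp => hv p hp
  have hcd : ContinuousOn (fun p => fderiv ℝ c p e) Ω :=
    (hc.continuousOn_fderiv_of_isOpen hO (by simp)).clm_apply continuousOn_const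
  have hzd : Continuous zd := by
    have h1 : Continuous (fun p => fderiv ℝ z p e) :=
      (h.sm.continuous_fderiv (by simp)).clm_apply continuous_const
    exact h1.congr fun p => (hz p).symm
  have hzc := h.sm.continuous
  have hvc := h.sv.continuousOn
  have hcc := hc.continuousOn
  have hTc := T.continuous
  have hof := Complex.continuous_ofReal
  -- the function in divergence form
  set g : E → ℂ := fun p => Complex.I * ((c p : ℝ) : ℂ) * inner ℂ (T (z p)) (v p) with hg
  have hgs : ContDiffOn ℝ ∞ g Ω := by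
    refine (contDiffOn_const.mul (Complex.ofRealCLM.contDiff.comp_contDiffOn hc)).mul ?_
    exact ((T.restrictScalars ℝ).contDiff.comp_contDiffOn h.sm.contDiffOn).inner ℂ h.sv
  have hg0 : ∀ p, p ∉ tsupport z → g p = 0 := by
    intro p hp
    simp [hg, h.z0' hp]
  have hgS := h.smooth hgs hg0
  have hgi := int_fderiv_zero μ g (hgS.of_le (by simp)) (h.hcs hg0) e
  have hia : Integrable (fun p => inner ℂ ((-Complex.I) • ((c p : ℝ) : ℂ) • T (zd p)) (v p)) μ := by
    refine h.int μ ?_ ?_
    · refine ContinuousOn.inner ?_ hvc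
      exact (((hof.comp_continuousOn hcc).smul (hTc.comp_continuousOn hzd.continuousOn))).const_smul _
    · intro p hp
      rw [hz p, h.dz0 hp]
      simp
  have hib : Integrable (fun p => inner ℂ (z p) ((-Complex.I) • ((c p : ℝ) : ℂ) • T (vd p))) μ := by
    refine h.int μ ?_ ?_
    · refine ContinuousOn.inner hzc.continuousOn ?_
      exact (((hof.comp_continuousOn hcc).smul (hTc.comp_continuousOn hvd))).const_smul _
    · intro p hp
      rw [h.z0' hp]
      simp
  have hik : Integrable (fun p => inner ℂ (z p)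
      ((-Complex.I) • ((fderiv ℝ c p e : ℝ) : ℂ) • T (v p))) μ := by
    refine h.int μ ?_ ?_
    · refine ContinuousOn.inner hzc.continuousOn ?_
      exact (((hof.comp_continuousOn hcd).smul (hTc.comp_continuousOn hvc))).const_smul _
    · intro p hp
      rw [h.z0' hp]
      simp
  refine ⟨hia, hib, hik, ?_⟩
  have key : ∀ p, fderiv ℝ g p e = inner ℂ ((-Complex.I) • ((c p : ℝ) : ℂ) • T (zd p)) (v p) -
      inner ℂ (z p) ((-Complex.I) • ((c p : ℝ) : ℂ) • T (vd p)) -
      inner ℂ (z p) ((-Complex.I) • ((fderiv ℝ c p e : ℝ) : ℂ) • T (v p)) := by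
    intro p
    by_cases hp : p ∈ tsupport z
    · have hpO := h.sub hp
      have hnh := hO.mem_nhds hpO
      have dc : DifferentiableAt ℝ c p := (hc.contDiffAt hnh).differentiableAt (by simp)
      have dv : DifferentiableAt ℝ v p := (h.sv.contDiffAt hnh).differentiableAt (by simp)
      have dz : DifferentiableAt ℝ z p := h.sm.differentiable (by simp) p
      have d1 : HasFDerivAt (fun p => Complex.I * ((c p : ℝ) : ℂ))
          (Complex.I • (Complex.ofRealCLM.comp (fderiv ℝ c p))) p :=
        (Complex.ofRealCLM.hasFDerivAt.comp p dc.hasFDerivAt).const_smul Complex.I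
      have d2 : HasFDerivAt (fun p => T (z p)) ((T.restrictScalars ℝ).comp (fderiv ℝ z p)) p :=
        (T.restrictScalars ℝ).hasFDerivAt.comp p dz.hasFDerivAt
      have d3 := d2.inner ℂ dv.hasFDerivAt
      have d4 := d1.mul d3
      have d5 : fderiv ℝ g p = _ := d4.fderiv
      rw [d5, hz p, hv p hpO]
      simp only [_root_.add_apply, _root_.smul_apply, smul_eq_mul,
        ContinuousLinearMap.comp_apply, fderivInnerCLM_apply, ContinuousLinearMap.prod_apply,
        Complex.ofRealCLM_apply, inner_smul_left, inner_smul_right,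
        map_neg, Complex.conj_I, Complex.conj_ofReal, neg_neg, hT,
        ContinuousLinearMap.coe_restrictScalars']
      ring
    · have h1 : g =ᶠ[𝓝 p] fun _ => 0 := by
        have : (tsupport z)ᶜ ∈ 𝓝 p := (isClosed_tsupport z).isOpen_compl.mem_nhds hp
        filter_upwards [this] with q hq
        exact hg0 q hq
      rw [h1.fderiv_eq, hz p, h.dz0 hp, h.z0' hp]
      simp
  simp only [key] at hgi
  have e1 := integral_sub (hia.sub hib) hik
  simp only [Pi.sub_apply] at e1
  rw [e1, integral_sub hia hib] at hgi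
  linear_combination hgi

lemma Pr.first0 (h : Pr Ω z v) (T : F →L[ℂ] F) (hT : ∀ a b : F, inner ℂ (T a) b = inner ℂ a (T b))
    {c : E → ℝ} (hc : ContDiffOn ℝ ∞ c Ω) (e : E) {zd vd : E → F} (hz : ∀ p, zd p = fderiv ℝ z p e)
    (hv : ∀ p ∈ Ω, vd p = fderiv ℝ v p e) (h0 : ∀ p ∈ Ω, fderiv ℝ c p e = 0) :
    IsG μ (fun p => inner ℂ ((-Complex.I) • ((c p : ℝ) : ℂ) • T (zd p)) (v p))
      (fun p => inner ℂ (z p) ((-Complex.I) • ((c p : ℝ) : ℂ) • T (vd p)))
      (fun _ => 0) := by
  have h1 := h.first (μ := μ) T hT hc e hz hv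
  have h2 : (fun p => inner ℂ (z p) ((-Complex.I) • ((fderiv ℝ c p e : ℝ) : ℂ) • T (v p))) =
      fun _ => (0 : ℂ) := by
    funext p
    by_cases hp : p ∈ tsupport z
    · rw [h0 p (h.sub hp)]
      simp
    · rw [h.z0' hp]
      simp
  rw [h2] at h1
  exact h1

/-- zero order operators -/
lemma Pr.zero (h : Pr Ω z v) (M M' : F →L[ℂ] F) (hM : ∀ a b : F, inner ℂ (M a) b = inner ℂ a (M' b))
    {c : E → ℝ} (hc : ContinuousOn c Ω) (s : ℂ) :
    IsG μ (fun p => inner ℂ (s • ((c p : ℝ) : ℂ) • M (z p)) (v p))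
      (fun p => inner ℂ (z p) (s • ((c p : ℝ) : ℂ) • M (v p)))
      (fun p => inner ℂ (z p) (((c p : ℝ) : ℂ) • ((starRingEnd ℂ) s • M' (v p) - s • M (v p)))) := by
  have hO := h.op
  have hzc := h.sm.continuous
  have hvc := h.sv.continuousOn
  have hof := Complex.continuous_ofReal
  have hia : Integrable (fun p => inner ℂ (s • ((c p : ℝ) : ℂ) • M (z p)) (v p)) μ := by
    refine h.int μ ?_ ?_
    · refine ContinuousOn.inner ?_ hvc
      exact (((hof.comp_continuousOn hc).smul (M.continuous.comp_continuousOn hzc.continuousOn))).const_smul _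
    · intro p hp
      rw [h.z0' hp]
      simp
  have hib : Integrable (fun p => inner ℂ (z p) (s • ((c p : ℝ) : ℂ) • M (v p))) μ := by
    refine h.int μ ?_ ?_
    · refine ContinuousOn.inner hzc.continuousOn ?_
      exact (((hof.comp_continuousOn hc).smul (M.continuous.comp_continuousOn hvc))).const_smul _
    · intro p hp
      rw [h.z0' hp]
      simp
  have hik : Integrable (fun p => inner ℂ (z p)
      (((c p : ℝ) : ℂ) • ((starRingEnd ℂ) s • M' (v p) - s • M (v p)))) μ := by
    refine h.int μ ?_ ?_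
    · refine ContinuousOn.inner hzc.continuousOn ?_
      refine (hof.comp_continuousOn hc).smul (ContinuousOn.sub ?_ ?_)
      · exact (M'.continuous.comp_continuousOn hvc).const_smul _
      · exact (M.continuous.comp_continuousOn hvc).const_smul _
    · intro p hp
      rw [h.z0' hp]
      simp
  refine ⟨hia, hib, hik, ?_⟩
  rw [← integral_add hib hik]
  refine integral_congr_ae (Filter.Eventually.of_forall fun p => ?_)
  simp only [inner_smul_left, inner_smul_right, inner_sub_right, hM, Complex.conj_ofReal]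
  ring

/-- symmetric zero order operators -/
lemma Pr.zeroS (h : Pr Ω z v) (M : F →L[ℂ] F) (hM : ∀ a b : F, inner ℂ (M a) b = inner ℂ a (M b))
    {c : E → ℝ} (hc : ContinuousOn c Ω) {s : ℂ} (hs : (starRingEnd ℂ) s = s) :
    IsG μ (fun p => inner ℂ (s • ((c p : ℝ) : ℂ) • M (z p)) (v p))
      (fun p => inner ℂ (z p) (s • ((c p : ℝ) : ℂ) • M (v p)))
      (fun _ => 0) := by
  have h1 := h.zero (μ := μ) M M hM hc s
  simp only [hs, sub_self, smul_zero, inner_zero_right] at h1
  exact h1

end Gen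

end Vale.Agent.P353.Z.AN.Sy
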