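import Vale.Agent.P353.AN.A.StmtT

/-! # P353, all `N`, block A5e: assembly of the tube coordinates -/

open MeasureTheory Filter Topology
open scoped ContDiff

namespace Vale.Agent.P353.Z.AN

variable {d dh dm : ℕ} {F : Type*} [NormedAddCommGroup F] [InnerProductSpace ℂ F]

theorem tbf_emb_smul (φ : Spl dh dm d) (R : ℝ) (y : Cfg dh) (w : Wsp dm) :
    emb φ (R • y) (R • w) = R • emb φ y w := by
  ext ⟨i, A⟩
  obtain ⟨s, rfl⟩ := φ.surjective A
  rw [PiLp.smul_apply]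
  rcases s with A | B
  · simp [emb]
  · refine Fin.lastCases ?_ (fun j => ?_) i
    · simp only [emb, Equiv.symm_apply_apply, Sum.elim_inr, Fin.lastCases_last, smul_eq_mul,
        mul_zero]
    · simp [emb]

theorem tbf_ro_smul (O : Matrix (Fin d) (Fin d) ℝ) (R : ℝ) (x : Cfg d) :
    ro O (R • x) = R • ro O x := by
  ext p
  simp only [ro, PiLp.smul_apply, smul_eq_mul, Finset.mul_sum]
  exact Finset.sum_congr rfl fun B _ => by ring

theorem tbf_tub_smul (S : Setup d F) (φ : Spl dh dm d) (a : EuclideanSpace ℝ (Fin dm)) (R : ℝ)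
    (p : Cfg dh × Wsp dm) : tub S φ a (R • p) = R • tub S φ a p := by
  rw [tub, tub, Prod.smul_fst, Prod.smul_snd, tbf_emb_smul, tbf_ro_smul]

theorem tbf_nb {y₀ : Cfg dh} {dm : ℕ} {R ε : ℝ} (hR : 0 < R) (p : Cfg dh × Wsp dm) :
    R • p ∈ Nb y₀ dm R ε ↔ p ∈ Nb y₀ dm 1 ε := by
  simp only [Nb, Set.mem_ofPred_eq, Prod.smul_fst, Prod.smul_snd, one_smul, mul_one]
  rw [← smul_sub, norm_smul, norm_smul, Real.norm_of_nonneg hR.le, mul_comm ε R,
    mul_lt_mul_iff_right₀ hR, mul_lt_mul_iff_right₀ hR]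

theorem tbf_tube (S : Setup d F) (φ : Spl dh dm d) {y₀ : Cfg dh} {R ε ρ : ℝ} (hR : 0 < R)
    (x : Cfg d) : R • x ∈ Tube S φ y₀ R ε ρ ↔ x ∈ Tube S φ y₀ 1 ε ρ := by
  constructor
  · rintro ⟨a, ha, p, hp, h⟩
    refine ⟨a, ha, R⁻¹ • p, ?_, ?_⟩
    · rw [← tbf_nb hR, smul_inv_smul₀ hR.ne']
      exact hp
    · rw [tbf_tub_smul, ← h, inv_smul_smul₀ hR.ne']
  · rintro ⟨a, ha, p, hp, rfl⟩
    exact ⟨a, ha, R • p, (tbf_nb hR p).2 hp, (tbf_tub_smul S φ a R p).symm⟩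

theorem tbf_tube' (S : Setup d F) (φ : Spl dh dm d) {y₀ : Cfg dh} {R ε ρ : ℝ} (hR : 0 < R) :
    Tube S φ y₀ R ε ρ = (fun x => R⁻¹ • x) ⁻¹' Tube S φ y₀ 1 ε ρ := by
  ext x
  rw [Set.mem_preimage, ← tbf_tube S φ hR, smul_inv_smul₀ hR.ne']

theorem tbf_continuous_emb (φ : Spl dh dm d) :
    Continuous fun p : Cfg dh × Wsp dm => emb φ p.1 p.2 := by
  refine (PiLp.continuous_toLp 2 _).comp (continuous_pi fun q => ?_)
  rcases φ.symm q.2 with A | B
  · simp only [Sum.elim_inl]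
    fun_prop
  · simp only [Sum.elim_inr]
    refine Fin.lastCases ?_ (fun j => ?_) q.1
    · simp only [Fin.lastCases_last]
      fun_prop
    · simp only [Fin.lastCases_castSucc]
      fun_prop

theorem tbf_continuous_Jd (S : Setup d F) (φ : Spl dh dm d) :
    Continuous fun y : Cfg dh => S.Jd φ y := by
  unfold Setup.Jd Setup.Dy Setup.Dm
  refine continuous_abs.comp (Continuous.matrix_det ?_)
  refine continuous_matrix fun B C => ?_
  simp only [Matrix.of_apply]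
  fun_prop

/-- the constant of the tube coordinates -/
theorem tbf_const {dm : ℕ} (j : EuclideanSpace ℝ (Fin dm) → ℝ) (hj : Continuous j) (hj0 : j 0 = 1)
    {ρ : ℝ} (hρ : 0 < ρ) : ∃ c : ℝ, 0 < c ∧
      ∫⁻ a in {a : EuclideanSpace ℝ (Fin dm) | ‖a‖ < ρ}, ENNReal.ofReal |j a| = ENNReal.ofReal c := by
  have hball : {a : EuclideanSpace ℝ (Fin dm) | ‖a‖ < ρ} = Metric.ball 0 ρ := by
    ext a
    simp
  rw [hball]
  have hint : IntegrableOn (fun a => |j a|) (Metric.ball (0 : EuclideanSpace ℝ (Fin dm)) ρ) :=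
    ((hj.abs.continuousOn.integrableOn_compact (isCompact_closedBall 0 ρ))).mono_set
      Metric.ball_subset_closedBall
  refine ⟨∫ a in Metric.ball (0 : EuclideanSpace ℝ (Fin dm)) ρ, |j a|, ?_, ?_⟩
  · rw [setIntegral_pos_iff_support_of_nonneg_ae (ae_of_all _ fun a => abs_nonneg _) hint]
    have hopen : IsOpen (Function.support (fun a => |j a|) ∩
        Metric.ball (0 : EuclideanSpace ℝ (Fin dm)) ρ) :=
      (isOpen_ne_fun hj.abs continuous_const).inter Metric.isOpen_ball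
    refine hopen.measure_pos volume ⟨0, ?_, Metric.mem_ball_self hρ⟩
    simp [hj0]
  · rw [ofReal_integral_eq_lintegral_ofReal hint (ae_of_all _ fun a => abs_nonneg _)]

theorem tube_stmt (S : Setup d F) : TubeOfStmt S := by
  intro hD hC hI dh dm φ y₀ hS
  obtain ⟨hsm, j, hj, hj0, hdet⟩ := hD dh dm φ hS.sub
  obtain ⟨e, he, hmp⟩ := hC d dh dm φ
  obtain ⟨ε₀, ρ₀, hε₀, hρ₀, hIn⟩ := hI dh dm φ y₀ hS
  refine ⟨ε₀, ρ₀, hε₀, hρ₀, fun ε ρ hε hεε hρ hρρ => ?_⟩
  obtain ⟨δ, hδ, hopen, hball, hinj⟩ := hIn ε ρ hε hεε hρ hρρ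
  obtain ⟨c, hc, hcc⟩ := tbf_const j hj hj0 hρ
  refine ⟨c, δ, hc, hδ, fun R hR => ?_⟩
  have hinjR : ∀ a a' p p', ‖a‖ < ρ → ‖a'‖ < ρ → p ∈ Nb y₀ dm R ε → p' ∈ Nb y₀ dm R ε →
      tub S φ a p = tub S φ a' p' → a = a' ∧ p = p' := by
    intro a a' p p' ha ha' hp hp' h
    have hp1 : R⁻¹ • p ∈ Nb y₀ dm 1 ε := by
      rw [← tbf_nb hR, smul_inv_smul₀ hR.ne']
      exact hp
    have hp1' : R⁻¹ • p' ∈ Nb y₀ dm 1 ε := by
      rw [← tbf_nb hR, smul_inv_smul₀ hR.ne']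
      exact hp'
    have h1 := hinj a a' (R⁻¹ • p) (R⁻¹ • p') ha ha' hp1 hp1' (by
      rw [tbf_tub_smul, tbf_tub_smul, h])
    exact ⟨h1.1, smul_right_injective _ (inv_ne_zero hR.ne') h1.2⟩
  refine ⟨?_, ?_, hinjR, ?_⟩
  · rw [tbf_tube' S φ hR]
    exact hopen.preimage (continuous_const_smul _)
  · intro x hx
    rw [tbf_tube' S φ hR, Set.mem_preimage]
    apply hball
    rw [Metric.mem_ball, dist_eq_norm] at hx ⊢
    have h1 : R⁻¹ • x - emb φ y₀ 0 = R⁻¹ • (x - R • emb φ y₀ 0) := by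
      rw [smul_sub, inv_smul_smul₀ hR.ne']
    rw [h1, norm_smul, norm_inv, Real.norm_of_nonneg hR.le]
    calc R⁻¹ * ‖x - R • emb φ y₀ 0‖ < R⁻¹ * (δ * R) := by gcongr
      _ = δ := by field_simp
  · intro f hf hinv
    obtain ⟨B, hBdef⟩ : ∃ B : Set (Cfg d), B = {z | ‖zm φ z‖ < ρ ∧ (zy φ z, zw φ z) ∈ Nb y₀ dm R ε} :=
      ⟨_, rfl⟩
    obtain ⟨T, hTdef⟩ : ∃ T : Set (EuclideanSpace ℝ (Fin dm) × (Cfg dh × Wsp dm)),
        T = {a : EuclideanSpace ℝ (Fin dm) | ‖a‖ < ρ} ×ˢ Nb y₀ dm R ε := ⟨_, rfl⟩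
    have hNb : IsOpen (Nb y₀ dm R ε) := by
      have h2 : IsOpen {p : Cfg dh × Wsp dm | ‖p.1 - R • y₀‖ < ε * R} :=
        isOpen_lt (by fun_prop) (by fun_prop)
      have h3 : IsOpen {p : Cfg dh × Wsp dm | ‖p.2‖ < ε * R} :=
        isOpen_lt (by fun_prop) (by fun_prop)
      exact h2.inter h3
    have hA : IsOpen {a : EuclideanSpace ℝ (Fin dm) | ‖a‖ < ρ} :=
      isOpen_lt (by fun_prop) (by fun_prop)
    have hT : IsOpen T := by
      rw [hTdef]
      exact hA.prod hNb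
    have hBT : B = e ⁻¹' T := by
      rw [hBdef, hTdef]
      ext z
      simp only [Set.mem_ofPred_eq, Set.mem_preimage, he, Set.mem_prod]
    have hB : MeasurableSet B := by
      rw [hBT]
      exact (hT.preimage e.continuous).measurableSet
    have himg : Tube S φ y₀ R ε ρ = tz S φ '' B := by
      ext x
      constructor
      · rintro ⟨a, ha, p, hp, rfl⟩
        have h1 : e (e.symm (a, p)) = (a, p) := e.apply_symm_apply _
        have h2 := he (e.symm (a, p))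
        rw [h1] at h2
        refine ⟨e.symm (a, p), ?_, ?_⟩
        · rw [hBT, Set.mem_preimage, h1, hTdef]
          exact ⟨ha, hp⟩
        · have h3 := congrArg Prod.fst h2
          have h4 := congrArg Prod.snd h2
          simp only at h3 h4
          rw [tz, ← h3, ← h4]
      · rintro ⟨z, hz, rfl⟩
        rw [hBdef] at hz
        exact ⟨zm φ z, hz.1, (zy φ z, zw φ z), hz.2, rfl⟩
    have hinjB : Set.InjOn (tz S φ) B := by
      intro z hz z' hz' h
      rw [hBdef] at hz hz'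
      have h1 := hinjR _ _ _ _ hz.1 hz'.1 hz.2 hz'.2 h
      apply e.injective
      rw [he, he, h1.1, h1.2]
    rw [himg, lintegral_image_eq_lintegral_abs_det_fderiv_mul volume hB
      (fun z _ => ((hsm.differentiable (by simp)) z).hasFDerivAt.hasFDerivWithinAt) hinjB]
    have hcongr : ∫⁻ z in B, ENNReal.ofReal |(fderiv ℝ (tz S φ) z).det| * f (tz S φ z) =
        ∫⁻ z in e ⁻¹' T, (fun q : EuclideanSpace ℝ (Fin dm) × (Cfg dh × Wsp dm) =>
          ENNReal.ofReal |j q.1| * (f (emb φ q.2.1 q.2.2) * ENNReal.ofReal (S.Jd φ q.2.1))) (e z) := by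
      rw [← hBT]
      refine setLIntegral_congr_fun hB fun z hz => ?_
      rw [hBdef] at hz
      simp only [he]
      rw [hdet z, ENNReal.ofReal_mul (by unfold Setup.Jd; exact abs_nonneg _), tz,
        hinv _ _ hz.1 hz.2]
      ring
    rw [hcongr]
    have hmeas1 : Measurable fun a : EuclideanSpace ℝ (Fin dm) => ENNReal.ofReal |j a| :=
      (hj.abs.measurable).ennreal_ofReal
    have hmeas2 : Measurable fun p : Cfg dh × Wsp dm =>
        f (emb φ p.1 p.2) * ENNReal.ofReal (S.Jd φ p.1) :=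
      (hf.comp (tbf_continuous_emb φ).measurable).mul
        (((tbf_continuous_Jd S φ).comp continuous_fst).measurable).ennreal_ofReal
    have hmeas3 : Measurable fun q : EuclideanSpace ℝ (Fin dm) × (Cfg dh × Wsp dm) =>
        ENNReal.ofReal |j q.1| * (f (emb φ q.2.1 q.2.2) * ENNReal.ofReal (S.Jd φ q.2.1)) :=
      (hmeas1.comp measurable_fst).mul (hmeas2.comp measurable_snd)
    rw [hmp.setLIntegral_comp_preimage hT.measurableSet hmeas3]
    rw [hTdef, ← Measure.prod_restrict]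
    rw [lintegral_prod_mul hmeas1.aemeasurable hmeas2.aemeasurable, hcc]

end Vale.Agent.P353.Z.AN
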